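import Vale.Agent.P141.H927.Spec3
import Vale.Agent.P141.H501.CFglue

/-!
# P141, CE: the price with one low vector edge, bridge between the letters

* `CenStL3`: the price in the costs of the level with a factor `β ^ (1 / 8)` and a small loss in
  the power of `t`;
* `cenStL2_of_L3 : CenStL3 → CenStL2`.
-/

namespace Vale.Agent.P141.H927

open Finset
open Vale.Agent.P141.PL (Pt fc)
open Vale.Agent.P141.PL.H315 (iv avg)
open Vale.Agent.P141.PL.H95 (gr)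
open Vale.Agent.P141.H639 (cenf Dis co pfw)
open Vale.Agent.P141.H971 (Cen)
open Vale.Agent.P141.H347.Gs (Ex e2 e2_pos e2_le e2_mul)
open Vale.Agent.P141.H501 (e2_rpow)

noncomputable section

open scoped Classical

/-- **The centre atoms with one low vector edge in the costs of the level `j`**: factor
`β ^ (1 / 8)`, loss `η` in the exponent of the price, potentials arbitrary. -/
def CenStL3 : Prop :=
  ∀ c η : ℝ, 0 ≤ c → c ≤ 1 → 0 < η → η ≤ 1 / 40 → ∀ Kc e0 : ℝ, 0 < Kc → 0 < e0 →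
  ∃ C : ℝ, 0 ≤ C ∧
  ∀ e : Ex, e.K = Kc → e.c = c → ∀ (σ : ℤ) (r : Fin 4) (j k : ℕ) (x : ℤ) (q : Pt)
    (l m n : Fin 3), Dis l m n →
    ∀ (V : Type) [NormedAddCommGroup V] [InnerProductSpace ℝ V] [FiniteDimensional ℝ V]
    (h p W β : ℝ) (g : ℤ → ℤ → ℝ) (u v : ℤ → ℤ → V), 0 ≤ h → 0 ≤ p → 0 ≤ W → 0 < β → β ≤ 1 →
    Cen (iv k (co m q)) (iv k (co n q)) (iv k (co l q)) h p e0 W g u v →
    ((∀ z ∈ iv k (co l q), ∀ y ∈ iv k (co m q), ‖u z y‖ ^ 2 ≤ β ^ 2 * (h ^ 2 * e0)) ∨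
      ∀ z ∈ iv k (co l q), ∀ y ∈ iv k (co n q), ‖v z y‖ ^ 2 ≤ β ^ 2 * (h ^ 2 * e0)) →
    ((e.mp j).cw σ r).cst (pfw (fc r) k q (cenf l m n g u v)) k ((gr 7 σ).cube k x) ≤
      C * (e2 (-(1 - c - η)) j * β ^ (1 / 8 : ℝ) * (√h * (p ^ 2 * √p)) * 8 ^ k)

/-- **The bridge.** -/
theorem cenStL2_of_L3 (H : CenStL3) : CenStL2 := by
  intro b hb hb1
  refine ⟨b / 64, b / 64, by positivity, by positivity, fun c hc hcc Kc L e0 hKc hL he0 => ?_⟩
  obtain ⟨C, hC, H⟩ := H c (b / 64) hc (by linarith) (by positivity) (by linarith) Kc e0 hKc he0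
  refine ⟨C * (L + 1) ^ (1 / 16 : ℝ), by positivity, ?_⟩
  intro e heK hec σ r j k x q l m n hd V _ _ _ h p g u v hh hp hcen hlow
  set M : ℝ := (L + 1) * e2 (-b) j with hM
  have hM0 : 0 < M := mul_pos (by linarith) (e2_pos _ _)
  set β : ℝ := √(min 1 M) with hβ
  have hmin : 0 < min 1 M := lt_min one_pos hM0
  have hβ0 : 0 < β := Real.sqrt_pos.2 hmin
  have hβ1 : β ≤ 1 := Real.sqrt_le_one.mpr (min_le_left _ _)
  have hβ2 : β ^ 2 = min 1 M := Real.sq_sqrt hmin.le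
  have hhe : 0 ≤ h ^ 2 * e0 := by positivity
  have hW : 0 ≤ L * e2 (-(2 - c)) j * (h * p) := by
    have := e2_pos (-(2 - c)) j
    positivity
  have hlow2 : ∀ w : ℝ, w ≤ h ^ 2 * e0 → w ≤ L * (e2 (-b) j * (h ^ 2 * e0)) →
      w ≤ β ^ 2 * (h ^ 2 * e0) := by
    intro w h1 h2
    rw [hβ2]
    rcases le_total 1 M with h3 | h3
    · rw [min_eq_left h3]; linarith
    · rw [min_eq_right h3, hM]
      have h4 := mul_nonneg (e2_pos (-b) j).le hhe
      nlinarith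
  have key := H e heK hec σ r j k x q l m n hd V h p _ β g u v hh hp hW hβ0 hβ1 hcen (by
    rcases hlow with h1 | h1
    · exact Or.inl fun z hz y hy => hlow2 _ (hcen.u_le z hz y hy) (h1 z hz y hy)
    · exact Or.inr fun z hz y hy => hlow2 _ (hcen.v_le z hz y hy) (h1 z hz y hy))
  refine key.trans ?_
  -- the power of the low edge
  have e1 : β ^ (1 / 8 : ℝ) ≤ (L + 1) ^ (1 / 16 : ℝ) * e2 (-(b / 16)) j := by
    have h1 : β ^ (1 / 8 : ℝ) = (min 1 M) ^ (1 / 16 : ℝ) := by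
      rw [hβ, Real.sqrt_eq_rpow, ← Real.rpow_mul hmin.le]
      norm_num
    have h2 : (min 1 M) ^ (1 / 16 : ℝ) ≤ M ^ (1 / 16 : ℝ) :=
      Real.rpow_le_rpow hmin.le (min_le_right _ _) (by norm_num)
    have h3 : M ^ (1 / 16 : ℝ) = (L + 1) ^ (1 / 16 : ℝ) * e2 (-(b / 16)) j := by
      rw [hM, Real.mul_rpow (by linarith) (e2_pos _ _).le, e2_rpow]
      congr 2
      ring
    rw [h1, ← h3]
    exact h2
  have e3 : e2 (-(1 - c - b / 64)) j * e2 (-(b / 16)) j ≤ e2 (-(1 + b / 64)) j := by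
    rw [e2_mul]
    refine e2_le ?_ j
    linarith
  have hX : 0 ≤ √h * (p ^ 2 * √p) := by positivity
  have h0 := (e2_pos (-(1 - c - b / 64)) j).le
  have h01 := (e2_pos (-(b / 16)) j).le
  have hL1 : 0 ≤ (L + 1) ^ (1 / 16 : ℝ) := by positivity
  calc C * (e2 (-(1 - c - b / 64)) j * β ^ (1 / 8 : ℝ) * (√h * (p ^ 2 * √p)) * 8 ^ k)
      ≤ C * (e2 (-(1 - c - b / 64)) j * ((L + 1) ^ (1 / 16 : ℝ) * e2 (-(b / 16)) j) *
          (√h * (p ^ 2 * √p)) * 8 ^ k) := by gcongr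
    _ = C * (L + 1) ^ (1 / 16 : ℝ) * (e2 (-(1 - c - b / 64)) j * e2 (-(b / 16)) j *
          (√h * (p ^ 2 * √p)) * 8 ^ k) := by ring
    _ ≤ _ := by gcongr

end

end Vale.Agent.P141.H927
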