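import Vale.Agent.P141.H927.FewX
import Vale.Agent.P141.H573.MomPerm

/-!
# P141, composite events, few singular values: level form on a box

`few_triv`, `few_all`: the weighted bound for every level `t > 0`;
`few_level`: the same with normalised averages, box in the order of the singular level
(gauge variables first, fibre variable last), functions cut to small sets of every fibre.
-/

namespace Vale.Agent.P141.H927

open Finset
open Vale.Agent.P141.PL.H315 (avg atm Tri e12 e13 e23)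
open Vale.Agent.P141.H922 (n2 n4 nN n2_nonneg n4_nonneg nN_nonneg)
open Vale.Agent.P141.H944 (UnifB)
open Vale.Agent.P141.H834 (UnifP)

noncomputable section

/-- the trivial bound of the fourth power -/
theorem few_triv {c : ℤ × ℤ × ℤ} (hc2 : c.2.2 ≠ 0) {f : ℤ → ℝ}
    {I0 I1 I2 W : Finset ℤ}
    (hW : ∀ x ∈ I0, ∀ y ∈ I1, ∀ z ∈ I2, c.1 * x + c.2.1 * y + c.2.2 * z ∈ W) {E : ℝ}
    (hE0 : 0 ≤ E) (hE : ∑ y ∈ W, f y ^ 2 ≤ E)
    {X : Finset ℤ} (hX : X ⊆ I0) {D1 D2 : ℤ → Finset ℤ} (hD1 : ∀ x ∈ X, D1 x ⊆ I1)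
    (hD2 : ∀ x ∈ X, D2 x ⊆ I2) {D : ℝ} (hD0 : 0 ≤ D) (hd1 : ∀ x ∈ X, ((D1 x).card : ℝ) ≤ D)
    {a : ℤ → ℤ → ℝ} {m : ℝ} (ha : ∀ y z, |a y z| ≤ m)
    {φ ψ : ℤ → ℤ → ℝ} (hφ : ∀ x ∈ X, ∑ y ∈ D1 x, φ x y ^ 2 ≤ 1)
    (hψ : ∀ x ∈ X, ∑ z ∈ D2 x, ψ x z ^ 2 ≤ 1) :
    (∑ x ∈ X, ∑ y ∈ D1 x, ∑ z ∈ D2 x, a y z * lf c f x y z * φ x y * ψ x z) ^ 4 ≤
      (X.card : ℝ) ^ 3 * m ^ 2 * D * E ^ 2 * (X.card * m ^ 2 * D) := by
  refine (sum_four X _).trans ?_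
  have key : ∀ x ∈ X, (∑ y ∈ D1 x, ∑ z ∈ D2 x, a y z * lf c f x y z * φ x y * ψ x z) ^ 4 ≤
      (m ^ 2 * (D * E)) ^ 2 := by
    intro x hx
    have h1 : (∑ y ∈ D1 x, ∑ z ∈ D2 x, a y z * lf c f x y z * φ x y * ψ x z) ^ 2 ≤
        (∑ q ∈ D1 x ×ˢ D2 x, (a q.1 q.2 * lf c f x q.1 q.2) ^ 2) *
          ∑ q ∈ D1 x ×ˢ D2 x, (φ x q.1 * ψ x q.2) ^ 2 := by
      have := sum_mul_sq_le_sq_mul_sq (D1 x ×ˢ D2 x) (fun q => a q.1 q.2 * lf c f x q.1 q.2)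
        (fun q => φ x q.1 * ψ x q.2)
      rw [sum_product] at this
      refine le_trans (le_of_eq ?_) this
      congr 1
      exact sum_congr rfl fun y _ => sum_congr rfl fun z _ => by ring
    have h2 : ∑ q ∈ D1 x ×ˢ D2 x, (φ x q.1 * ψ x q.2) ^ 2 ≤ 1 := by
      rw [sum_product]
      have e : ∑ y ∈ D1 x, ∑ z ∈ D2 x, (φ x (y, z).1 * ψ x (y, z).2) ^ 2 =
          (∑ y ∈ D1 x, φ x y ^ 2) * ∑ z ∈ D2 x, ψ x z ^ 2 := by
        rw [sum_mul_sum]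
        exact sum_congr rfl fun y _ => sum_congr rfl fun z _ => by ring
      rw [e]
      calc (∑ y ∈ D1 x, φ x y ^ 2) * ∑ z ∈ D2 x, ψ x z ^ 2 ≤ 1 * 1 :=
            mul_le_mul (hφ x hx) (hψ x hx) (sum_nonneg fun _ _ => sq_nonneg _) zero_le_one
        _ = 1 := one_mul 1
    have h3 : ∑ q ∈ D1 x ×ˢ D2 x, (a q.1 q.2 * lf c f x q.1 q.2) ^ 2 ≤ m ^ 2 * (D * E) := by
      rw [sum_product]
      have e1 : ∀ y ∈ D1 x, ∑ z ∈ D2 x, (a (y, z).1 (y, z).2 * lf c f x (y, z).1 (y, z).2) ^ 2 ≤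
          m ^ 2 * E := by
        intro y hy
        have l := line_sq (W := W) (A := D2 x) (f := f) (E := E) hE
          (e := fun z => c.1 * x + c.2.1 * y + c.2.2 * z)
          (fun p _ q _ hpq => by
            have : c.2.2 * p = c.2.2 * q := by simpa using hpq
            exact mul_left_cancel₀ hc2 this)
          (fun z hz => hW x (hX hx) y (hD1 x hx hy) z (hD2 x hx hz))
        calc ∑ z ∈ D2 x, (a y z * lf c f x y z) ^ 2 ≤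
            ∑ z ∈ D2 x, m ^ 2 * f (c.1 * x + c.2.1 * y + c.2.2 * z) ^ 2 := by
              refine sum_le_sum fun z _ => ?_
              rw [mul_pow]
              refine mul_le_mul_of_nonneg_right ?_ (sq_nonneg _)
              rw [← sq_abs]
              exact pow_le_pow_left₀ (abs_nonneg _) (ha y z) 2
          _ = m ^ 2 * ∑ z ∈ D2 x, f (c.1 * x + c.2.1 * y + c.2.2 * z) ^ 2 := by rw [mul_sum]
          _ ≤ m ^ 2 * E := mul_le_mul_of_nonneg_left l (sq_nonneg m)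
      refine (sum_le_sum e1).trans ?_
      rw [sum_const, nsmul_eq_mul]
      calc ((D1 x).card : ℝ) * (m ^ 2 * E) ≤ D * (m ^ 2 * E) :=
            mul_le_mul_of_nonneg_right (hd1 x hx) (by positivity)
        _ = m ^ 2 * (D * E) := by ring
    have h4 : (∑ y ∈ D1 x, ∑ z ∈ D2 x, a y z * lf c f x y z * φ x y * ψ x z) ^ 2 ≤
        m ^ 2 * (D * E) := by
      refine h1.trans ((mul_le_mul h3 h2 (sum_nonneg fun _ _ => sq_nonneg _)
        (by positivity)).trans (le_of_eq (mul_one _)))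
    calc (∑ y ∈ D1 x, ∑ z ∈ D2 x, a y z * lf c f x y z * φ x y * ψ x z) ^ 4 =
        ((∑ y ∈ D1 x, ∑ z ∈ D2 x, a y z * lf c f x y z * φ x y * ψ x z) ^ 2) ^ 2 := by ring
      _ ≤ _ := pow_le_pow_left₀ (sq_nonneg _) h4 2
  refine (mul_le_mul_of_nonneg_left (sum_le_sum key) (by positivity)).trans (le_of_eq ?_)
  rw [sum_const, nsmul_eq_mul]
  ring

/-- **few singular values, weighted form, every level** -/
theorem few_all {c : ℤ × ℤ × ℤ} (hc : c.1 ≠ 0 ∧ c.2.1 ≠ 0 ∧ c.2.2 ≠ 0) {f : ℤ → ℝ}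
    {I0 I1 I2 W : Finset ℤ}
    (hW : ∀ x ∈ I0, ∀ y ∈ I1, ∀ z ∈ I2, c.1 * x + c.2.1 * y + c.2.2 * z ∈ W)
    {N : ℕ} (hN : 0 < N) (h0 : I0.card = N) (h1 : I1.card = N) (h2 : I2.card = N) {t L : ℝ}
    (ht : 0 < t) (hL : 1 ≤ L) (hE : ∑ y ∈ W, f y ^ 2 ≤ L * N)
    (hU : UnifB t I0 I1 I2 fun q => lf c f q.1 q.2.1 q.2.2)
    {X : Finset ℤ} (hX : X ⊆ I0) {D1 D2 : ℤ → Finset ℤ} (hD1 : ∀ x ∈ X, D1 x ⊆ I1)
    (hD2 : ∀ x ∈ X, D2 x ⊆ I2) {D : ℝ} (hD0 : 0 < D) (hd1 : ∀ x ∈ X, ((D1 x).card : ℝ) ≤ D)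
    (hd2 : ∀ x ∈ X, ((D2 x).card : ℝ) ≤ D)
    {a : ℤ → ℤ → ℝ} {m : ℝ} (hm : 0 ≤ m) (ha : ∀ y z, |a y z| ≤ m)
    {φ ψ : ℤ → ℤ → ℝ} (hφ : ∀ x ∈ X, ∑ y ∈ D1 x, φ x y ^ 2 ≤ 1)
    (hψ : ∀ x ∈ X, ∑ z ∈ D2 x, ψ x z ^ 2 ≤ 1) :
    (∑ x ∈ X, ∑ y ∈ D1 x, ∑ z ∈ D2 x, a y z * lf c f x y z * φ x y * ψ x z) ^ 4 ≤
      20000 * ((X.card : ℝ) ^ 3 * m ^ 2 * D * (L * N) ^ 2 *
        (X.card * m ^ 2 * D + ∑ y ∈ I1, ∑ z ∈ I2, a y z ^ 2) * t ^ (1 / 90 : ℝ)) := by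
  by_cases ht1 : t ≤ 1
  · exact few_finalW hc hW hN h0 h1 h2 ht ht1 hL hE hU hX hD1 hD2 hD0 hd1 hd2 hm ha hφ hψ
  · have ht2 : 1 ≤ t ^ (1 / 90 : ℝ) := Real.one_le_rpow (not_le.mp ht1).le (by norm_num)
    have hN0 : (0 : ℝ) < N := by exact_mod_cast hN
    have hE0 : 0 ≤ L * (N : ℝ) := by positivity
    have h := few_triv hc.2.2 hW hE0 hE hX hD1 hD2 hD0.le hd1 ha hφ hψ
    refine h.trans ?_
    have hNa : 0 ≤ ∑ y ∈ I1, ∑ z ∈ I2, a y z ^ 2 :=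
      sum_nonneg fun _ _ => sum_nonneg fun _ _ => sq_nonneg _
    have hX0 : (0 : ℝ) ≤ X.card := Nat.cast_nonneg _
    have hP : 0 ≤ (X.card : ℝ) ^ 3 * m ^ 2 * D * (L * N) ^ 2 := by positivity
    have hQ : 0 ≤ (X.card : ℝ) * m ^ 2 * D := by positivity
    calc (X.card : ℝ) ^ 3 * m ^ 2 * D * (L * N) ^ 2 * (X.card * m ^ 2 * D)
        ≤ (X.card : ℝ) ^ 3 * m ^ 2 * D * (L * N) ^ 2 *
          (X.card * m ^ 2 * D + ∑ y ∈ I1, ∑ z ∈ I2, a y z ^ 2) := by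
          refine mul_le_mul_of_nonneg_left ?_ hP
          linarith
      _ = 1 * ((X.card : ℝ) ^ 3 * m ^ 2 * D * (L * N) ^ 2 *
          (X.card * m ^ 2 * D + ∑ y ∈ I1, ∑ z ∈ I2, a y z ^ 2) * 1) := by ring
      _ ≤ _ := by gcongr; norm_num

/-- **few singular values, level form.** -/
theorem few_level {A B C W : Finset ℤ} {N : ℕ} (hN : 0 < N) (hA : A.card = N) (hB : B.card = N)
    (hC : C.card = N) {c : ℤ × ℤ × ℤ} (hc : c.1 ≠ 0 ∧ c.2.1 ≠ 0 ∧ c.2.2 ≠ 0) {f : ℤ → ℝ}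
    (hW : ∀ x ∈ A, ∀ y ∈ B, ∀ z ∈ C, c.1 * x + c.2.1 * y + c.2.2 * z ∈ W) {L : ℝ} (hL : 1 ≤ L)
    (hE : ∑ y ∈ W, f y ^ 2 ≤ L * N) {δ : ℝ} (hδ : 0 < δ)
    (hU : UnifP δ A B C fun q => f (c.1 * q.1 + c.2.1 * q.2.1 + c.2.2 * q.2.2))
    {X : Finset ℤ} (hX : X ⊆ C) {D1 D2 : ℤ → Finset ℤ} (hD1 : ∀ z ∈ X, D1 z ⊆ A)
    (hD2 : ∀ z ∈ X, D2 z ⊆ B) {P d : ℝ} (hd0 : 0 < d) (hP : (X.card : ℝ) ≤ P * N)
    (hd1 : ∀ z ∈ X, ((D1 z).card : ℝ) ≤ d * N) (hd2 : ∀ z ∈ X, ((D2 z).card : ℝ) ≤ d * N)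
    {a : ℤ → ℤ → ℝ} {m : ℝ} (hm : 0 ≤ m) (ha : ∀ x ∈ A, ∀ y ∈ B, |a x y| ≤ m) {p : ℝ}
    (hp : (avg A fun x => avg B fun y => a x y ^ 2) ≤ p ^ 2)
    {φ ψ : ℤ → ℤ → ℝ} (hφ : ∀ z ∈ X, (avg A fun x => φ z x ^ 2) ≤ 1)
    (hψ : ∀ z ∈ X, (avg B fun y => ψ z y ^ 2) ≤ 1) :
    (avg C fun z => if z ∈ X then avg A fun x => avg B fun y =>
      a x y * f (c.1 * x + c.2.1 * y + c.2.2 * z) *
        ((if x ∈ D1 z then φ z x else 0) * (if y ∈ D2 z then ψ z y else 0)) else 0) ^ 4 ≤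
      20000 * (P ^ 3 * m ^ 2 * d * L ^ 2 * (P * m ^ 2 * d + p ^ 2) * δ ^ (1 / 90 : ℝ)) := by
  classical
  have hN0 : (0 : ℝ) < N := by exact_mod_cast hN
  have hs : 0 < √(N : ℝ) := Real.sqrt_pos.mpr hN0
  have hs2 : √(N : ℝ) * √(N : ℝ) = N := Real.mul_self_sqrt hN0.le
  have hcA : (A.card : ℝ) = N := by rw [hA]
  have hcB : (B.card : ℝ) = N := by rw [hB]
  have hcC : (C.card : ℝ) = N := by rw [hC]
  set c' : ℤ × ℤ × ℤ := (c.2.2, c.1, c.2.1) with hc'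
  set a' : ℤ → ℤ → ℝ := fun x y => if x ∈ A ∧ y ∈ B then a x y else 0 with ha'
  have ha'm : ∀ x y, |a' x y| ≤ m := by
    intro x y
    rw [ha']; dsimp only
    split_ifs with h
    · exact ha x h.1 y h.2
    · simpa using hm
  have hlf : ∀ z x y, lf c' f z x y = f (c.1 * x + c.2.1 * y + c.2.2 * z) := by
    intro z x y
    unfold lf
    congr 1
    rw [hc']; dsimp only; ring
  have hUB : UnifB δ C A B fun q => lf c' f q.1 q.2.1 q.2.2 := by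
    have h := H573.unifP_312 hU
    intro u
    have := h u
    refine le_trans (le_of_eq ?_) this
    congr 1
    refine congrArg (avg _) (funext fun q => ?_)
    dsimp only
    rw [hlf]
  have key := few_all (c := c') (I0 := C) (I1 := A) (I2 := B) (W := W) (f := f)
    ⟨hc.2.2, hc.1, hc.2.1⟩
    (fun z hz x hx y hy => by
      have := hW x hx y hy z hz
      rw [hc']; dsimp only
      rw [show c.2.2 * z + c.1 * x + c.2.1 * y = c.1 * x + c.2.1 * y + c.2.2 * z by ring]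
      exact this)
    hN hC hA hB hδ hL hE hUB hX hD1 hD2 (D := d * N) (by positivity) hd1 hd2 (a := a') hm ha'm
    (φ := fun z x => φ z x / √N) (ψ := fun z y => ψ z y / √N)
    (fun z hz => by
      have h1 : (avg A fun x => φ z x ^ 2) ≤ 1 := hφ z hz
      unfold avg at h1
      rw [hcA, inv_mul_le_iff₀ hN0, mul_one] at h1
      have h2 : ∑ x ∈ D1 z, (φ z x / √N) ^ 2 ≤ (∑ x ∈ A, φ z x ^ 2) / N := by
        rw [sum_div]
        calc ∑ x ∈ D1 z, (φ z x / √N) ^ 2 = ∑ x ∈ D1 z, φ z x ^ 2 / N :=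
              sum_congr rfl fun x _ => by rw [div_pow, Real.sq_sqrt hN0.le]
          _ ≤ _ := sum_le_sum_of_subset_of_nonneg (hD1 z hz) fun _ _ _ => by positivity
      exact h2.trans ((div_le_one hN0).mpr h1))
    (fun z hz => by
      have h1 : (avg B fun y => ψ z y ^ 2) ≤ 1 := hψ z hz
      unfold avg at h1
      rw [hcB, inv_mul_le_iff₀ hN0, mul_one] at h1
      have h2 : ∑ y ∈ D2 z, (ψ z y / √N) ^ 2 ≤ (∑ y ∈ B, ψ z y ^ 2) / N := by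
        rw [sum_div]
        calc ∑ y ∈ D2 z, (ψ z y / √N) ^ 2 = ∑ y ∈ D2 z, ψ z y ^ 2 / N :=
              sum_congr rfl fun y _ => by rw [div_pow, Real.sq_sqrt hN0.le]
          _ ≤ _ := sum_le_sum_of_subset_of_nonneg (hD2 z hz) fun _ _ _ => by positivity
      exact h2.trans ((div_le_one hN0).mpr h1))
  -- the average as a sum
  have hval : (avg C fun z => if z ∈ X then avg A fun x => avg B fun y =>
      a x y * f (c.1 * x + c.2.1 * y + c.2.2 * z) *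
        ((if x ∈ D1 z then φ z x else 0) * (if y ∈ D2 z then ψ z y else 0)) else 0) =
      (N : ℝ)⁻¹ ^ 2 * ∑ z ∈ X, ∑ x ∈ D1 z, ∑ y ∈ D2 z,
        a' x y * lf c' f z x y * (φ z x / √N) * (ψ z y / √N) := by
    have e1 : ∀ z ∈ X, (avg A fun x => avg B fun y =>
        a x y * f (c.1 * x + c.2.1 * y + c.2.2 * z) *
        ((if x ∈ D1 z then φ z x else 0) * (if y ∈ D2 z then ψ z y else 0))) =
        (N : ℝ)⁻¹ * ∑ x ∈ D1 z, ∑ y ∈ D2 z,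
          a' x y * lf c' f z x y * (φ z x / √N) * (ψ z y / √N) := by
      intro z hz
      unfold avg
      rw [hcA, hcB]
      have e2 : ∑ x ∈ A, (N : ℝ)⁻¹ * ∑ y ∈ B, a x y * f (c.1 * x + c.2.1 * y + c.2.2 * z) *
          ((if x ∈ D1 z then φ z x else 0) * (if y ∈ D2 z then ψ z y else 0)) =
          ∑ x ∈ D1 z, ∑ y ∈ D2 z, a' x y * lf c' f z x y * (φ z x / √N) * (ψ z y / √N) := by
        have s1 : D1 z = A.filter fun x => x ∈ D1 z := by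
          ext x; simp only [mem_filter]; exact ⟨fun h => ⟨hD1 z hz h, h⟩, fun h => h.2⟩
        have s2 : D2 z = B.filter fun y => y ∈ D2 z := by
          ext y; simp only [mem_filter]; exact ⟨fun h => ⟨hD2 z hz h, h⟩, fun h => h.2⟩
        conv_rhs => rw [s1]
        rw [sum_filter]
        refine sum_congr rfl fun x hx => ?_
        by_cases hxd : x ∈ D1 z
        · simp only [hxd, if_true]
          conv_rhs => rw [s2]
          rw [sum_filter, mul_sum]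
          refine sum_congr rfl fun y hy => ?_
          by_cases hyd : y ∈ D2 z
          · simp only [hyd, if_true]
            rw [hlf, ha']
            simp only [hx, hy, and_self, if_true]
            have : φ z x / √(N : ℝ) * (ψ z y / √(N : ℝ)) = (N : ℝ)⁻¹ * (φ z x * ψ z y) := by
              rw [div_mul_div_comm, hs2]
              field_simp
            calc (N : ℝ)⁻¹ * (a x y * f (c.1 * x + c.2.1 * y + c.2.2 * z) * (φ z x * ψ z y)) =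
                a x y * f (c.1 * x + c.2.1 * y + c.2.2 * z) *
                  ((N : ℝ)⁻¹ * (φ z x * ψ z y)) := by ring
              _ = _ := by rw [← this]; ring
          · simp only [hyd, if_false]; ring
        · simp only [hxd, if_false, zero_mul, mul_zero, sum_const_zero]
      rw [e2]
    unfold avg at e1 ⊢
    rw [hcC]
    have s0 : ∑ z ∈ C, (if z ∈ X then (A.card : ℝ)⁻¹ * ∑ x ∈ A, (B.card : ℝ)⁻¹ * ∑ y ∈ B,
        a x y * f (c.1 * x + c.2.1 * y + c.2.2 * z) *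
        ((if x ∈ D1 z then φ z x else 0) * (if y ∈ D2 z then ψ z y else 0)) else 0) =
        ∑ z ∈ X, (N : ℝ)⁻¹ * ∑ x ∈ D1 z, ∑ y ∈ D2 z,
          a' x y * lf c' f z x y * (φ z x / √N) * (ψ z y / √N) := by
      rw [← sum_filter]
      have sX : C.filter (fun z => z ∈ X) = X := by
        ext z; simp only [mem_filter]; exact ⟨fun h => h.2, fun h => ⟨hX h, h⟩⟩
      rw [sX]
      exact sum_congr rfl fun z hz => e1 z hz
    rw [s0, ← mul_sum]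
    ring
  rw [hval, mul_pow]
  have hNa : ∑ x ∈ A, ∑ y ∈ B, a' x y ^ 2 ≤ (N : ℝ) ^ 2 * p ^ 2 := by
    have e1 : ∑ x ∈ A, ∑ y ∈ B, a' x y ^ 2 = (N : ℝ) ^ 2 * (avg A fun x => avg B fun y =>
        a x y ^ 2) := by
      unfold avg
      rw [hcA, hcB]
      have : ∑ x ∈ A, (N : ℝ)⁻¹ * ∑ y ∈ B, a x y ^ 2 = (N : ℝ)⁻¹ * ∑ x ∈ A, ∑ y ∈ B,
          a' x y ^ 2 := by
        rw [mul_sum]
        refine sum_congr rfl fun x hx => ?_
        congr 1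
        refine sum_congr rfl fun y hy => ?_
        rw [ha']; simp only [hx, hy, and_self, if_true]
      rw [this]
      field_simp
    rw [e1]
    exact mul_le_mul_of_nonneg_left hp (by positivity)
  have hX0 : (0 : ℝ) ≤ X.card := Nat.cast_nonneg _
  have hP0 : 0 ≤ P := by
    by_contra h
    have h1 := mul_neg_of_neg_of_pos (not_le.mp h) hN0
    linarith
  have ht0 : 0 ≤ δ ^ (1 / 90 : ℝ) := Real.rpow_nonneg hδ.le _
  have hbound : (X.card : ℝ) ^ 3 * m ^ 2 * (d * N) * (L * N) ^ 2 *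
        (X.card * m ^ 2 * (d * N) + ∑ y ∈ A, ∑ z ∈ B, a' y z ^ 2) * δ ^ (1 / 90 : ℝ) ≤
      (N : ℝ) ^ 8 * (P ^ 3 * m ^ 2 * d * L ^ 2 * (P * m ^ 2 * d + p ^ 2) *
        δ ^ (1 / 90 : ℝ)) := by
    have hNa0 : 0 ≤ ∑ y ∈ A, ∑ z ∈ B, a' y z ^ 2 :=
      sum_nonneg fun _ _ => sum_nonneg fun _ _ => sq_nonneg _
    calc (X.card : ℝ) ^ 3 * m ^ 2 * (d * N) * (L * N) ^ 2 *
        (X.card * m ^ 2 * (d * N) + ∑ y ∈ A, ∑ z ∈ B, a' y z ^ 2) * δ ^ (1 / 90 : ℝ)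
        ≤ (P * N) ^ 3 * m ^ 2 * (d * N) * (L * N) ^ 2 *
        ((P * N) * m ^ 2 * (d * N) + (N : ℝ) ^ 2 * p ^ 2) * δ ^ (1 / 90 : ℝ) := by gcongr
      _ = _ := by ring
  calc ((N : ℝ)⁻¹ ^ 2) ^ 4 * (∑ z ∈ X, ∑ x ∈ D1 z, ∑ y ∈ D2 z,
        a' x y * lf c' f z x y * (φ z x / √N) * (ψ z y / √N)) ^ 4
      ≤ ((N : ℝ)⁻¹ ^ 2) ^ 4 * (20000 * ((X.card : ℝ) ^ 3 * m ^ 2 * (d * N) * (L * N) ^ 2 *
        (X.card * m ^ 2 * (d * N) + ∑ y ∈ A, ∑ z ∈ B, a' y z ^ 2) * δ ^ (1 / 90 : ℝ))) :=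
        mul_le_mul_of_nonneg_left key (by positivity)
    _ ≤ ((N : ℝ)⁻¹ ^ 2) ^ 4 * (20000 * ((N : ℝ) ^ 8 *
        (P ^ 3 * m ^ 2 * d * L ^ 2 * (P * m ^ 2 * d + p ^ 2) * δ ^ (1 / 90 : ℝ)))) := by
        refine mul_le_mul_of_nonneg_left ?_ (by positivity)
        exact mul_le_mul_of_nonneg_left hbound (by norm_num)
    _ = _ := by
        field_simp

end

end Vale.Agent.P141.H927
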