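import Vale.Agent.P141.H971.Dict
import Vale.Agent.P141.H927.FewL

/-!
# P141, composite events, dictionary with many and few singular values: statements and tools

* `CenX`: centre data with an active set `X` of the label vertex, of small density;
* `GenM`: generic uniformity for centre atoms with an active set; `GenL`: for centre atoms with one
  low vector edge;
* `LiftB`: the function is a lift on the box, three sides of the same size, with bounded energy;
* `cen_of_set`, `cen_cut`: centre data of a set of singular indices, restrictions;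
* `flat_of_light`, `gain_of_light`: from gauges with light rows to all gauges.
-/

namespace Vale.Agent.P141.H927

open Finset
open Vale.Agent.P141.PL.H315 Vale.Agent.P141.H550 Vale.Agent.P141.H769
open Vale.Agent.P141.H834 (UnifP LineB gf)
open Vale.Agent.P141.H922 (n2 n4 nN n2_nonneg n4_nonneg nN_nonneg n2_sq n4_sq n4_four nN_sq)
open Vale.Agent.P141.H555
open Vale.Agent.P141.H573 (tr)
open Vale.Agent.P141.H971 (Cen cen)

noncomputable section

/-- centre data with an active set of the label vertex -/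
structure CenX {V : Type*} [NormedAddCommGroup V] [InnerProductSpace ℝ V] (A B C : Finset ℤ)
    (h p e K θ : ℝ) (a : ℤ → ℤ → ℝ) (u v : ℤ → ℤ → V) (X : Finset ℤ) : Prop extends
    Cen A B C h p e K a u v where
  /-- the vector edges vanish off the active set -/
  u_off : ∀ z, z ∉ X → ∀ x, u z x = 0
  v_off : ∀ z, z ∉ X → ∀ y, v z y = 0
  /-- the density of the active set -/
  x_den : (avg C fun z => if z ∈ X then (1 : ℝ) else 0) * K ≤ θ * p ^ 2

/-- generic uniformity at the critical potential, atoms with an active set -/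
def GenM (ρ θ δ e : ℝ) (A B C : Finset ℤ) (G : ℤ × ℤ × ℤ → ℝ) : Prop :=
  ∀ (a : ℤ → ℤ → ℝ) (h p : ℝ), 0 ≤ h → 0 ≤ p →
    ∀ (κ : Type) [Fintype κ] (u v : ℤ → ℤ → EuclideanSpace ℝ κ) (X : Finset ℤ),
      CenX A B C h p e (δ ^ 2 * (h * p)) θ a u v X →
      (avg (A ×ˢ B ×ˢ C) fun q => G q * cen a u v q) ≤ ρ * (δ * e * (√h * (p ^ 2 * √p)))

/-- generic uniformity at the critical potential, atoms with one low vector edge -/
def GenL (ρ β δ e : ℝ) (A B C : Finset ℤ) (G : ℤ × ℤ × ℤ → ℝ) : Prop :=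
  ∀ (a : ℤ → ℤ → ℝ) (h p : ℝ), 0 ≤ h → 0 ≤ p →
    ∀ (κ : Type) [Fintype κ] (u v : ℤ → ℤ → EuclideanSpace ℝ κ),
      Cen A B C h p e (δ ^ 2 * (h * p)) a u v →
      ((∀ z ∈ C, ∀ x ∈ A, ‖u z x‖ ^ 2 ≤ β ^ 2 * (h ^ 2 * e)) ∨
        ∀ z ∈ C, ∀ y ∈ B, ‖v z y‖ ^ 2 ≤ β ^ 2 * (h ^ 2 * e)) →
      (avg (A ×ˢ B ×ˢ C) fun q => G q * cen a u v q) ≤ ρ * (δ * e * (√h * (p ^ 2 * √p)))

/-- the function is a lift on the box, with energy at most `L` times the side -/
def LiftB (L : ℝ) (A B C : Finset ℤ) (G : ℤ × ℤ × ℤ → ℝ) : Prop :=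
  ∃ (N : ℕ) (c : ℤ × ℤ × ℤ) (f : ℤ → ℝ) (W : Finset ℤ), 0 < N ∧ A.card = N ∧ B.card = N ∧
    C.card = N ∧ (c.1 ≠ 0 ∧ c.2.1 ≠ 0 ∧ c.2.2 ≠ 0) ∧
    (∀ x ∈ A, ∀ y ∈ B, ∀ z ∈ C, c.1 * x + c.2.1 * y + c.2.2 * z ∈ W) ∧
    (∑ w ∈ W, f w ^ 2 ≤ L * N) ∧
    ∀ x ∈ A, ∀ y ∈ B, ∀ z ∈ C, G (x, y, z) = f (c.1 * x + c.2.1 * y + c.2.2 * z)

variable {A B C : Finset ℤ} {G : ℤ × ℤ × ℤ → ℝ} {a : ℤ → ℤ → ℝ} {s : ℤ → A → ℝ}
  {φ ψ : ℤ → A → ℤ → ℝ} {e h p δ : ℝ}

theorem liftB_213 {L : ℝ} (H : LiftB L A B C G) :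
    LiftB L B A C fun q => G (q.2.1, q.1, q.2.2) := by
  obtain ⟨N, c, f, W, h1, h2, h3, h4, ⟨c1, c2, c3⟩, h5, h6, h7⟩ := H
  refine ⟨N, (c.2.1, c.1, c.2.2), f, W, h1, h3, h2, h4, ⟨c2, c1, c3⟩, ?_, h6, ?_⟩
  · intro y hy x hx z hz
    have := h5 x hx y hy z hz
    rwa [show c.2.1 * y + c.1 * x + c.2.2 * z = c.1 * x + c.2.1 * y + c.2.2 * z by ring]
  · intro y hy x hx z hz
    show G (x, y, z) = _
    rw [h7 x hx y hy z hz]
    congr 1; ring

/-- a set of singular indices of the level is centre data -/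
theorem cen_of_set (H : IsSvdF A B (sl a G) s φ ψ) (hL : LineB e A B C G) (he : 0 ≤ e)
    (ha : ∀ x ∈ A, ∀ y ∈ B, |a x y| ≤ h) (hp : n2 (A ×ˢ B) (gf a) ≤ p)
    (hr : ∀ x ∈ A, (avg B fun y => a x y ^ 2) ≤ h * p) {σ S : ℝ} (hσ : 0 ≤ σ) (hS : 0 ≤ S)
    {I : ℤ → Finset A} (hlo : ∀ z ∈ C, ∀ i ∈ I z, σ ≤ s z i)
    (hhi : ∀ z ∈ C, ∀ i ∈ I z, s z i ≤ S) :
    Cen A B C h p e (σ * S) a (uF H σ I) (vF H σ I) := by
  have ha2 : ∀ x ∈ A, ∀ y ∈ B, a x y ^ 2 ≤ h ^ 2 := fun x hx y hy => by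
    have := ha x hx y hy
    rw [← sq_abs]; exact pow_le_pow_left₀ (abs_nonneg _) this 2
  have hen : (avg C fun z => ∑ i ∈ I z, s z i ^ 2) ≤ e * p ^ 2 := by
    refine (energy_lev_le H _).trans ((energy_gauge hL a).trans ?_)
    exact mul_le_mul_of_nonneg_left (pow_le_pow_left₀ (n2_nonneg _ _) hp 2) he
  refine ⟨ha, hp, hr, ?_, ?_, ?_, ?_, ?_, ?_, ?_⟩
  · intro z hz x hx
    exact norm_uF_gauge H hL (sq_nonneg h) ha2 hσ hz (hlo z hz) hx
  · intro z hz y hy
    exact norm_vF_gauge H hL (sq_nonneg h) ha2 hσ hz (hlo z hz) hy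
  · exact (energy_uF_le H hσ hlo).trans hen
  · exact (energy_vF_le H hσ hlo).trans hen
  · intro x hx
    exact (deg_uF H hL hσ hlo hx).trans (mul_le_mul_of_nonneg_left (hr x hx) he)
  · intro z hz w
    exact pot_uF H hσ hS (hhi z hz) w
  · intro z hz w
    exact pot_vF H hσ hS (hhi z hz) w

/-- restriction of the vector edges -/
def cutV {V : Type*} [Zero V] (P : ℤ → ℤ → Prop) (u : ℤ → ℤ → V) (z x : ℤ) : V := by
  classical exact if P z x then u z x else 0

theorem cutV_norm {V : Type*} [NormedAddCommGroup V] (P : ℤ → ℤ → Prop) (u : ℤ → ℤ → V)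
    (z x : ℤ) : ‖cutV P u z x‖ ^ 2 ≤ ‖u z x‖ ^ 2 := by
  unfold cutV
  split_ifs
  · exact le_rfl
  · rw [norm_zero, zero_pow two_ne_zero]; exact sq_nonneg _

theorem cutV_inner {V : Type*} [NormedAddCommGroup V] [InnerProductSpace ℝ V] (P : ℤ → ℤ → Prop)
    (u : ℤ → ℤ → V) (z x : ℤ) (w : V) : (inner ℝ (cutV P u z x) w) ^ 2 ≤ (inner ℝ (u z x) w) ^ 2 := by
  unfold cutV
  split_ifs
  · exact le_rfl
  · rw [inner_zero_left, zero_pow two_ne_zero]; exact sq_nonneg _

/-- restricted vector edges are centre data -/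
theorem cen_cut {V : Type*} [NormedAddCommGroup V] [InnerProductSpace ℝ V] {K : ℝ}
    {u v : ℤ → ℤ → V} (H : Cen A B C h p e K a u v) (P Q : ℤ → ℤ → Prop) :
    Cen A B C h p e K a (cutV P u) (cutV Q v) where
  a_le := H.a_le
  a_n2 := H.a_n2
  a_row := H.a_row
  u_le z hz x hx := (cutV_norm P u z x).trans (H.u_le z hz x hx)
  v_le z hz y hy := (cutV_norm Q v z y).trans (H.v_le z hz y hy)
  u_en := (avg_mono fun z _ => avg_mono fun x _ => cutV_norm P u z x).trans H.u_en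
  v_en := (avg_mono fun z _ => avg_mono fun y _ => cutV_norm Q v z y).trans H.v_en
  u_col x hx := (avg_mono fun z _ => cutV_norm P u z x).trans (H.u_col x hx)
  u_pot z hz w := (avg_mono fun x _ => cutV_inner P u z x w).trans (H.u_pot z hz w)
  v_pot z hz w := (avg_mono fun y _ => cutV_inner Q v z y w).trans (H.v_pot z hz w)

/-- **From light rows to every bounded gauge**, abstract form: two pieces. -/
theorem flat_of_light {Q : ℝ} (hQ : 0 ≤ Q)
    (h1 : ∀ (a : ℤ → ℤ → ℝ) (h p : ℝ), 0 ≤ h → (∀ x ∈ A, ∀ y ∈ B, |a x y| ≤ h) →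
      n2 (A ×ˢ B) (gf a) ≤ p → (∀ x ∈ A, (avg B fun y => a x y ^ 2) ≤ h * p) →
      mo4 A B C a G ≤ Q * (h * p ^ 3))
    (h2 : ∀ (a : ℤ → ℤ → ℝ) (h p : ℝ), 0 ≤ h → (∀ y ∈ B, ∀ x ∈ A, |a y x| ≤ h) →
      n2 (B ×ˢ A) (gf a) ≤ p → (∀ y ∈ B, (avg A fun x => a y x ^ 2) ≤ h * p) →
      mo4 B A C a (fun q => G (q.2.1, q.1, q.2.2)) ≤ Q * (h * p ^ 3))
    (a : ℤ → ℤ → ℝ) {h : ℝ} (hh : 0 ≤ h) (ha : ∀ x ∈ A, ∀ y ∈ B, |a x y| ≤ h) :
    mo4 A B C a G ≤ 16 * Q * (h * n2 (A ×ˢ B) (gf a) ^ 3) := by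
  classical
  set p := n2 (A ×ˢ B) (gf a) with hp
  have hp0 : 0 ≤ p := n2_nonneg _ _
  set R : ℝ := Q * (h * p ^ 3) with hR
  have hR0 : 0 ≤ R := by positivity
  -- the heavy rows
  set D : ℤ → Prop := fun x => h * p < avg B fun y => a x y ^ 2 with hD
  set b : Bool → ℤ → ℤ → ℝ := fun i x y => if i = true then (if D x then 0 else a x y)
    else (if D x then a x y else 0) with hb
  have hab : ∀ x ∈ A, ∀ y ∈ B, a x y = ∑ i ∈ (univ : Finset Bool), b i x y := by
    intro x _ y _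
    simp only [Fintype.sum_bool, hb]
    by_cases hx : D x <;> simp [hx]
  have hble : ∀ i x y, |b i x y| ≤ |a x y| := by
    intro i x y
    cases i <;> by_cases hx : D x <;> simp [hb, hx]
  have hb2 : ∀ i x y, b i x y ^ 2 ≤ a x y ^ 2 := fun i x y => by
    rw [← sq_abs, ← sq_abs (a x y)]
    exact pow_le_pow_left₀ (abs_nonneg _) (hble i x y) 2
  have hbn : ∀ i, n2 (A ×ˢ B) (gf (b i)) ≤ p := by
    intro i
    refine Real.sqrt_le_sqrt (avg_mono fun r _ => hb2 i r.1 r.2)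
  have hba : ∀ i, ∀ x ∈ A, ∀ y ∈ B, |b i x y| ≤ h := fun i x hx y hy =>
    (hble i x y).trans (ha x hx y hy)
  -- light rows
  have k1 : mo4 A B C (b true) G ≤ R := by
    refine h1 (b true) h p hh (hba true) (hbn true) ?_
    intro x _
    by_cases hx : D x
    · have : (avg B fun y => b true x y ^ 2) = 0 := by
        have e1 : (avg B fun y => b true x y ^ 2) = avg B fun _ => (0 : ℝ) :=
          avg_congr fun y _ => by simp [hb, hx]
        rw [e1]; unfold avg; simp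
      rw [this]; positivity
    · have e1 : (avg B fun y => b true x y ^ 2) = avg B fun y => a x y ^ 2 :=
        avg_congr fun y _ => by simp [hb, hx]
      rw [e1]; exact not_lt.1 hx
  -- light columns
  have k2 : mo4 A B C (b false) G ≤ R := by
    rw [H573.mo4_transpose]
    refine h2 (tr (b false)) h p hh (fun y hy x hx => hba false x hx y hy) ?_ ?_
    · rw [H573.n2_tr]; exact hbn false
    · intro y hy
      show (avg A fun x => b false x y ^ 2) ≤ h * p
      have e1 : h * (h * (avg A fun x => if D x then (p : ℝ) else 0)) ≤ h * (p * p) := by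
        have e2 : (avg A fun x => avg B fun y => a x y ^ 2) = p ^ 2 := by
          rw [hp, n2_sq, avg_prod]; rfl
        have e3 : (avg A fun x => if D x then h * p else 0) ≤ p ^ 2 := by
          rw [← e2]
          refine avg_mono fun x _ => ?_
          split_ifs with hx
          · exact le_of_lt hx
          · exact avg_nonneg fun _ _ => sq_nonneg _
        have e4 : (avg A fun x => if D x then h * p else 0) =
            h * avg A fun x => if D x then (p : ℝ) else 0 := by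
          rw [← avg_mul_left]
          exact avg_congr fun x _ => by split_ifs <;> ring
        rw [e4] at e3
        have := mul_le_mul_of_nonneg_left e3 hh
        linarith [sq p]
      have e5 : (avg A fun x => b false x y ^ 2) ≤ avg A fun x => if D x then h ^ 2 else 0 := by
        refine avg_mono fun x hx => ?_
        by_cases hd : D x
        · rw [if_pos hd]
          have := hba false x hx y hy
          rw [← sq_abs]
          exact pow_le_pow_left₀ (abs_nonneg _) this 2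
        · rw [if_neg hd]; simp [hb, hd]
      refine e5.trans ?_
      rcases hp0.eq_or_lt with hp1 | hp1
      · -- no heavy rows
        have : ∀ x ∈ A, (if D x then h ^ 2 else (0 : ℝ)) = 0 := by
          intro x hx
          refine if_neg fun hd => ?_
          have e6 : (avg A fun x => avg B fun y => a x y ^ 2) = 0 := by
            have : (avg A fun x => avg B fun y => a x y ^ 2) = p ^ 2 := by
              rw [hp, n2_sq, avg_prod]; rfl
            rw [this, ← hp1]; ring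
          have e7 : (avg B fun y => a x y ^ 2) = 0 := by
            unfold avg at e6
            have hc : (0 : ℝ) < (A.card : ℝ) := by exact_mod_cast card_pos.2 ⟨x, hx⟩
            rcases mul_eq_zero.1 e6 with h | h
            · exact absurd h (inv_ne_zero hc.ne')
            · exact (sum_eq_zero_iff_of_nonneg fun x _ =>
                avg_nonneg (Q := B) fun _ _ => sq_nonneg _).1 h x hx
          have hd' : h * p < avg B fun y => a x y ^ 2 := hd
          rw [e7, ← hp1, mul_zero] at hd'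
          exact lt_irrefl _ hd'
        rw [avg_congr this]
        have : (avg A fun _ => (0 : ℝ)) = 0 := by unfold avg; simp
        rw [this]; positivity
      · have e6 : (avg A fun x => if D x then h ^ 2 else (0 : ℝ)) * p =
            h * (h * (avg A fun x => if D x then (p : ℝ) else 0)) := by
          rw [mul_comm _ p, ← avg_mul_left, ← avg_mul_left, ← avg_mul_left]
          exact avg_congr fun x _ => by split_ifs <;> ring
        have e7 : (avg A fun x => if D x then h ^ 2 else (0 : ℝ)) * p ≤ (h * p) * p := by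
          rw [e6]; linarith
        exact le_of_mul_le_mul_right e7 hp1
  -- the triangle inequality
  have t1 := H573.mo4_sum_le univ A B C G a b hab
  rw [Fintype.sum_bool] at t1
  have t2 : √√(mo4 A B C a G) ≤ 2 * √√R := by
    have a1 : √√(mo4 A B C (b true) G) ≤ √√R := Real.sqrt_le_sqrt (Real.sqrt_le_sqrt k1)
    have a2 : √√(mo4 A B C (b false) G) ≤ √√R := Real.sqrt_le_sqrt (Real.sqrt_le_sqrt k2)
    linarith
  have t3 : √√(mo4 A B C a G) ^ 4 ≤ (2 * √√R) ^ 4 :=
    pow_le_pow_left₀ (Real.sqrt_nonneg _) t2 4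
  have t4 : ∀ x : ℝ, 0 ≤ x → √√x ^ 4 = x := fun x hx => by
    rw [show √√x ^ 4 = (√√x ^ 2) ^ 2 by ring, Real.sq_sqrt (Real.sqrt_nonneg _), Real.sq_sqrt hx]
  rw [t4 _ (mo4_nonneg ..), mul_pow, t4 _ hR0] at t3
  refine t3.trans (le_of_eq ?_)
  rw [hR]; ring

/-- **From light rows to every gauge.** -/
theorem gain_of_light {Q : ℝ} (hQ : 0 ≤ Q)
    (h1 : ∀ (a : ℤ → ℤ → ℝ) (h p : ℝ), 0 ≤ h → (∀ x ∈ A, ∀ y ∈ B, |a x y| ≤ h) →
      n2 (A ×ˢ B) (gf a) ≤ p → (∀ x ∈ A, (avg B fun y => a x y ^ 2) ≤ h * p) →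
      mo4 A B C a G ≤ Q * (h * p ^ 3))
    (h2 : ∀ (a : ℤ → ℤ → ℝ) (h p : ℝ), 0 ≤ h → (∀ y ∈ B, ∀ x ∈ A, |a y x| ≤ h) →
      n2 (B ×ˢ A) (gf a) ≤ p → (∀ y ∈ B, (avg A fun x => a y x ^ 2) ≤ h * p) →
      mo4 B A C a (fun q => G (q.2.1, q.1, q.2.2)) ≤ Q * (h * p ^ 3))
    (a : ℤ → ℤ → ℝ) :
    mo4 A B C a G ≤ 7680 * Q * (n2 (A ×ˢ B) (gf a) * n4 (A ×ˢ B) (gf a)) ^ 2 := by
  have h := H573.mo4_pair (A := A) (B := B) (C := C) (G := G) (k := 16 * Q) (by positivity)
    (fun a h hh ha => flat_of_light hQ h1 h2 a hh ha) a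
  refine h.trans (le_of_eq ?_)
  show 480 * (16 * Q * (n2 (A ×ˢ B) (gf a) ^ 2 * n4 (A ×ˢ B) (gf a) ^ 2)) = _
  ring

end

end Vale.Agent.P141.H927
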