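import Vale.Agent.P141.H650.Spec.CE1
import Vale.Agent.P141.H501.CFglue
import Vale.Agent.P141.H927.DictP

/-!
# P141, CE with an active set: the frozen statements between `H501.CFOut` and the engine

Chain: `H501.CFOut ⇐ GenOut2 ⇐ CenStM ∧ CenStL`, `CenStM ⇐ CE1StM ⇐ CE1M`.

* `CE1M`: 650's `CE1n` with an active set `X` of the label vertex: the vector edges vanish off `X`
  and the density of `X` is at most `L t ^ a` times the critical one `s / (t ^ 2 √s)`;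
* `CE1StM`, `CenStM`: the same for data of height `h` and energy `p`, and in the costs of the level;
* `CenStL`: the price of the centre atoms with one low vector edge, gain `β ^ (1 / 4)`;
* `GenCellM`, `GenCellL`, `GenOut2`: generic uniformity on the boxes, both kinds of atoms.
-/

namespace Vale.Agent.P141.H927

open Finset
open Vale.Agent.P141.H315 (Grid dot)
open Vale.Agent.P141.PL (Pt fc)
open Vale.Agent.P141.PL.H315 (iv avg)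
open Vale.Agent.P141.PL.H95 (gr)
open Vale.Agent.P141.H347 (cd)
open Vale.Agent.P141.H48 (US ES)
open Vale.Agent.P141.H572 (cosF)
open Vale.Agent.P141.H136 (comp)
open Vale.Agent.P141.H639 (cenf Dis co pfw)
open Vale.Agent.P141.H782 (gb LSys LSys.S LSys.w)
open Vale.Agent.P141.H414 (jf cf)
open Vale.Agent.P141.H769 (lft)
open Vale.Agent.P141.H971 (Cen)
open Vale.Agent.P141.H347.Gs (Ex e2)
open Vale.Agent.P141.H444 (TDat.sys)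

noncomputable section

open scoped Classical

/-- **CE1 with an active set, normalised data, one box**: `s` = mass, gain `t ^ gam` over the
natural price `t ^ (1 - c) s ^ (5 / 4)`. -/
def CE1M : Prop :=
  ∃ a gam c1 : ℝ, 0 < a ∧ a ≤ 1 / 4000 ∧ 0 < gam ∧ 0 < c1 ∧ ∀ c : ℝ, 0 ≤ c → c ≤ c1 →
  ∀ Kt e cP L : ℝ, 0 < Kt → 1 ≤ e → 0 ≤ cP → 0 ≤ L → ∃ C : ℝ, 0 ≤ C ∧
  ∀ t : ℝ, 0 < t → t ≤ 1 → ∀ (n : ℕ) (ez : ℝ) (F1 F2 F3 : ℕ → Pt → ℝ),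
    US n (Kt * t ^ (1 - c)) e cP F1 → US n (Kt * t ^ (1 - c)) e cP F3 → ES n ez cP F2 →
  ∀ o : ℤ, o = 1 ∨ o = -1 → ∀ K ≤ n, ∀ (x : Pt)
    (V : Type) [NormedAddCommGroup V] [InnerProductSpace ℝ V] [FiniteDimensional ℝ V]
    (s : ℝ) (g : ℤ → ℤ → ℝ) (u v : ℤ → ℤ → V) (X : Finset ℤ), 0 < s →
    Cen (iv K x.2.1) (iv K x.2.2) (iv K x.1) 1 √s 1 (L * t ^ (2 - c) * √s) g u v →
    (∀ z, z ∉ X → ∀ y, u z y = 0) → (∀ z, z ∉ X → ∀ y, v z y = 0) →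
    (avg (iv K x.1) fun z => if z ∈ X then (1 : ℝ) else 0) * (t ^ 2 * √s) ≤ L * (t ^ a * s) →
    cosF o K x (comp (fun p => g p.1 p.2) u v) (fun k _ => F1 k) (fun k _ => F2 k)
        (fun k _ => F3 k) ≤
      C * (t ^ (1 + gam) * s ^ (5 / 4 : ℝ) * √ez * 8 ^ K)

/-- **CE1 with an active set for data of height `h` and energy `p`**, one box. -/
def CE1StM : Prop :=
  ∃ a gam c1 : ℝ, 0 < a ∧ a ≤ 1 / 4000 ∧ 0 < gam ∧ 0 < c1 ∧ ∀ c : ℝ, 0 ≤ c → c ≤ c1 →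
  ∀ Kt e cP L e0 : ℝ, 0 < Kt → 1 ≤ e → 0 ≤ cP → 0 ≤ L → 0 < e0 → ∃ C : ℝ, 0 ≤ C ∧
  ∀ t : ℝ, 0 < t → t ≤ 1 → ∀ (n : ℕ) (ez : ℝ) (F1 F2 F3 : ℕ → Pt → ℝ),
    US n (Kt * t ^ (1 - c)) e cP F1 → US n (Kt * t ^ (1 - c)) e cP F3 → ES n ez cP F2 →
  ∀ o : ℤ, o = 1 ∨ o = -1 → ∀ K ≤ n, ∀ (x : Pt)
    (V : Type) [NormedAddCommGroup V] [InnerProductSpace ℝ V] [FiniteDimensional ℝ V]
    (h p : ℝ) (g : ℤ → ℤ → ℝ) (u v : ℤ → ℤ → V) (X : Finset ℤ), 0 ≤ h → 0 ≤ p →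
    Cen (iv K x.2.1) (iv K x.2.2) (iv K x.1) h p e0 (L * t ^ (2 - c) * (h * p)) g u v →
    (∀ z, z ∉ X → ∀ y, u z y = 0) → (∀ z, z ∉ X → ∀ y, v z y = 0) →
    (avg (iv K x.1) fun z => if z ∈ X then (1 : ℝ) else 0) * (t ^ 2 * (h * p)) ≤
      L * (t ^ a * p ^ 2) →
    cosF o K x (cenf 0 1 2 g u v) (fun k _ => F1 k) (fun k _ => F2 k) (fun k _ => F3 k) ≤
      C * (t ^ (1 + gam) * (√h * (p ^ 2 * √p)) * √ez * 8 ^ K)

/-- **The centre atoms with an active set in the costs of the level `j`**: any position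
`(l, m, n)` of the label vertex, the split end and the other end, any role `r`. -/
def CenStM : Prop :=
  ∃ a gam c1 : ℝ, 0 < a ∧ a ≤ 1 / 4000 ∧ 0 < gam ∧ 0 < c1 ∧ ∀ c : ℝ, 0 ≤ c → c ≤ c1 →
  ∀ Kc L e0 : ℝ, 0 < Kc → 0 ≤ L → 0 < e0 → ∃ C : ℝ, 0 ≤ C ∧
  ∀ e : Ex, e.K = Kc → e.c = c → ∀ (σ : ℤ) (r : Fin 4) (j k : ℕ) (x : ℤ) (q : Pt)
    (l m n : Fin 3), Dis l m n →
    ∀ (V : Type) [NormedAddCommGroup V] [InnerProductSpace ℝ V] [FiniteDimensional ℝ V]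
    (h p : ℝ) (g : ℤ → ℤ → ℝ) (u v : ℤ → ℤ → V) (X : Finset ℤ), 0 ≤ h → 0 ≤ p →
    Cen (iv k (co m q)) (iv k (co n q)) (iv k (co l q)) h p e0
      (L * e2 (-(2 - c)) j * (h * p)) g u v →
    (∀ z, z ∉ X → ∀ y, u z y = 0) → (∀ z, z ∉ X → ∀ y, v z y = 0) →
    (avg (iv k (co l q)) fun z => if z ∈ X then (1 : ℝ) else 0) * (e2 (-2) j * (h * p)) ≤
      L * (e2 (-a) j * p ^ 2) →
    ((e.mp j).cw σ r).cst (pfw (fc r) k q (cenf l m n g u v)) k ((gr 7 σ).cube k x) ≤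
      C * (e2 (-(1 + gam)) j * (√h * (p ^ 2 * √p)) * 8 ^ k)

/-- **The centre atoms with one low vector edge in the costs of the level `j`**: gain
`β ^ (1 / 4)` over the natural price, potentials arbitrary. -/
def CenStL : Prop :=
  ∀ c : ℝ, 0 ≤ c → c ≤ 1 → ∀ Kc e0 : ℝ, 0 < Kc → 0 < e0 → ∃ C : ℝ, 0 ≤ C ∧
  ∀ e : Ex, e.K = Kc → e.c = c → ∀ (σ : ℤ) (r : Fin 4) (j k : ℕ) (x : ℤ) (q : Pt)
    (l m n : Fin 3), Dis l m n →
    ∀ (V : Type) [NormedAddCommGroup V] [InnerProductSpace ℝ V] [FiniteDimensional ℝ V]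
    (h p W β : ℝ) (g : ℤ → ℤ → ℝ) (u v : ℤ → ℤ → V), 0 ≤ h → 0 ≤ p → 0 ≤ W → 0 < β → β ≤ 1 →
    Cen (iv k (co m q)) (iv k (co n q)) (iv k (co l q)) h p e0 W g u v →
    ((∀ z ∈ iv k (co l q), ∀ y ∈ iv k (co m q), ‖u z y‖ ^ 2 ≤ β ^ 2 * (h ^ 2 * e0)) ∨
      ∀ z ∈ iv k (co l q), ∀ y ∈ iv k (co n q), ‖v z y‖ ^ 2 ≤ β ^ 2 * (h ^ 2 * e0)) →
    ((e.mp j).cw σ r).cst (pfw (fc r) k q (cenf l m n g u v)) k ((gr 7 σ).cube k x) ≤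
      C * (e2 (-(1 - c)) j * β ^ (1 / 4 : ℝ) * (√h * (p ^ 2 * √p)) * 8 ^ k)

/-- **One cell, atoms with an active set**, both orders of the gauge variables. -/
def GenCellM (e : Ex) (n : ℕ) (b : Bool) (j : ℕ) (r : Fin 4) (k : ℕ) (s : ℤ) (ρ θ : ℝ) : Prop :=
  ∀ F : ℤ → ℝ, dot ((gb n b).cube k s) F F ≤ e.K * cd (gb n b) k s →
    (∀ m, |dot ((gb n b).cube k s) F (((e.T n).sys.S j b r).a k m)| ≤
      e.K * ((e.T n).sys.S j b r).W k ((gb n b).cube k s) m) →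
    ∀ (i : Fin 4) (p : Fin 3), jf i p = r → ∀ q : Pt,
      GenM ρ θ (e.K * e2 (-1) j) (128 * e.K) (iv k q.2.1) (iv k q.2.2) (iv k q.1)
        (fun y => lft (cf i p) ((gb n b).cube k s) F (y.2.2, y.1, y.2.1)) ∧
      GenM ρ θ (e.K * e2 (-1) j) (128 * e.K) (iv k q.2.2) (iv k q.2.1) (iv k q.1)
        (fun y => lft (cf i p) ((gb n b).cube k s) F (y.2.2, y.2.1, y.1))

/-- **One cell, atoms with one low vector edge**, both orders of the gauge variables. -/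
def GenCellL (e : Ex) (n : ℕ) (b : Bool) (j : ℕ) (r : Fin 4) (k : ℕ) (s : ℤ) (ρ β : ℝ) : Prop :=
  ∀ F : ℤ → ℝ, dot ((gb n b).cube k s) F F ≤ e.K * cd (gb n b) k s →
    (∀ m, |dot ((gb n b).cube k s) F (((e.T n).sys.S j b r).a k m)| ≤
      e.K * ((e.T n).sys.S j b r).W k ((gb n b).cube k s) m) →
    ∀ (i : Fin 4) (p : Fin 3), jf i p = r → ∀ q : Pt,
      GenL ρ β (e.K * e2 (-1) j) (128 * e.K) (iv k q.2.1) (iv k q.2.2) (iv k q.1)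
        (fun y => lft (cf i p) ((gb n b).cube k s) F (y.2.2, y.1, y.2.1)) ∧
      GenL ρ β (e.K * e2 (-1) j) (128 * e.K) (iv k q.2.2) (iv k q.2.1) (iv k q.1)
        (fun y => lft (cf i p) ((gb n b).cube k s) F (y.2.2, y.2.1, y.1))

/-- **Generic uniformity on the boxes**, both kinds of atoms, all the cells, with a power gain. -/
def GenOut2 : Prop := ∃ g c a a' x aM b : ℝ, 0 < g ∧ g ≤ c ∧ c ≤ 1 ∧ 0 ≤ a ∧ 0 ≤ a' ∧
  5 * c < x ∧ x ≤ 1 / 2000 ∧ 0 < aM ∧ aM ≤ 1 / 4000 ∧ 0 < b ∧ b ≤ 1 / 4000 ∧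
  ∀ e : Ex, e.g = g → e.c = c → e.a = a → e.a' = a' → ∃ C : ℝ, 0 ≤ C ∧
    ∀ (n : ℕ) (β : Bool) (j : ℕ), 1 ≤ j → ∀ (r : Fin 4) (k : ℕ) (s : ℤ), 1 ≤ k →
      GenCellM e n β j r k s (C * e2 (-x) j) (e2 (-aM) j) ∧
      GenCellL e n β j r k s (C * e2 (-x) j) (e2 (-b) j)

end

end Vale.Agent.P141.H927
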