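import Vale.Agent.P141.H927.DictF

/-!
# P141, composite events, dictionary with many and few singular values: the gain

* `many_energy`: the many part of the level is centre data with an active set (`GenM`);
* `mo4_light2`, `mo4_flat_gain2`, `mo4_gain2`: the gain of the fourth moment from `GenM` (many
  singular values at every active fibre point, active set of small density) and `GenL` (one low
  vector edge), for lifts.
-/

namespace Vale.Agent.P141.H927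

open Finset
open Vale.Agent.P141.PL.H315 Vale.Agent.P141.H550 Vale.Agent.P141.H769
open Vale.Agent.P141.H834 (UnifP LineB gf)
open Vale.Agent.P141.H922 (n2 n4 nN n2_nonneg n4_nonneg nN_nonneg n2_sq n4_sq n4_four nN_sq)
open Vale.Agent.P141.H555
open Vale.Agent.P141.H573 (tr)
open Vale.Agent.P141.H971 (Cen cen pair_cen mo4_level level_arith)

noncomputable section

variable {A B C : Finset ℤ} {G : ℤ × ℤ × ℤ → ℝ} {a : ℤ → ℤ → ℝ} {s : ℤ → A → ℝ}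
  {φ ψ : ℤ → A → ℤ → ℝ} {e h p δ : ℝ}

/-- **The many part of the level.** -/
theorem many_energy (H : IsSvdF A B (sl a G) s φ ψ) (hL : LineB e A B C G) (he : 0 < e)
    (hh : 0 < h) (hp : 0 < p) (ha : ∀ x ∈ A, ∀ y ∈ B, |a x y| ≤ h)
    (hp2 : n2 (A ×ˢ B) (gf a) ≤ p) (hr : ∀ x ∈ A, (avg B fun y => a x y ^ 2) ≤ h * p)
    {σ S κ ρ θ : ℝ} (hσ : 0 < σ) (hκ : 0 < κ) (hS : S = σ / κ)
    {n0 : ℕ} (hn0 : 1 ≤ n0) (hσS : σ * S = δ ^ 2 * (h * p)) (hθ : e / (κ * n0) ≤ θ)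
    (hGM : GenM ρ θ δ e A B C G) :
    (σ * avg C fun z => ∑ i ∈ manyI C s σ S n0 z, s z i ^ 2) ≤
      ρ * (δ * e * (√h * (p ^ 2 * √p))) := by
  classical
  have hSpos : 0 < S := by rw [hS]; positivity
  have hn0' : (0 : ℝ) < n0 := by exact_mod_cast hn0
  set I : ℤ → Finset A := manyI C s σ S n0 with hIdef
  have hI : ∀ z, ∀ i ∈ I z, σ ≤ s z i ∧ s z i < S := fun z i hi => manyI_mem hi
  have hE : (avg C fun z => ∑ i ∈ I z, s z i ^ 2) ≤ e * p ^ 2 := by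
    refine (energy_lev_le H _).trans ((energy_gauge hL a).trans ?_)
    exact mul_le_mul_of_nonneg_left (pow_le_pow_left₀ (n2_nonneg _ _) hp2 2) he.le
  have hcen : Cen A B C h p e (δ ^ 2 * (h * p)) a (uF H σ I) (vF H σ I) := by
    rw [← hσS]
    exact cen_of_set H hL he.le ha hp2 hr hσ.le hSpos.le (fun z _ i hi => (hI z i hi).1)
      (fun z _ i hi => (hI z i hi).2.le)
  set X : Finset ℤ := C.filter fun z => n0 ≤ (lvI s σ S z).card with hX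
  have hoff : ∀ z, z ∉ X → I z = ∅ := by
    intro z hz
    rw [hIdef]; unfold manyI
    rw [if_neg fun h => hz (mem_filter.2 h)]
  have hcen2 : CenX A B C h p e (δ ^ 2 * (h * p)) θ a (uF H σ I) (vF H σ I) X := by
    refine { toCen := hcen, u_off := ?_, v_off := ?_, x_den := ?_ }
    · intro z hz x
      have h1 : ‖uF H σ I z x‖ ^ 2 = 0 := by
        have h2 := (H z).norm_u_sq hσ.le (I z) x
        rw [hoff z hz] at h2
        show ‖(H z).uu σ (I z) x‖ ^ 2 = 0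
        rw [hoff z hz, h2]; simp
      exact norm_eq_zero.1 (pow_eq_zero_iff (two_ne_zero)|>.1 h1)
    · intro z hz x
      have h1 : ‖vF H σ I z x‖ ^ 2 = 0 := by
        have h2 := (H z).norm_v_sq hσ.le (I z) x
        rw [hoff z hz] at h2
        show ‖(H z).vv σ (I z) x‖ ^ 2 = 0
        rw [hoff z hz, h2]; simp
      exact norm_eq_zero.1 (pow_eq_zero_iff (two_ne_zero)|>.1 h1)
    · have h1 : (n0 * σ ^ 2) * (avg C fun z => if z ∈ X then (1 : ℝ) else 0) ≤ e * p ^ 2 := by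
        refine le_trans ?_ hE
        rw [← avg_mul_left]
        refine avg_mono fun z hz => ?_
        split_ifs with h2
        · have h3 := mem_filter.1 h2
          have h4 : I z = lvI s σ S z := by rw [hIdef]; unfold manyI; rw [if_pos h3]
          rw [h4, mul_one]
          have h5 : (lvI s σ S z).card • σ ^ 2 ≤ ∑ i ∈ lvI s σ S z, s z i ^ 2 :=
            card_nsmul_le_sum _ _ _ fun i hi => pow_le_pow_left₀ hσ.le (mem_lvI.1 hi).1 2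
          rw [nsmul_eq_mul] at h5
          refine le_trans (mul_le_mul_of_nonneg_right ?_ (sq_nonneg σ)) h5
          exact_mod_cast h3.2
        · rw [mul_zero]; exact sum_nonneg fun i _ => sq_nonneg _
      have h2 : (avg C fun z => if z ∈ X then (1 : ℝ) else 0) * (δ ^ 2 * (h * p)) =
          ((n0 * σ ^ 2) * (avg C fun z => if z ∈ X then (1 : ℝ) else 0)) / (κ * n0) := by
        rw [← hσS, hS]; field_simp
      rw [h2]
      have h3 : ((n0 * σ ^ 2) * (avg C fun z => if z ∈ X then (1 : ℝ) else 0)) / (κ * n0) ≤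
          (e * p ^ 2) / (κ * n0) := div_le_div_of_nonneg_right h1 (by positivity)
      refine h3.trans ?_
      have h4 : e * p ^ 2 / (κ * n0) = e / (κ * n0) * p ^ 2 := by ring
      rw [h4]
      exact mul_le_mul_of_nonneg_right hθ (sq_nonneg p)
  have hc := hGM a h p hh.le hp.le A _ _ X hcen2
  rw [pair_cen H hσ] at hc
  exact hc

/-- the rate of the dictionary with many and few -/
def rho2 (ρM ρL κ β L e δ : ℝ) (n0 : ℕ) : ℝ :=
  ρM + 2 * ρL + 15 * (κ⁻¹ * (n0 * √n0) * √(L / e) * β⁻¹ * δ ^ (1 / 360 : ℝ))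

theorem rho2_nonneg {ρM ρL κ β L δ : ℝ} {n0 : ℕ} (hρM : 0 ≤ ρM) (hρL : 0 ≤ ρL) (hκ : 0 < κ)
    (hβ : 0 < β) (hδ : 0 ≤ δ) : 0 ≤ rho2 ρM ρL κ β L e δ n0 := by
  unfold rho2; positivity

/-- **Gauges with light rows**, many and few. -/
theorem mo4_light2 {ρM ρL θ κ β L : ℝ} {n0 : ℕ} (hρM : 0 ≤ ρM) (hρL : 0 ≤ ρL) (hκ : 0 < κ)
    (hκ1 : κ ≤ 1) (hβ : 0 < β) (hβ1 : β ≤ 1) (hL1 : 1 ≤ L) (hn0 : 1 ≤ n0)
    (hθ : e / (κ * n0) ≤ θ) (hδ : 0 ≤ δ) (he : 0 < e)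
    (hU : UnifP δ A B C G) (hL : LineB e A B C G) (hGl : LiftB L A B C G)
    (hM : GenM ρM θ δ e A B C G) (hGL : GenL ρL β δ e A B C G) (a : ℤ → ℤ → ℝ) {h p : ℝ}
    (hh : 0 ≤ h) (ha : ∀ x ∈ A, ∀ y ∈ B, |a x y| ≤ h) (hp : n2 (A ×ˢ B) (gf a) ≤ p)
    (hr : ∀ x ∈ A, (avg B fun y => a x y ^ 2) ≤ h * p) :
    mo4 A B C a G ≤ (10369 * κ + rho2 ρM ρL κ β L e δ n0 * (κ⁻¹ * (√κ)⁻¹)) *
      (δ ^ 2 * e * (h * p ^ 3)) := by
  have hAB : A.Nonempty ∧ B.Nonempty := by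
    obtain ⟨N, c, f, W, hN, hA, hB, _⟩ := hGl
    exact ⟨by rw [← card_pos, hA]; exact hN, by rw [← card_pos, hB]; exact hN⟩
  obtain ⟨hA, hB⟩ := hAB
  have hp0 : 0 ≤ p := (n2_nonneg _ _).trans hp
  have hρ0 : 0 ≤ rho2 ρM ρL κ β L e δ n0 := rho2_nonneg hρM hρL hκ hβ hδ
  have hgain : 0 ≤ 10369 * κ + rho2 ρM ρL κ β L e δ n0 * (κ⁻¹ * (√κ)⁻¹) := by positivity
  by_cases h0 : δ * h * p = 0
  · -- degenerate case
    have h1 := H834.mo4_flat hδ he.le hA hB hU hL a h hh ha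
    have h2 : h * n2 (A ×ˢ B) (gf a) ^ 3 ≤ h * p ^ 3 :=
      mul_le_mul_of_nonneg_left (pow_le_pow_left₀ (n2_nonneg _ _) hp 3) hh
    have h3 : 500 * (δ ^ 2 * e) * (h * n2 (A ×ˢ B) (gf a) ^ 3) ≤ 500 * (δ ^ 2 * e) * (h * p ^ 3) :=
      mul_le_mul_of_nonneg_left h2 (by positivity)
    have h4 : 500 * (δ ^ 2 * e) * (h * p ^ 3) = 0 := by
      have : 500 * (δ ^ 2 * e) * (h * p ^ 3) = 500 * δ * e * p ^ 2 * (δ * h * p) := by ring
      rw [this, h0, mul_zero]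
    have h5 : 0 ≤ (10369 * κ + rho2 ρM ρL κ β L e δ n0 * (κ⁻¹ * (√κ)⁻¹)) *
      (δ ^ 2 * e * (h * p ^ 3)) := by positivity
    linarith
  have hδ' : 0 < δ := lt_of_le_of_ne hδ fun t => h0 (by rw [← t]; ring)
  have hh' : 0 < h := lt_of_le_of_ne hh fun t => h0 (by rw [← t]; ring)
  have hp' : 0 < p := lt_of_le_of_ne hp0 fun t => h0 (by rw [← t]; ring)
  obtain ⟨s, φ, ψ, H⟩ := exists_isSvdF hA hB (sl a G)
  set σ : ℝ := √κ * (δ * √(h * p)) with hσd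
  set S : ℝ := (√κ)⁻¹ * (δ * √(h * p)) with hSd
  have hk0 : 0 < √κ := Real.sqrt_pos.2 hκ
  have hhp : 0 < √(h * p) := Real.sqrt_pos.2 (by positivity)
  have hσ : 0 < σ := by positivity
  have hS : 0 < S := by positivity
  have hσS : σ ≤ S := by
    have h1 : √κ ≤ 1 := Real.sqrt_le_one.mpr hκ1
    have h2 : 1 ≤ (√κ)⁻¹ := one_le_inv_iff₀.mpr ⟨hk0, h1⟩
    exact mul_le_mul_of_nonneg_right (h1.trans h2) (by positivity)
  have hSκ : S = σ / κ := by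
    rw [hSd, hσd]
    have h3 : √κ ^ 2 = κ := Real.sq_sqrt hκ.le
    rw [eq_div_iff hκ.ne']
    nth_rewrite 2 [← h3]
    field_simp
  obtain ⟨e1, e2, e3, _⟩ := level_arith (κ := κ) (ρ := 0) (e := e) hκ hδ' hh' hp' hσd hSd
  have q1 := few_energy (n0 := n0) (κ := κ) (β := β) (ρ := ρL) (σ := σ) (S := S) H hL hL1 hGl hU
    hδ' he hh' hp' ha hp hr hσ hκ hκ1 hSκ hβ hβ1 hn0 e1 hGL
  have q2 := many_energy (n0 := n0) (κ := κ) (ρ := ρM) (θ := θ) (σ := σ) (S := S) H hL he hh' hp'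
    ha hp hr hσ hκ hSκ hn0 e1 hθ hM
  have q3 : σ * (avg C fun z => ∑ i ∈ lvI s σ S z, s z i ^ 2) =
      (σ * avg C fun z => ∑ i ∈ fewI C s σ S n0 z, s z i ^ 2) +
      σ * avg C fun z => ∑ i ∈ manyI C s σ S n0 z, s z i ^ 2 := by
    rw [← mul_add, ← avg_add]
    congr 1
    exact avg_congr fun z hz => (few_add_many hz fun i => s z i ^ 2).symm
  have harith : ∀ ρ : ℝ, ρ * (δ * e * (√h * (p ^ 2 * √p))) = σ * (ρ * (√κ)⁻¹ * (e * p ^ 2)) :=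
    fun ρ => (level_arith (κ := κ) (ρ := ρ) (e := e) hκ hδ' hh' hp' hσd hSd).2.2.2
  have q4 : σ * S * (n0 * (15 * (p ^ 2 / σ) * √(e * L * (n0 / κ)) * β⁻¹ * δ ^ (1 / 360 : ℝ))) =
      σ * (15 * (κ⁻¹ * (n0 * √n0) * √(L / e) * β⁻¹ * δ ^ (1 / 360 : ℝ)) * (√κ)⁻¹ *
        (e * p ^ 2)) := by
    have w1 : √(e * L * (n0 / κ)) = √e * √L * (√n0 / √κ) := by
      rw [Real.sqrt_mul (by positivity), Real.sqrt_mul he.le, Real.sqrt_div (Nat.cast_nonneg _)]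
    have w2 : √(L / e) = √L / √e := Real.sqrt_div (by linarith) _
    have w3 : √e ^ 2 = e := Real.sq_sqrt he.le
    have w4 : 0 < √e := Real.sqrt_pos.2 he
    have w5 : e * p ^ 2 = √e * √e * p ^ 2 := by rw [← sq, w3]
    rw [w1, w2, hSκ, w5]
    clear_value σ
    field_simp
  have hc : (avg (A ×ˢ B ×ˢ C) fun q =>
      G q * cen a (uF H σ (lvI s σ S)) (vF H σ (lvI s σ S)) q) ≤
      σ * (rho2 ρM ρL κ β L e δ n0 * (√κ)⁻¹ * (e * p ^ 2)) := by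
    rw [pair_cen H hσ, q3]
    rw [harith ρL, q4] at q1
    rw [harith ρM] at q2
    unfold rho2
    linarith
  have h6 : ∀ τ, 0 < τ → τ ^ 6 * H834.cnt C s τ ≤ 486 * (δ ^ 2 * (h * p)) ^ 2 * (e * p ^ 2) := by
    intro τ hτ
    have k1 := H694.cnt6' hδ he.le hh hU hL ha H (L := hiI s τ) hτ fun z i hi => mem_hiI.1 hi
    have k2 : H694.num C (hiI s τ) = H834.cnt C s τ := num_hiI C s τ
    rw [k2] at k1
    refine k1.trans ?_
    unfold H694.D2 H694.E0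
    have k3 := n2_nonneg (A ×ˢ B) (gf a)
    have k4 : δ ^ 2 * h * n2 (A ×ˢ B) (gf a) ≤ δ ^ 2 * (h * p) := by
      rw [← mul_assoc]; exact mul_le_mul_of_nonneg_left hp (by positivity)
    have k5 : n2 (A ×ˢ B) (gf a) ^ 2 ≤ p ^ 2 := pow_le_pow_left₀ k3 hp 2
    gcongr
  have key := mo4_level H hL he.le hp (by positivity) h6 hσ hσS hc
  refine key.trans (le_of_eq ?_)
  rw [e2, e3]
  have hDn : δ ^ 2 * (h * p) ≠ 0 := by positivity
  have hkn : κ ≠ 0 := hκ.ne'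
  have e5 : 64 / 3 * (486 * (δ ^ 2 * (h * p)) ^ 2 * (e * p ^ 2)) / (κ⁻¹ * (δ ^ 2 * (h * p))) =
      10368 * κ * (δ ^ 2 * (h * p)) * (e * p ^ 2) := by
    field_simp
    ring
  rw [e5]
  ring

/-- **Every bounded gauge**, many and few. -/
theorem mo4_flat_gain2 {ρM ρL θ κ β L : ℝ} {n0 : ℕ} (hρM : 0 ≤ ρM) (hρL : 0 ≤ ρL) (hκ : 0 < κ)
    (hκ1 : κ ≤ 1) (hβ : 0 < β) (hβ1 : β ≤ 1) (hL1 : 1 ≤ L) (hn0 : 1 ≤ n0)
    (hθ : e / (κ * n0) ≤ θ) (hδ : 0 ≤ δ) (he : 0 < e)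
    (hU : UnifP δ A B C G) (hL : LineB e A B C G) (hGl : LiftB L A B C G)
    (hM : GenM ρM θ δ e A B C G) (hM' : GenM ρM θ δ e B A C fun q => G (q.2.1, q.1, q.2.2))
    (hGL : GenL ρL β δ e A B C G) (hGL' : GenL ρL β δ e B A C fun q => G (q.2.1, q.1, q.2.2))
    (a : ℤ → ℤ → ℝ) {h : ℝ} (hh : 0 ≤ h) (ha : ∀ x ∈ A, ∀ y ∈ B, |a x y| ≤ h) :
    mo4 A B C a G ≤ 16 * ((10369 * κ + rho2 ρM ρL κ β L e δ n0 * (κ⁻¹ * (√κ)⁻¹)) *
      (δ ^ 2 * e)) * (h * n2 (A ×ˢ B) (gf a) ^ 3) := by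
  have hρ0 : 0 ≤ rho2 ρM ρL κ β L e δ n0 := rho2_nonneg hρM hρL hκ hβ hδ
  refine flat_of_light (by positivity) ?_ ?_ a hh ha
  · intro a h p hh ha hp hr
    have := mo4_light2 hρM hρL hκ hκ1 hβ hβ1 hL1 hn0 hθ hδ he hU hL hGl hM hGL a hh ha hp hr
    linarith
  · intro a h p hh ha hp hr
    have := mo4_light2 hρM hρL hκ hκ1 hβ hβ1 hL1 hn0 hθ hδ he (H573.unifP_213 hU)
      (H573.lineB_213 hL) (liftB_213 hGl) hM' hGL' a hh ha hp hr
    linarith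

/-- **(CF) on a box, many and few**: the gain of the fourth moment for every gauge. -/
theorem mo4_gain2 {ρM ρL θ κ β L : ℝ} {n0 : ℕ} (hρM : 0 ≤ ρM) (hρL : 0 ≤ ρL) (hκ : 0 < κ)
    (hκ1 : κ ≤ 1) (hβ : 0 < β) (hβ1 : β ≤ 1) (hL1 : 1 ≤ L) (hn0 : 1 ≤ n0)
    (hθ : e / (κ * n0) ≤ θ) (hδ : 0 ≤ δ) (he : 0 < e)
    (hU : UnifP δ A B C G) (hL : LineB e A B C G) (hGl : LiftB L A B C G)
    (hM : GenM ρM θ δ e A B C G) (hM' : GenM ρM θ δ e B A C fun q => G (q.2.1, q.1, q.2.2))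
    (hGL : GenL ρL β δ e A B C G) (hGL' : GenL ρL β δ e B A C fun q => G (q.2.1, q.1, q.2.2))
    (a : ℤ → ℤ → ℝ) :
    mo4 A B C a G ≤ 7680 * ((10369 * κ + rho2 ρM ρL κ β L e δ n0 * (κ⁻¹ * (√κ)⁻¹)) *
      (δ ^ 2 * e)) * (n2 (A ×ˢ B) (gf a) * n4 (A ×ˢ B) (gf a)) ^ 2 := by
  have hρ0 : 0 ≤ rho2 ρM ρL κ β L e δ n0 := rho2_nonneg hρM hρL hκ hβ hδ
  refine gain_of_light (by positivity) ?_ ?_ a
  · intro a h p hh ha hp hr
    have := mo4_light2 hρM hρL hκ hκ1 hβ hβ1 hL1 hn0 hθ hδ he hU hL hGl hM hGL a hh ha hp hr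
    linarith
  · intro a h p hh ha hp hr
    have := mo4_light2 hρM hρL hκ hκ1 hβ hβ1 hL1 hn0 hθ hδ he (H573.unifP_213 hU)
      (H573.lineB_213 hL) (liftB_213 hGl) hM' hGL' a hh ha hp hr
    linarith

end

end Vale.Agent.P141.H927
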