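import Vale.Agent.P141.H927.Spec2
import Vale.Agent.P141.H927.DictG

/-!
# P141, CE with an active set: the fourth moments of one cell from many and few

* `liftB_lft`: the lift of a function with bounded energy on a window is a lift on the box;
* `cfcell_of_gen2`: the fourth moments of one cell, by `mo4_gain2`;
* `cfOut_of_gen2 : GenOut2 → H501.CFOut`.
-/

namespace Vale.Agent.P141.H927

open Finset Function
open Vale.Agent.P141.H315 (Grid dot)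
open Vale.Agent.P141.PL (Pt el fc)
open Vale.Agent.P141.PL.H315 (cube3 Tri iv avg)
open Vale.Agent.P141.PL.H318 (a1)
open Vale.Agent.P141.PL.H95 (gr shf card_gr)
open Vale.Agent.P141.H347 (cd)
open Vale.Agent.P141.H347.Gs (Ex e2 e2_pos e2_le e2_mul)
open Vale.Agent.P141.H782 (gb LSys LSys.S LSys.w)
open Vale.Agent.P141.H48 (USl)
open Vale.Agent.P141.H922 (n2 n4 wP)
open Vale.Agent.P141.H769 (mo4f lft mo4f_eq)
open Vale.Agent.P141.H414 (jf cf usl_cf cf_good)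
open Vale.Agent.P141.H444 (TDat.sys)
open Vale.Agent.P141.H834 (UnifP LineB gf)
open Vale.Agent.P141.H501 (CFcell CFOut lineB_lft e2_rpow)

noncomputable section

open scoped Classical

/-- the lift of a function with energy `≤ E 2 ^ k` on the cell is a lift on the box -/
theorem liftB_lft {k : ℕ} {c : Pt} (h1 : c.1 ≠ 0) (h2 : c.2.1 ≠ 0) (h3 : c.2.2 ≠ 0)
    {J : Finset ℤ} {O : ℤ → ℝ} {E : ℝ} (hE : dot J O O ≤ E * 2 ^ k) (q : Pt) :
    LiftB E (iv k q.2.1) (iv k q.2.2) (iv k q.1) fun y => lft c J O (y.2.2, y.1, y.2.1) := by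
  have hf : ∑ w ∈ J, (if w ∈ J then O w else 0) ^ 2 ≤ E * 2 ^ k := by
    refine le_trans (le_of_eq ?_) hE
    unfold dot
    refine sum_congr rfl fun w hw => ?_
    rw [if_pos hw]; ring
  refine ⟨2 ^ k, (c.2.1, c.2.2, c.1), fun w => if w ∈ J then O w else 0,
    J ∪ ((iv k q.2.1 ×ˢ iv k q.2.2 ×ˢ iv k q.1).image fun y =>
      c.2.1 * y.1 + c.2.2 * y.2.1 + c.1 * y.2.2), by positivity, PL.H315.card_iv _ _,
    PL.H315.card_iv _ _, PL.H315.card_iv _ _, ⟨h2, h3, h1⟩, ?_, ?_, ?_⟩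
  · intro x hx y hy z hz
    refine mem_union_right _ (mem_image.2 ⟨(x, y, z), ?_, rfl⟩)
    exact mem_product.2 ⟨hx, mem_product.2 ⟨hy, hz⟩⟩
  · have e1 : ∑ w ∈ J ∪ ((iv k q.2.1 ×ˢ iv k q.2.2 ×ˢ iv k q.1).image fun y =>
        c.2.1 * y.1 + c.2.2 * y.2.1 + c.1 * y.2.2), (if w ∈ J then O w else 0) ^ 2 =
        ∑ w ∈ J, (if w ∈ J then O w else 0) ^ 2 := by
      symm
      refine sum_subset subset_union_left fun w _ hw => ?_
      rw [if_neg hw]; ring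
    rw [e1]
    push_cast
    exact hf
  · intro x _ y _ z _
    show (if el c (z, x, y) ∈ J then O (el c (z, x, y)) else 0) = _
    have e2 : el c (z, x, y) = c.2.1 * x + c.2.2 * y + c.1 * z := by
      unfold el
      ring
    rw [e2]

theorem LiftB.mono {L L' : ℝ} {A B C : Finset ℤ} {G : ℤ × ℤ × ℤ → ℝ} (hL : L ≤ L')
    (H : LiftB L A B C G) : LiftB L' A B C G := by
  obtain ⟨N, c, f, W, h1, h2, h3, h4, h5, h6, h7, h8⟩ := H
  exact ⟨N, c, f, W, h1, h2, h3, h4, h5, h6,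
    h7.trans (mul_le_mul_of_nonneg_right hL (Nat.cast_nonneg N)), h8⟩

/-- **The fourth moments of one cell.** -/
theorem cfcell_of_gen2 {e : Ex} {n : ℕ} {b : Bool} {j : ℕ} {r : Fin 4} {k : ℕ} {s : ℤ}
    {ρM ρL θ κ β L : ℝ} {n0 : ℕ} (hk : 1 ≤ k) (hρM : 0 ≤ ρM) (hρL : 0 ≤ ρL) (hκ : 0 < κ)
    (hκ1 : κ ≤ 1) (hβ : 0 < β) (hβ1 : β ≤ 1) (hL1 : 1 ≤ L) (hL2 : 128 * e.K ≤ L) (hn0 : 1 ≤ n0)
    (hθ : 128 * e.K / (κ * n0) ≤ θ)
    (hM : GenCellM e n b j r k s ρM θ) (hLo : GenCellL e n b j r k s ρL β) :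
    CFcell e n b j r k s (7680 * (10369 * κ +
      rho2 ρM ρL κ β L (128 * e.K) (e.K * e2 (-1) j) n0 * (κ⁻¹ * (√κ)⁻¹)) *
      ((e.K * e2 (-1) j) ^ 2 * (128 * e.K))) := by
  intro F hF hU i p hip q a
  have hK := e.K_pos
  obtain ⟨g1, g2⟩ := hM F hF hU i p hip q
  obtain ⟨g3, g4⟩ := hLo F hF hU i p hip q
  obtain ⟨c1, c2, c3, -, -, -⟩ := cf_good i p
  have hcd : cd (gb n b) k s = 2 ^ (k + 7) := by
    unfold cd
    rw [show ((gb n b).cube k s).card = 2 ^ (k + 7) from card_gr _ _ _ _]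
    push_cast
    rfl
  have hE : dot ((gb n b).cube k s) F F ≤ 128 * e.K * 2 ^ k := by
    refine hF.trans (le_of_eq ?_)
    rw [hcd, pow_add]
    ring
  have hL := lineB_lft c1 c2 c3 hE q
  have hGl := (liftB_lft c1 c2 c3 hE q).mono hL2
  have hu : USl 7 (shf (n + 7) b) (fun k' s' => k' = k ∧ s' = s) k (fc (jf i p))
      (e.K * e2 (-1) j) F := by
    rintro k' _ _ s' ⟨rfl, rfl⟩ q' u
    have h1 := hU (Sum.inl (q', u))
    rw [hip]
    rw [H444.wP_mul]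
    exact h1
  have hu2 := usl_cf i p hu
  have hP0 : UnifP (e.K * e2 (-1) j) (iv k q.1) (iv k q.2.1) (iv k q.2.2)
      (lft (cf i p) ((gb n b).cube k s) F) :=
    H944.unifP_lft fun u => hu2 k hk le_rfl s ⟨rfl, rfl⟩ q u
  rw [mo4f_eq]
  have key := mo4_gain2 (A := iv k q.2.1) (B := iv k q.2.2) (C := iv k q.1)
    (G := fun y => lft (cf i p) ((gb n b).cube k s) F (y.2.2, y.1, y.2.1)) hρM hρL hκ hκ1
    hβ hβ1 hL1 hn0 hθ (mul_pos hK (e2_pos _ _)).le (by positivity)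
    (H573.unifP_231 hP0) (H573.lineB_231 hL) hGl g1 g2 g3 g4 a
  rw [mul_pow (n2 _ _) (n4 _ _), ← mul_assoc (7680 : ℝ)] at key
  exact key

theorem e2_nonneg_one {x : ℝ} (hx : 0 ≤ x) (j : ℕ) : e2 (-x) j ≤ 1 := by
  unfold e2
  refine Real.rpow_le_one_of_one_le_of_nonpos one_le_two ?_
  have h2 : (0 : ℝ) ≤ (j : ℝ) := Nat.cast_nonneg j
  have h3 : 0 ≤ x * (j : ℝ) := by positivity
  linarith

theorem e2_one_le {x : ℝ} (hx : 0 ≤ x) (j : ℕ) : 1 ≤ e2 x j := by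
  unfold e2
  refine Real.one_le_rpow one_le_two ?_
  have h2 : (0 : ℝ) ≤ (j : ℝ) := Nat.cast_nonneg j
  positivity

/-- **The fourth moments from generic uniformity, many and few.** -/
theorem cfOut_of_gen2 (h : GenOut2) : CFOut := by
  obtain ⟨g, c, a, a', x, aM, b, hg, hgc, hc1, ha, ha', hcx, hx1, haM, haM1, hb, hb1, h⟩ := h
  have hx : 0 < x := by linarith
  refine ⟨g, c, a, a', 2 * x / 5, hg, hgc, hc1, ha, ha', by linarith, fun e heg hec hea hea' => ?_⟩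
  obtain ⟨C, hC, h⟩ := h e heg hec hea hea'
  have hK := e.K_pos
  set K1 : ℝ := 128 * e.K with hK1
  have hK10 : 0 < K1 := by positivity
  set L : ℝ := 1 + K1 with hL
  -- the constant of the small term
  set D : ℝ := 15 * ((K1 + 1) * √(K1 + 1) * √(L / K1) * e.K ^ (1 / 360 : ℝ)) with hD
  have hD0 : 0 ≤ D := by positivity
  refine ⟨7680 * (10369 + (3 * C + D)) * (128 * e.K ^ 3), by positivity,
    fun n b' j hj r k s hk => ?_⟩
  set κ : ℝ := e2 (-(2 * x / 5)) j with hκ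
  have hκ0 : 0 < κ := e2_pos _ _
  have hκ1 : κ ≤ 1 := e2_nonneg_one (by positivity) j
  obtain ⟨hM, hLo⟩ := h n b' j hj r k s hk
  set n0 : ℕ := ⌈K1 * e2 (2 * x / 5 + aM) j⌉₊ with hn0
  have hn1 : K1 * e2 (2 * x / 5 + aM) j ≤ n0 := Nat.le_ceil _
  have hn2 : (n0 : ℝ) ≤ (K1 + 1) * e2 (2 * x / 5 + aM) j := by
    have h1 := (Nat.ceil_lt_add_one (show 0 ≤ K1 * e2 (2 * x / 5 + aM) j by
      have := e2_pos (2 * x / 5 + aM) j; positivity)).le
    have h2 := e2_one_le (show 0 ≤ 2 * x / 5 + aM by positivity) j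
    rw [← hn0] at h1
    linarith
  have hn3 : 1 ≤ n0 := by
    have : 0 < n0 := Nat.ceil_pos.2 (mul_pos hK10 (e2_pos _ _))
    omega
  have hn0p : (0 : ℝ) < n0 := by exact_mod_cast hn3
  have hθ : 128 * e.K / (κ * n0) ≤ e2 (-aM) j := by
    rw [div_le_iff₀ (mul_pos hκ0 hn0p), ← hK1]
    have e1 : e2 (-aM) j * (κ * (K1 * e2 (2 * x / 5 + aM) j)) = K1 := by
      have : e2 (-aM) j * e2 (-(2 * x / 5)) j * e2 (2 * x / 5 + aM) j = 1 := by
        rw [e2_mul, e2_mul]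
        unfold e2
        rw [show (-aM + -(2 * x / 5) + (2 * x / 5 + aM)) * (j : ℝ) = 0 by ring, Real.rpow_zero]
      calc e2 (-aM) j * (κ * (K1 * e2 (2 * x / 5 + aM) j))
          = K1 * (e2 (-aM) j * e2 (-(2 * x / 5)) j * e2 (2 * x / 5 + aM) j) := by rw [hκ]; ring
        _ = K1 := by rw [this, mul_one]
    calc K1 = e2 (-aM) j * (κ * (K1 * e2 (2 * x / 5 + aM) j)) := e1.symm
      _ ≤ e2 (-aM) j * (κ * n0) := by
        refine mul_le_mul_of_nonneg_left (mul_le_mul_of_nonneg_left hn1 hκ0.le) (e2_pos _ _).le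
  have key := cfcell_of_gen2 (L := L) (κ := κ) (n0 := n0) hk (mul_nonneg hC (e2_pos (-x) j).le)
    (mul_nonneg hC (e2_pos (-x) j).le) hκ0 hκ1 (e2_pos (-b) j) (e2_nonneg_one hb.le j)
    (by rw [hL]; linarith) (by rw [hL]; linarith) hn3 hθ hM hLo
  -- the rate
  have hrate : rho2 (C * e2 (-x) j) (C * e2 (-x) j) κ (e2 (-b) j) L (128 * e.K)
      (e.K * e2 (-1) j) n0 * (κ⁻¹ * (√κ)⁻¹) ≤ (3 * C + D) * κ := by
    have hsκ : √κ = e2 (-(x / 5)) j := by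
      rw [Real.sqrt_eq_rpow, hκ, e2_rpow]
      congr 1
      ring
    have e1 : C * e2 (-x) j * (κ⁻¹ * (√κ)⁻¹) = C * κ := by
      rw [hsκ, hκ, H347.Gs.e2_inv, H347.Gs.e2_inv, mul_assoc, e2_mul, e2_mul]
      congr 2
      ring
    have e3 : κ⁻¹ * (n0 * √n0) * √(L / K1) * (e2 (-b) j)⁻¹ *
        (e.K * e2 (-1) j) ^ (1 / 360 : ℝ) * (κ⁻¹ * (√κ)⁻¹) ≤
        (K1 + 1) * √(K1 + 1) * √(L / K1) * e.K ^ (1 / 360 : ℝ) * κ := by
      have s1 : √(n0 : ℝ) ≤ √(K1 + 1) * e2 ((2 * x / 5 + aM) / 2) j := by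
        refine (Real.sqrt_le_sqrt hn2).trans (le_of_eq ?_)
        rw [Real.sqrt_mul (by positivity), Real.sqrt_eq_rpow (e2 _ _), e2_rpow]
        congr 2
        ring
      have s2 : (n0 : ℝ) * √n0 ≤ ((K1 + 1) * e2 (2 * x / 5 + aM) j) *
          (√(K1 + 1) * e2 ((2 * x / 5 + aM) / 2) j) :=
        mul_le_mul hn2 s1 (Real.sqrt_nonneg _) (mul_nonneg (by positivity) (e2_pos _ _).le)
      have s3 : (e.K * e2 (-1) j) ^ (1 / 360 : ℝ) = e.K ^ (1 / 360 : ℝ) * e2 (-(1 / 360)) j := by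
        rw [Real.mul_rpow hK.le (e2_pos _ _).le, e2_rpow]
        congr 2
        ring
      have i1 : κ⁻¹ = e2 (2 * x / 5) j := by rw [hκ, H347.Gs.e2_inv, neg_neg]
      have i2 : (√κ)⁻¹ = e2 (x / 5) j := by rw [hsκ, H347.Gs.e2_inv, neg_neg]
      have i3 : (e2 (-b) j)⁻¹ = e2 b j := by rw [H347.Gs.e2_inv, neg_neg]
      rw [s3, i1, i2, i3]
      have p1 := e2_pos (2 * x / 5) j
      have p2 := e2_pos (x / 5) j
      have p3 := e2_pos b j
      have p4 := e2_pos (-(1 / 360)) j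
      have p5 : (0 : ℝ) ≤ √(L / K1) := Real.sqrt_nonneg _
      have p6 : 0 ≤ e.K ^ (1 / 360 : ℝ) := by positivity
      have t1 : e2 (2 * x / 5) j * (n0 * √n0) * √(L / K1) * e2 b j *
          (e.K ^ (1 / 360 : ℝ) * e2 (-(1 / 360)) j) * (e2 (2 * x / 5) j * e2 (x / 5) j) ≤
          e2 (2 * x / 5) j * (((K1 + 1) * e2 (2 * x / 5 + aM) j) *
            (√(K1 + 1) * e2 ((2 * x / 5 + aM) / 2) j)) * √(L / K1) * e2 b j *
          (e.K ^ (1 / 360 : ℝ) * e2 (-(1 / 360)) j) * (e2 (2 * x / 5) j * e2 (x / 5) j) := by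
        gcongr
      refine t1.trans ?_
      have t2 : e2 (2 * x / 5) j * (((K1 + 1) * e2 (2 * x / 5 + aM) j) *
            (√(K1 + 1) * e2 ((2 * x / 5 + aM) / 2) j)) * √(L / K1) * e2 b j *
          (e.K ^ (1 / 360 : ℝ) * e2 (-(1 / 360)) j) * (e2 (2 * x / 5) j * e2 (x / 5) j) =
          (K1 + 1) * √(K1 + 1) * √(L / K1) * e.K ^ (1 / 360 : ℝ) *
          (e2 (2 * x / 5) j * e2 (2 * x / 5 + aM) j * e2 ((2 * x / 5 + aM) / 2) j * e2 b j *
            e2 (-(1 / 360)) j * e2 (2 * x / 5) j * e2 (x / 5) j) := by ring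
      rw [t2]
      refine mul_le_mul_of_nonneg_left ?_ (by positivity)
      simp only [e2_mul]
      rw [hκ]
      refine e2_le ?_ j
      linarith
    unfold rho2
    rw [← hK1]
    calc (C * e2 (-x) j + 2 * (C * e2 (-x) j) + 15 * (κ⁻¹ * (n0 * √n0) * √(L / K1) *
          (e2 (-b) j)⁻¹ * (e.K * e2 (-1) j) ^ (1 / 360 : ℝ))) * (κ⁻¹ * (√κ)⁻¹)
        = 3 * (C * e2 (-x) j * (κ⁻¹ * (√κ)⁻¹)) + 15 * (κ⁻¹ * (n0 * √n0) * √(L / K1) *
          (e2 (-b) j)⁻¹ * (e.K * e2 (-1) j) ^ (1 / 360 : ℝ) * (κ⁻¹ * (√κ)⁻¹)) := by ring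
      _ ≤ 3 * (C * κ) + 15 * ((K1 + 1) * √(K1 + 1) * √(L / K1) * e.K ^ (1 / 360 : ℝ) * κ) := by
        rw [e1]
        linarith
      _ = _ := by rw [hD]; ring
  have e3 : 7680 * (10369 * κ + (3 * C + D) * κ) * ((e.K * e2 (-1) j) ^ 2 * (128 * e.K)) =
      7680 * (10369 + (3 * C + D)) * (128 * e.K ^ 3) * e2 (-(2 + 2 * x / 5)) j := by
    have h2 : e2 (-(2 + 2 * x / 5)) j = κ * (e2 (-1) j * e2 (-1) j) := by
      rw [hκ, e2_mul, e2_mul]
      congr 1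
      ring
    rw [h2]
    ring
  intro F hF hU i p hip q a
  refine (key F hF hU i p hip q a).trans ?_
  rw [← e3]
  refine mul_le_mul_of_nonneg_right ?_ (mul_nonneg (sq_nonneg _) (sq_nonneg _))
  refine mul_le_mul_of_nonneg_right ?_ (by positivity)
  refine mul_le_mul_of_nonneg_left ?_ (by norm_num)
  linarith

end

end Vale.Agent.P141.H927
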