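import Vale.Agent.P141.H927.Spec2
import Vale.Agent.P141.H305.TopM

/-!
# P141, CE with an active set: low edges in the letters of `H305.TopM`, bridge

* `CE1StL`: `H305.CE1L` for data of height `h` and energy `p`; `CenStL2`: in the costs of the level;
* `ce1M_of_top : H305.CE1M → CE1M`.
-/

namespace Vale.Agent.P141.H927

open Finset
open Vale.Agent.P141.PL (Pt fc)
open Vale.Agent.P141.PL.H315 (iv avg)
open Vale.Agent.P141.PL.H95 (gr)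
open Vale.Agent.P141.H48 (US ES)
open Vale.Agent.P141.H572 (cosF)
open Vale.Agent.P141.H639 (cenf Dis co pfw)
open Vale.Agent.P141.H971 (Cen)
open Vale.Agent.P141.H347.Gs (Ex e2)

noncomputable section

open scoped Classical

/-- **CE1 with one low vector edge for data of height `h` and energy `p`**, one box. -/
def CE1StL : Prop :=
  ∀ b : ℝ, 0 < b → b ≤ 1 →
  ∃ gam c1 : ℝ, 0 < gam ∧ 0 < c1 ∧ ∀ c : ℝ, 0 ≤ c → c ≤ c1 →
  ∀ Kt e cP L e0 : ℝ, 0 < Kt → 1 ≤ e → 0 ≤ cP → 0 ≤ L → 0 < e0 → ∃ C : ℝ, 0 ≤ C ∧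
  ∀ t : ℝ, 0 < t → t ≤ 1 → ∀ (n : ℕ) (ez : ℝ) (F1 F2 F3 : ℕ → Pt → ℝ),
    US n (Kt * t ^ (1 - c)) e cP F1 → US n (Kt * t ^ (1 - c)) e cP F3 → ES n ez cP F2 →
  ∀ o : ℤ, o = 1 ∨ o = -1 → ∀ K ≤ n, ∀ (x : Pt)
    (V : Type) [NormedAddCommGroup V] [InnerProductSpace ℝ V] [FiniteDimensional ℝ V]
    (h p : ℝ) (g : ℤ → ℤ → ℝ) (u v : ℤ → ℤ → V), 0 ≤ h → 0 ≤ p →
    Cen (iv K x.2.1) (iv K x.2.2) (iv K x.1) h p e0 (L * t ^ (2 - c) * (h * p)) g u v →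
    ((∀ z ∈ iv K x.1, ∀ y ∈ iv K x.2.1, ‖u z y‖ ^ 2 ≤ L * (t ^ b * (h ^ 2 * e0))) ∨
      ∀ z ∈ iv K x.1, ∀ y ∈ iv K x.2.2, ‖v z y‖ ^ 2 ≤ L * (t ^ b * (h ^ 2 * e0))) →
    cosF o K x (cenf 0 1 2 g u v) (fun k _ => F1 k) (fun k _ => F2 k) (fun k _ => F3 k) ≤
      C * (t ^ (1 + gam) * (√h * (p ^ 2 * √p)) * √ez * 8 ^ K)

/-- **The centre atoms with one low vector edge in the costs of the level `j`**, with a power
gain. -/
def CenStL2 : Prop :=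
  ∀ b : ℝ, 0 < b → b ≤ 1 →
  ∃ gam c1 : ℝ, 0 < gam ∧ 0 < c1 ∧ ∀ c : ℝ, 0 ≤ c → c ≤ c1 →
  ∀ Kc L e0 : ℝ, 0 < Kc → 0 ≤ L → 0 < e0 → ∃ C : ℝ, 0 ≤ C ∧
  ∀ e : Ex, e.K = Kc → e.c = c → ∀ (σ : ℤ) (r : Fin 4) (j k : ℕ) (x : ℤ) (q : Pt)
    (l m n : Fin 3), Dis l m n →
    ∀ (V : Type) [NormedAddCommGroup V] [InnerProductSpace ℝ V] [FiniteDimensional ℝ V]
    (h p : ℝ) (g : ℤ → ℤ → ℝ) (u v : ℤ → ℤ → V), 0 ≤ h → 0 ≤ p →
    Cen (iv k (co m q)) (iv k (co n q)) (iv k (co l q)) h p e0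
      (L * e2 (-(2 - c)) j * (h * p)) g u v →
    ((∀ z ∈ iv k (co l q), ∀ y ∈ iv k (co m q), ‖u z y‖ ^ 2 ≤ L * (e2 (-b) j * (h ^ 2 * e0))) ∨
      ∀ z ∈ iv k (co l q), ∀ y ∈ iv k (co n q), ‖v z y‖ ^ 2 ≤ L * (e2 (-b) j * (h ^ 2 * e0))) →
    ((e.mp j).cw σ r).cst (pfw (fc r) k q (cenf l m n g u v)) k ((gr 7 σ).cube k x) ≤
      C * (e2 (-(1 + gam)) j * (√h * (p ^ 2 * √p)) * 8 ^ k)

theorem cen_mono' {V : Type*} [NormedAddCommGroup V] [InnerProductSpace ℝ V] {A B C : Finset ℤ}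
    {h p e K K' : ℝ} {a : ℤ → ℤ → ℝ} {u v : ℤ → ℤ → V} (hK : K ≤ K')
    (H : Cen A B C h p e K a u v) : Cen A B C h p e K' a u v where
  a_le := H.a_le
  a_n2 := H.a_n2
  a_row := H.a_row
  u_le := H.u_le
  v_le := H.v_le
  u_en := H.u_en
  v_en := H.v_en
  u_col := H.u_col
  u_pot := fun z hz w => (H.u_pot z hz w).trans (mul_le_mul_of_nonneg_right hK (sq_nonneg _))
  v_pot := fun z hz w => (H.v_pot z hz w).trans (mul_le_mul_of_nonneg_right hK (sq_nonneg _))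

/-- **The bridge** from the frozen top statement. -/
theorem ce1M_of_top (H : H305.CE1M) : CE1M := by
  obtain ⟨gam, c1, hg, hc1, H⟩ := H (1 / 4000) (by norm_num) (by norm_num)
  refine ⟨1 / 4000, gam, c1, by norm_num, le_rfl, hg, hc1, fun c hc hcc Kt e cP L hKt he hcP hL => ?_⟩
  obtain ⟨C, hC, H⟩ := H c hc hcc Kt e cP (L + 1) hKt he hcP (by linarith)
  refine ⟨C, hC, ?_⟩
  intro t ht ht1 n ez F1 F2 F3 h1 h3 h2 o ho K hKn x V _ _ _ s g u v X hs hcen hu hv hX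
  have hs2 : 0 < √s := Real.sqrt_pos.2 hs
  refine H t ht ht1 n ez F1 F2 F3 h1 h3 h2 o ho K hKn x V s g u v X hs (cen_mono' ?_ hcen) hu hv ?_
  · have : 0 ≤ t ^ (2 - c) * √s := by positivity
    nlinarith
  · have e1 : t ^ (1 / 4000 - 2 : ℝ) * t ^ 2 = t ^ (1 / 4000 : ℝ) := by
      rw [← Real.rpow_natCast t 2, ← Real.rpow_add ht]
      norm_num
    have e2 : √s * √s = s := Real.mul_self_sqrt hs.le
    have h5 : 0 < t ^ 2 * √s := by positivity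
    refine le_of_mul_le_mul_right ?_ h5
    refine hX.trans ?_
    have e3 : (L + 1) * (t ^ (1 / 4000 - 2 : ℝ) * √s) * (t ^ 2 * √s) =
        (L + 1) * ((t ^ (1 / 4000 - 2 : ℝ) * t ^ 2) * (√s * √s)) := by ring
    rw [e3, e1, e2]
    have : 0 ≤ t ^ (1 / 4000 : ℝ) * s := by positivity
    nlinarith

end

end Vale.Agent.P141.H927
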