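import Vale.Agent.P141.H437.CenTop
import Vale.Agent.P141.H927.Gen2
import Vale.Agent.P141.H927.Spec3

/-!
# P141, CE with an active set: generic uniformity on the boxes from the price of the centre atoms

* `fm_cenR`: `H437.fm_cen` with any relation between the boxes;
* `atom_le`: one centre atom on one box;
* `genOut2_of_cen : CenStM → CenStL2 → GenOut2`, `cfOut_of_cen2`.
-/

namespace Vale.Agent.P141.H927

open Finset
open Vale.Agent.P141.H315 (Grid dot dot_self_nonneg)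
open Vale.Agent.P141.PL (Pt el fc)
open Vale.Agent.P141.PL.H315 (cube3 iv avg)
open Vale.Agent.P141.PL.H95 (gr shf)
open Vale.Agent.P141.PL.H321 (t12 t23)
open Vale.Agent.P141.H639 (pfw cenf Dis co)
open Vale.Agent.P141.H736 (CW cost)
open Vale.Agent.P141.H782 (gb LSys LSys.S LSys.w)
open Vale.Agent.P141.H347 (cd)
open Vale.Agent.P141.H347.Gs (Par gfL kap GFam Ex e2 e2_pos e2_le e2_mul)
open Vale.Agent.P141.H414 (jf cf)
open Vale.Agent.P141.H444 (TDat.sys)
open Vale.Agent.P141.H769 (lft)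
open Vale.Agent.P141.H971 (Cen cen GenU)
open Vale.Agent.P141.H437

noncomputable section

open scoped Classical

/-- **Any permuted form**: a property of the push-forwards of the centre atoms, any relation `R`
between the boxes of the label vertex, the split end and the other end. -/
theorem fm_cenR {V : Type*} [NormedAddCommGroup V] [InnerProductSpace ℝ V] {r : Fin 4} {k : ℕ}
    {Φ : (ℤ → ℝ) → Prop} {R : ℤ → ℤ → ℤ → Prop} {g : ℤ → ℤ → ℝ} {u v : ℤ → ℤ → V}
    (H : ∀ (q : Pt) (l m n : Fin 3), Dis l m n → R (co l q) (co m q) (co n q) →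
      Φ (pfw (fc r) k q (cenf l m n g u v)))
    {c : Pt} (hc : Fm r c) : ∀ (q : Pt) (l m n : Fin 3), Dis l m n →
      R (co l q) (co m q) (co n q) → Φ (pfw c k q (cenf l m n g u v)) := by
  refine hc (fun c => ∀ (q : Pt) (l m n : Fin 3), Dis l m n → R (co l q) (co m q) (co n q) →
      Φ (pfw c k q (cenf l m n g u v))) H ?_ ?_
  · intro d hd q l m n hl hC
    rw [pfw_t12, cenf_p12]
    refine hd (t12 q) _ _ _ (dis_p12 hl) ?_
    rw [co_p12, co_p12, co_p12]
    exact hC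
  · intro d hd q l m n hl hC
    rw [pfw_t23, cenf_p23]
    refine hd (t23 q) _ _ _ (dis_p23 hl) ?_
    rw [co_p23, co_p23, co_p23]
    exact hC

/-- **One centre atom on one box.** -/
theorem atom_le (p : Par) {σ : ℤ} {r : Fin 4} {k : ℕ} {s : ℤ} {F : ℤ → ℝ} {A : ℝ} (hA : 0 ≤ A)
    (hF : ∀ m, |dot ((gr 7 σ).cube k s) F ((p.tot (gfL σ r) r).a k m)| ≤
      A * (p.tot (gfL σ r) r).W k ((gr 7 σ).cube k s) m)
    {c q : Pt} (hc : Fm r c) {δ e P ρ h n K : ℝ} (he : 0 ≤ e) (hh : 0 ≤ h) (hn : 0 ≤ n)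
    {κ : Type} [Fintype κ] {a : ℤ → ℤ → ℝ} {u v : ℤ → ℤ → EuclideanSpace ℝ κ}
    (hcen : Cen (iv k q.2.1) (iv k q.2.2) (iv k q.1) h n e K a u v)
    {R : ℤ → ℤ → ℤ → Prop} (hR : R q.1 q.2.1 q.2.2)
    (H : ∀ (q : Pt) (l m n' : Fin 3), Dis l m n' → R (co l q) (co m q) (co n' q) →
      (p.cw σ r).cst (pfw (fc r) k q (cenf l m n' a u v)) k ((gr 7 σ).cube k s) ≤
        P * (8 ^ k * (e * (√h * (n ^ 2 * √n)))))
    (hρ : A * (8 * p.θ * P + 18 * (4 * p.φ + p.φ')) ≤ ρ * δ) :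
    (avg (iv k q.2.1 ×ˢ iv k q.2.2 ×ˢ iv k q.1) fun x =>
      rot c ((gr 7 σ).cube k s) F x * cen a u v x) ≤ ρ * (δ * e * (√h * (n ^ 2 * √n))) := by
  have hP : ∀ (z : Fin 4) (o : ℤ), o = 1 ∨ o = -1 →
      cost (kap σ p.t p.t_pos p.E p.E_pos.le z) o r (pfw c k q (cwf a u v)) k
        ((gr 7 σ).cube k s) ≤ P * (8 ^ k * (e * (√h * (n ^ 2 * √n)))) := by
    intro z o ho
    have h1 := fm_cenR (r := r) (k := k) (R := R)
      (Φ := fun ψ => (p.cw σ r).cst ψ k ((gr 7 σ).cube k s) ≤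
        P * (8 ^ k * (e * (√h * (n ^ 2 * √n))))) H hc q 0 1 2 (by decide) hR
    obtain ⟨b, hb⟩ : ∃ b : Bool, (if b then (1 : ℤ) else -1) = o := by
      rcases ho with h | h
      · exact ⟨true, by simp [h]⟩
      · exact ⟨false, by simp [h]⟩
    have h2 := (p.cw σ r).cost_le (z, b) (pfw c k q (cenf 0 1 2 a u v)) k ((gr 7 σ).cube k s)
    have e1 : (p.cw σ r).o (z, b) = o := hb
    rw [e1] at h2
    refine h2.trans ?_
    show (1 : ℝ) * _ ≤ _
    rw [one_mul]
    exact h1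
  have h1 := test_fm p hA hF hc (rep_cen (k := k) (q := q) hh hn he hcen)
    (P := P * (8 ^ k * (e * (√h * (n ^ 2 * √n))))) hP
  rw [avg_rot_cen]
  have p8 : (0 : ℝ) < 8 ^ k := by positivity
  have h2 := (le_abs_self _).trans h1
  set X : ℝ := e * (√h * (n ^ 2 * √n)) with hX
  have hX0 : 0 ≤ X := by rw [hX]; positivity
  calc (8 ^ k : ℝ)⁻¹ * dot ((gr 7 σ).cube k s) F (pfw c k q (cwf a u v))
      ≤ (8 ^ k : ℝ)⁻¹ * (A * (8 * p.θ * (P * (8 ^ k * X)) +
          (4 * p.φ + p.φ') * (8 ^ k * (18 * X)))) :=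
        mul_le_mul_of_nonneg_left h2 (inv_pos.2 p8).le
    _ = A * (8 * p.θ * P + 18 * (4 * p.φ + p.φ')) * X := by
        field_simp
    _ ≤ ρ * δ * X := mul_le_mul_of_nonneg_right hρ hX0
    _ = _ := by rw [hX]; ring

/-- **Generic uniformity on the boxes from the price of the centre atoms**, many and few. -/
theorem genOut2_of_cen (hM : CenStM) (hLw : CenStL2) : GenOut2 := by
  obtain ⟨aM, gam, c1, haM, haM1, hgam, hc1, hM⟩ := hM
  obtain ⟨gam2, c2, hgam2, hc2, hLw⟩ := hLw (1 / 2000) (by norm_num) (by norm_num)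
  set μ : ℝ := min (min gam gam2) (min (min c1 c2) (1 / 2000)) with hμ
  have hμ0 : 0 < μ := lt_min (lt_min hgam hgam2) (lt_min (lt_min hc1 hc2) (by norm_num))
  have hμ1 : μ ≤ gam := (min_le_left _ _).trans (min_le_left _ _)
  have hμ1' : μ ≤ gam2 := (min_le_left _ _).trans (min_le_right _ _)
  have hμ2 : μ ≤ c1 := (min_le_right _ _).trans ((min_le_left _ _).trans (min_le_left _ _))
  have hμ2' : μ ≤ c2 := (min_le_right _ _).trans ((min_le_left _ _).trans (min_le_right _ _))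
  have hμ3 : μ ≤ 1 / 2000 := (min_le_right _ _).trans (min_le_right _ _)
  refine ⟨μ / 100, μ / 100, 2, 2, μ / 2, aM, 1 / 4000, by positivity, le_rfl, by linarith,
    by norm_num, by norm_num, by linarith, by linarith, haM, haM1, by norm_num, le_rfl,
    fun e heg hec hea hea' => ?_⟩
  have hK := e.K_pos
  have hE : (0 : ℝ) ≤ 128 * e.K := by positivity
  set L : ℝ := 1 + e.K ^ 2 + (e.K ^ 2)⁻¹ with hL
  have hL0 : 0 ≤ L := by positivity
  have hL1 : e.K ^ 2 ≤ L := by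
    have : 0 ≤ (e.K ^ 2)⁻¹ := by positivity
    rw [hL]; linarith
  have hL2 : (e.K ^ 2)⁻¹ ≤ L := by
    have : 0 ≤ e.K ^ 2 := by positivity
    rw [hL]; linarith
  have hL3 : 1 ≤ L := by
    have h1 : 0 ≤ e.K ^ 2 := by positivity
    have : 0 ≤ (e.K ^ 2)⁻¹ := by positivity
    rw [hL]; linarith
  obtain ⟨C, hC, hM⟩ := hM (μ / 100) (by positivity) (by linarith) e.K L (128 * e.K) hK
    hL0 (by positivity)
  obtain ⟨C', hC', hLw⟩ := hLw (μ / 100) (by positivity) (by linarith) e.K L (128 * e.K) hK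
    hL0 (by positivity)
  set D : ℝ := C + C' with hD
  have hD0 : 0 ≤ D := by positivity
  refine ⟨8 * (D / (128 * e.K)) + 90, by positivity, fun n b j hj r k s hk => ?_⟩
  set ν : ℝ := min gam gam2 with hν
  set P : ℝ := D / (128 * e.K) * e2 (-(1 + ν)) j with hP
  have hμν : μ ≤ ν := min_le_left _ _
  -- the rate
  have hρ : e.K * (8 * (e.mp j).θ * P + 18 * (4 * (e.mp j).φ + (e.mp j).φ')) ≤
      (8 * (D / (128 * e.K)) + 90) * e2 (-(μ / 2)) j * (e.K * e2 (-1) j) := by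
    have e1 : (e.mp j).θ = e2 (μ / 100) j := by rw [← heg]; rfl
    have e3 : (e.mp j).φ = e2 (-2) j := by rw [← hea]; rfl
    have e4 : (e.mp j).φ' = e2 (-2) j := by rw [← hea']; rfl
    rw [e1, e3, e4, hP]
    have t1 : e2 (μ / 100) j * e2 (-(1 + ν)) j ≤ e2 (-(μ / 2)) j * e2 (-1) j := by
      rw [e2_mul, e2_mul]
      refine e2_le ?_ j
      linarith
    have t2 : e2 (-2) j ≤ e2 (-(μ / 2)) j * e2 (-1) j := by
      rw [e2_mul]
      refine e2_le ?_ j
      linarith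
    have hC' : 0 ≤ D / (128 * e.K) := by positivity
    calc e.K * (8 * e2 (μ / 100) j * (D / (128 * e.K) * e2 (-(1 + ν)) j) +
          18 * (4 * e2 (-2) j + e2 (-2) j)) =
        e.K * (8 * (D / (128 * e.K)) * (e2 (μ / 100) j * e2 (-(1 + ν)) j) +
          90 * e2 (-2) j) := by ring
      _ ≤ e.K * (8 * (D / (128 * e.K)) * (e2 (-(μ / 2)) j * e2 (-1) j) +
          90 * (e2 (-(μ / 2)) j * e2 (-1) j)) := by gcongr
      _ = _ := by ring
  -- the two kinds of prices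
  have hpr : ∀ {G Y X : ℝ}, 0 ≤ G → G ≤ D → 0 ≤ X → ∀ {γ : ℝ}, ν ≤ γ →
      Y ≤ G * (e2 (-(1 + γ)) j * X * 8 ^ k) → Y ≤ P * (8 ^ k * ((128 * e.K) * X)) := by
    intro G Y X hG hGD hX γ hγ hY
    refine hY.trans ?_
    have h1 : e2 (-(1 + γ)) j ≤ e2 (-(1 + ν)) j := e2_le (by linarith) j
    have h0 := (e2_pos (-(1 + γ)) j).le
    have h2 : P * (8 ^ k * ((128 * e.K) * X)) = D * (e2 (-(1 + ν)) j * X * 8 ^ k) := by
      rw [hP]
      field_simp
    rw [h2]
    have h00 := (e2_pos (-(1 + ν)) j).le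
    gcongr
  -- potentials
  have hpot : ∀ {h t : ℝ}, 0 ≤ h → 0 ≤ t →
      (e.K * e2 (-1) j) ^ 2 * (h * t) ≤ L * e2 (-(2 - μ / 100)) j * (h * t) := by
    intro h t hh ht
    refine mul_le_mul_of_nonneg_right ?_ (mul_nonneg hh ht)
    rw [mul_pow, sq (e2 _ _), e2_mul]
    refine mul_le_mul hL1 (e2_le ?_ j) (e2_pos _ _).le hL0
    linarith
  -- many
  have keyM : ∀ (F : ℤ → ℝ), (∀ m, |dot ((gb n b).cube k s) F (((e.T n).sys.S j b r).a k m)| ≤
      e.K * ((e.T n).sys.S j b r).W k ((gb n b).cube k s) m) → ∀ (c q : Pt), Fm r c →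
      GenM ((8 * (D / (128 * e.K)) + 90) * e2 (-(μ / 2)) j) (e2 (-aM) j) (e.K * e2 (-1) j)
        (128 * e.K) (iv k q.2.1) (iv k q.2.2) (iv k q.1) (rot c ((gb n b).cube k s) F) := by
    intro F hU c q hc a h t hh ht κ _ u v X hX
    refine atom_le (e.mp j) hK.le hU (P := P) hc hE hh ht hX.toCen
      (R := fun A B C => Cen (iv k B) (iv k C) (iv k A) h t (128 * e.K)
          (L * e2 (-(2 - μ / 100)) j * (h * t)) a u v ∧
        (avg (iv k A) fun z => if z ∈ X then (1 : ℝ) else 0) * (e2 (-2) j * (h * t)) ≤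
          L * (e2 (-aM) j * t ^ 2)) ⟨cen_mono (hpot hh ht) hX.toCen, ?_⟩ ?_ hρ
    · have h1 := hX.x_den
      have h2 : (e.K * e2 (-1) j) ^ 2 * (h * t) = e.K ^ 2 * (e2 (-2) j * (h * t)) := by
        rw [mul_pow, sq (e2 _ _), e2_mul, show (-1 : ℝ) + -1 = -2 by norm_num]
        ring
      rw [h2] at h1
      have h3 : (avg (iv k q.1) fun z => if z ∈ X then (1 : ℝ) else 0) * (e2 (-2) j * (h * t)) ≤
          (e.K ^ 2)⁻¹ * (e2 (-aM) j * t ^ 2) := by
        rw [le_inv_mul_iff₀ (by positivity)]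
        refine le_trans (le_of_eq ?_) h1
        ring
      refine h3.trans (mul_le_mul_of_nonneg_right hL2 ?_)
      have := e2_pos (-aM) j
      positivity
    · intro q l m n' hl hR
      have h1 := hM e rfl hec (shf (n + 7) b) r j k s q l m n' hl (EuclideanSpace ℝ κ) h t a u v X
        hh ht hR.1 hX.u_off hX.v_off hR.2
      exact hpr hC (by rw [hD]; linarith) (by positivity) (min_le_left gam gam2) h1
  -- low
  have keyL : ∀ (F : ℤ → ℝ), (∀ m, |dot ((gb n b).cube k s) F (((e.T n).sys.S j b r).a k m)| ≤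
      e.K * ((e.T n).sys.S j b r).W k ((gb n b).cube k s) m) → ∀ (c q : Pt), Fm r c →
      GenL ((8 * (D / (128 * e.K)) + 90) * e2 (-(μ / 2)) j) (e2 (-(1 / 4000)) j)
        (e.K * e2 (-1) j) (128 * e.K) (iv k q.2.1) (iv k q.2.2) (iv k q.1)
        (rot c ((gb n b).cube k s) F) := by
    intro F hU c q hc a h t hh ht κ _ u v hcen hlow
    have e5 : e2 (-(1 / 4000)) j ^ 2 = e2 (-(1 / 2000)) j := by
      rw [sq, e2_mul]; norm_num
    have e6 : ∀ w : ℝ, w ≤ e2 (-(1 / 4000)) j ^ 2 * (h ^ 2 * (128 * e.K)) →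
        w ≤ L * (e2 (-(1 / 2000)) j * (h ^ 2 * (128 * e.K))) := by
      intro w hw
      rw [e5] at hw
      have : 0 ≤ e2 (-(1 / 2000)) j * (h ^ 2 * (128 * e.K)) := by
        have := e2_pos (-(1 / 2000)) j
        positivity
      nlinarith
    refine atom_le (e.mp j) hK.le hU (P := P) hc hE hh ht hcen
      (R := fun A B C => Cen (iv k B) (iv k C) (iv k A) h t (128 * e.K)
          (L * e2 (-(2 - μ / 100)) j * (h * t)) a u v ∧
        ((∀ z ∈ iv k A, ∀ y ∈ iv k B, ‖u z y‖ ^ 2 ≤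
            L * (e2 (-(1 / 2000)) j * (h ^ 2 * (128 * e.K)))) ∨
          ∀ z ∈ iv k A, ∀ y ∈ iv k C, ‖v z y‖ ^ 2 ≤
            L * (e2 (-(1 / 2000)) j * (h ^ 2 * (128 * e.K)))))
      ⟨cen_mono (hpot hh ht) hcen, ?_⟩ ?_ hρ
    · rcases hlow with h1 | h1
      · exact Or.inl fun z hz y hy => e6 _ (h1 z hz y hy)
      · exact Or.inr fun z hz y hy => e6 _ (h1 z hz y hy)
    · intro q l m n' hl hR
      have h1 := hLw e rfl hec (shf (n + 7) b) r j k s q l m n' hl (EuclideanSpace ℝ κ) h t a u v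
        hh ht hR.1 hR.2
      exact hpr hC' (by rw [hD]; linarith) (by positivity) (min_le_right gam gam2) h1
  have hrot : ∀ (c q : Pt) (F : ℤ → ℝ), rot (t23 c) ((gb n b).cube k s) F =
      fun y => lft c ((gb n b).cube k s) F (y.2.2, y.2.1, y.1) := by
    intro c q F
    funext x
    exact rot_t23 c _ F x
  constructor
  · intro F hF hU i p hip q
    subst hip
    have hc := fm_cf i p
    refine ⟨keyM F hU _ q hc, ?_⟩
    have h1 := keyM F hU _ (t23 q) hc.t23
    rw [hrot _ q F] at h1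
    exact h1
  · intro F hF hU i p hip q
    subst hip
    have hc := fm_cf i p
    refine ⟨keyL F hU _ q hc, ?_⟩
    have h1 := keyL F hU _ (t23 q) hc.t23
    rw [hrot _ q F] at h1
    exact h1

/-- **The fourth moments of the centre-free companions.** -/
theorem cfOut_of_cen2 (hM : CenStM) (hL : CenStL2) : H501.CFOut :=
  cfOut_of_gen2 (genOut2_of_cen hM hL)

/-- **The output of CE from the price of the centre atoms.** -/
theorem ceOut_of_cen2 (hM : CenStM) (hL : CenStL2) : H501.CEOut :=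
  H501.ceOut_of_cf (cfOut_of_cen2 hM hL)

end

end Vale.Agent.P141.H927
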