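import Vale.Agent.P141.H927.DictP

/-!
# P141, composite events, dictionary with many and few singular values: the few part

`few_energy`: at the fibre points with less than `n0` singular values in the level `[σ, S)` the
energy of the level is small: the high parts of the vector edges have few labels and small support
(`few_level`), the pairings with one low part are bounded by `GenL`.
-/

namespace Vale.Agent.P141.H927

open Finset
open Vale.Agent.P141.PL.H315 Vale.Agent.P141.H550 Vale.Agent.P141.H769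
open Vale.Agent.P141.H834 (UnifP LineB gf)
open Vale.Agent.P141.H922 (n2 n4 nN n2_nonneg n4_nonneg nN_nonneg n2_sq n4_sq n4_four nN_sq)
open Vale.Agent.P141.H555
open Vale.Agent.P141.H573 (tr)
open Vale.Agent.P141.H971 (Cen cen pair_cen)

noncomputable section

variable {A B C : Finset ℤ} {G : ℤ × ℤ × ℤ → ℝ} {a : ℤ → ℤ → ℝ} {s : ℤ → A → ℝ}
  {φ ψ : ℤ → A → ℤ → ℝ} {e h p δ : ℝ}

open Classical in
/-- the few part of the level -/
def fewI {A : Finset ℤ} (C : Finset ℤ) (s : ℤ → A → ℝ) (σ S : ℝ) (n0 : ℕ) (z : ℤ) : Finset A :=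
  if z ∈ C ∧ (lvI s σ S z).card < n0 then lvI s σ S z else ∅

open Classical in
/-- the many part of the level -/
def manyI {A : Finset ℤ} (C : Finset ℤ) (s : ℤ → A → ℝ) (σ S : ℝ) (n0 : ℕ) (z : ℤ) : Finset A :=
  if z ∈ C ∧ n0 ≤ (lvI s σ S z).card then lvI s σ S z else ∅

theorem fewI_card {A : Finset ℤ} {C : Finset ℤ} {s : ℤ → A → ℝ} {σ S : ℝ} {n0 : ℕ} (z : ℤ) :
    (fewI C s σ S n0 z).card ≤ n0 := by
  unfold fewI
  split_ifs with h1
  · exact h1.2.le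
  · simp

theorem fewI_mem {A : Finset ℤ} {C : Finset ℤ} {s : ℤ → A → ℝ} {σ S : ℝ} {n0 : ℕ} {z : ℤ} {i : A}
    (hi : i ∈ fewI C s σ S n0 z) : σ ≤ s z i ∧ s z i < S := by
  unfold fewI at hi
  split_ifs at hi with h1
  · exact mem_lvI.1 hi
  · simp at hi

theorem manyI_mem {A : Finset ℤ} {C : Finset ℤ} {s : ℤ → A → ℝ} {σ S : ℝ} {n0 : ℕ} {z : ℤ} {i : A}
    (hi : i ∈ manyI C s σ S n0 z) : σ ≤ s z i ∧ s z i < S := by
  unfold manyI at hi
  split_ifs at hi with h1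
  · exact mem_lvI.1 hi
  · simp at hi

theorem few_add_many {A : Finset ℤ} {C : Finset ℤ} {s : ℤ → A → ℝ} {σ S : ℝ} {n0 : ℕ} {z : ℤ}
    (hz : z ∈ C) (F : A → ℝ) : ∑ i ∈ fewI C s σ S n0 z, F i + ∑ i ∈ manyI C s σ S n0 z, F i =
      ∑ i ∈ lvI s σ S z, F i := by
  unfold fewI manyI
  by_cases h1 : (lvI s σ S z).card < n0
  · rw [if_pos ⟨hz, h1⟩, if_neg fun h => absurd h.2 (not_le.2 h1)]; simp
  · rw [if_neg fun h => h1 h.2, if_pos ⟨hz, not_lt.1 h1⟩]; simp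

/-- the `n`-th element of a finset -/
def nth {A : Finset ℤ} (I : Finset A) (n : ℕ) (hn : n < I.card) : A :=
  (I.equivFin.symm ⟨n, hn⟩ : I)

theorem nth_mem {A : Finset ℤ} (I : Finset A) (n : ℕ) (hn : n < I.card) : nth I n hn ∈ I :=
  (I.equivFin.symm ⟨n, hn⟩).2

theorem sum_nth {A : Finset ℤ} (I : Finset A) {n0 : ℕ} (hI : I.card ≤ n0) (F : A → ℝ) :
    ∑ i ∈ I, F i = ∑ n ∈ range n0, if hn : n < I.card then F (nth I n hn) else 0 := by
  classical
  have e1 : ∑ i ∈ I, F i = ∑ k : Fin I.card, F (nth I k.1 k.2) := by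
    rw [← Finset.sum_coe_sort I F]
    exact (Fintype.sum_equiv I.equivFin.symm (fun k => F (nth I k.1 k.2)) (fun i => F i)
      (fun k => rfl)).symm
  have e2 : ∑ k : Fin I.card, F (nth I k.1 k.2) =
      ∑ n ∈ range I.card, if hn : n < I.card then F (nth I n hn) else 0 := by
    rw [← Fin.sum_univ_eq_sum_range (fun n => if hn : n < I.card then F (nth I n hn) else 0)]
    refine Fintype.sum_congr _ _ fun k => ?_
    rw [dif_pos k.2]
  rw [e1, e2]
  refine sum_subset (range_mono hI) fun n _ hn => ?_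
  rw [dif_neg fun h => hn (mem_range.2 h)]

/-- split of an inner product in high and low parts -/
theorem cut_split {V : Type*} [NormedAddCommGroup V] [InnerProductSpace ℝ V]
    (P Q : ℤ → ℤ → Prop) (u v : ℤ → ℤ → V) (z x y : ℤ) :
    inner ℝ (u z x) (v z y) = inner ℝ (cutV P u z x) (cutV Q v z y) +
      inner ℝ (cutV (fun z x => ¬ P z x) u z x) (v z y) +
      inner ℝ (cutV P u z x) (cutV (fun z y => ¬ Q z y) v z y) := by
  unfold cutV
  by_cases h1 : P z x <;> by_cases h2 : Q z y <;> simp [h1, h2]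

theorem cutV_true {V : Type*} [Zero V] (v : ℤ → ℤ → V) : cutV (fun _ _ => True) v = v := by
  funext z y
  unfold cutV
  simp

/-- one label per fibre point: the bound of `few_level` -/
theorem few_sel (H : IsSvdF A B (sl a G) s φ ψ) {L : ℝ} (hL1 : 1 ≤ L)
    (hG : LiftB L A B C G) (hU : UnifP δ A B C G) (hδ : 0 < δ) (he : 0 < e) (hh : 0 < h)
    (hp : 0 < p) (ha : ∀ x ∈ A, ∀ y ∈ B, |a x y| ≤ h) (hp2 : n2 (A ×ˢ B) (gf a) ≤ p)
    {σ S κ β : ℝ} (hσ : 0 < σ) (hκ : 0 < κ) (hκ1 : κ ≤ 1) (hS : S = σ / κ) (hβ : 0 < β)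
    (hβ1 : β ≤ 1) {n0 : ℕ} (hn0 : 1 ≤ n0) {I : ℤ → Finset A}
    (hI : ∀ z, ∀ i ∈ I z, σ ≤ s z i ∧ s z i < S) (hc : ∀ z, (I z).card ≤ n0)
    (hE : (avg C fun z => ∑ i ∈ I z, s z i ^ 2) ≤ e * p ^ 2) {X : Finset ℤ} (hX : X ⊆ C)
    (ι : ℤ → A) (hι : ∀ z ∈ X, ι z ∈ I z) :
    (avg C fun z => if z ∈ X then avg A fun x => avg B fun y => sl a G z x y *
      ((if β ^ 2 * (h ^ 2 * e) ≤ ‖uF H σ I z x‖ ^ 2 then s z (ι z) / S * φ z (ι z) x else 0) *
        (if β ^ 2 * (h ^ 2 * e) ≤ ‖vF H σ I z y‖ ^ 2 then ψ z (ι z) y else 0)) else 0) ≤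
      15 * (p ^ 2 / σ) * √(e * L * (n0 / κ)) * β⁻¹ * δ ^ (1 / 360 : ℝ) := by
  classical
  obtain ⟨N, c, f, W, hN, hA, hB, hC, hcc, hW, hEf, hGf⟩ := hG
  have hN0 : (0 : ℝ) < N := by exact_mod_cast hN
  have hn0' : (1 : ℝ) ≤ n0 := by exact_mod_cast hn0
  have hSpos : 0 < S := by rw [hS]; positivity
  have hs : ∀ z i, 0 ≤ s z i := fun z i => (H z).s0 i
  have hU' : UnifP δ A B C fun q => f (c.1 * q.1 + c.2.1 * q.2.1 + c.2.2 * q.2.2) := by
    intro u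
    refine le_trans (le_of_eq ?_) (hU u)
    congr 1
    refine avg_congr fun q hq => ?_
    rw [mem_product, mem_product] at hq
    show f (c.1 * q.1 + c.2.1 * q.2.1 + c.2.2 * q.2.2) * _ = G (q.1, q.2.1, q.2.2) * _
    rw [hGf _ hq.1 _ hq.2.1 _ hq.2.2]
  set t : ℝ := β ^ 2 * (h ^ 2 * e) with ht
  have ht0 : 0 < t := by positivity
  set D1 : ℤ → Finset ℤ := fun z => A.filter fun x => t ≤ ‖uF H σ I z x‖ ^ 2 with hD1
  set D2 : ℤ → Finset ℤ := fun z => B.filter fun y => t ≤ ‖vF H σ I z y‖ ^ 2 with hD2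
  set P : ℝ := e * p ^ 2 / σ ^ 2 with hP
  set d : ℝ := σ * S * n0 / t with hd
  have hd0 : 0 < d := by positivity
  have hsum : ∀ z, ∑ i ∈ I z, s z i ≤ n0 * S := by
    intro z
    have h1 : ∑ i ∈ I z, s z i ≤ (I z).card • S := sum_le_card_nsmul _ _ _ fun i hi => (hI z i hi).2.le
    refine h1.trans ?_
    rw [nsmul_eq_mul]
    exact mul_le_mul_of_nonneg_right (by exact_mod_cast hc z) hSpos.le
  have hXc : (X.card : ℝ) ≤ P * N := by
    have h1 : (X.card : ℝ) * σ ^ 2 ≤ ∑ z ∈ C, ∑ i ∈ I z, s z i ^ 2 := by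
      have h2 : (X.card : ℝ) * σ ^ 2 = ∑ z ∈ X, σ ^ 2 := by rw [sum_const, nsmul_eq_mul]
      rw [h2]
      refine le_trans (sum_le_sum fun z hz => ?_) (sum_le_sum_of_subset_of_nonneg hX
        fun z _ _ => sum_nonneg fun i _ => sq_nonneg _)
      have h3 : s z (ι z) ^ 2 ≤ ∑ i ∈ I z, s z i ^ 2 :=
        single_le_sum (f := fun i => s z i ^ 2) (fun i _ => sq_nonneg _) (hι z hz)
      exact (pow_le_pow_left₀ hσ.le (hI z _ (hι z hz)).1 2).trans h3
    have h2 : ∑ z ∈ C, ∑ i ∈ I z, s z i ^ 2 ≤ N * (e * p ^ 2) := by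
      have h3 := hE
      unfold avg at h3
      rw [hC, inv_mul_le_iff₀ hN0] at h3
      exact h3
    rw [hP, div_mul_eq_mul_div, le_div_iff₀ (by positivity)]
    linarith
  have hd1 : ∀ z ∈ X, ((D1 z).card : ℝ) ≤ d * N := by
    intro z _
    have h1 : ((D1 z).card : ℝ) * t ≤ ∑ x ∈ A, ‖uF H σ I z x‖ ^ 2 := by
      have h2 : ((D1 z).card : ℝ) * t = ∑ x ∈ D1 z, t := by rw [sum_const, nsmul_eq_mul]
      rw [h2]
      exact le_trans (sum_le_sum fun x hx => (mem_filter.1 hx).2)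
        (sum_le_sum_of_subset_of_nonneg (filter_subset _ _) fun x _ _ => sq_nonneg _)
    have h2 : ∑ x ∈ A, ‖uF H σ I z x‖ ^ 2 = N * (σ * ∑ i ∈ I z, s z i) := by
      have h3 := (H z).energy_u hσ.le (I z)
      unfold avg at h3
      rw [hA, inv_mul_eq_iff_eq_mul₀ hN0.ne'] at h3
      exact h3
    rw [hd, div_mul_eq_mul_div, le_div_iff₀ ht0]
    have h3 : σ * ∑ i ∈ I z, s z i ≤ σ * (n0 * S) := mul_le_mul_of_nonneg_left (hsum z) hσ.le
    have h4 := mul_le_mul_of_nonneg_left h3 hN0.le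
    calc ((D1 z).card : ℝ) * t ≤ N * (σ * ∑ i ∈ I z, s z i) := h1.trans h2.le
      _ ≤ N * (σ * (n0 * S)) := h4
      _ = σ * S * n0 * N := by ring
  have hd2 : ∀ z ∈ X, ((D2 z).card : ℝ) ≤ d * N := by
    intro z _
    have h1 : ((D2 z).card : ℝ) * t ≤ ∑ x ∈ B, ‖vF H σ I z x‖ ^ 2 := by
      have h2 : ((D2 z).card : ℝ) * t = ∑ x ∈ D2 z, t := by rw [sum_const, nsmul_eq_mul]
      rw [h2]
      exact le_trans (sum_le_sum fun x hx => (mem_filter.1 hx).2)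
        (sum_le_sum_of_subset_of_nonneg (filter_subset _ _) fun x _ _ => sq_nonneg _)
    have h2 : ∑ x ∈ B, ‖vF H σ I z x‖ ^ 2 = N * (σ * ∑ i ∈ I z, s z i) := by
      have h3 := (H z).energy_v hσ.le (I z)
      unfold avg at h3
      rw [hB, inv_mul_eq_iff_eq_mul₀ hN0.ne'] at h3
      exact h3
    rw [hd, div_mul_eq_mul_div, le_div_iff₀ ht0]
    have h3 : σ * ∑ i ∈ I z, s z i ≤ σ * (n0 * S) := mul_le_mul_of_nonneg_left (hsum z) hσ.le
    have h4 := mul_le_mul_of_nonneg_left h3 hN0.le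
    calc ((D2 z).card : ℝ) * t ≤ N * (σ * ∑ i ∈ I z, s z i) := h1.trans h2.le
      _ ≤ N * (σ * (n0 * S)) := h4
      _ = σ * S * n0 * N := by ring
  have hφ : ∀ z ∈ X, (avg A fun x => (s z (ι z) / S * φ z (ι z) x) ^ 2) ≤ 1 := by
    intro z hz
    have h1 : (avg A fun x => (s z (ι z) / S * φ z (ι z) x) ^ 2) = (s z (ι z) / S) ^ 2 := by
      simp only [mul_pow]
      rw [avg_mul_left, (H z).norm_phi, mul_one]
    rw [h1]
    have h2 : s z (ι z) / S ≤ 1 := (div_le_one hSpos).2 (hI z _ (hι z hz)).2.le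
    have h3 : 0 ≤ s z (ι z) / S := div_nonneg (hs _ _) hSpos.le
    nlinarith
  have hψ : ∀ z ∈ X, (avg B fun y => ψ z (ι z) y ^ 2) ≤ 1 := fun z hz =>
    ((H z).norm_psi (hσ.trans_le (hI z _ (hι z hz)).1)).le
  have hp2' : (avg A fun x => avg B fun y => a x y ^ 2) ≤ p ^ 2 := by
    have h1 : (avg A fun x => avg B fun y => a x y ^ 2) = n2 (A ×ˢ B) (gf a) ^ 2 := by
      rw [n2_sq, avg_prod]; rfl
    rw [h1]; exact pow_le_pow_left₀ (n2_nonneg _ _) hp2 2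
  have key := few_level hN hA hB hC hcc hW hL1 hEf hδ hU' hX (D1 := D1) (D2 := D2)
    (fun z _ => filter_subset _ _) (fun z _ => filter_subset _ _) hd0 hXc hd1 hd2 hh.le ha hp2'
    hφ hψ
  set T : ℝ := avg C fun z => if z ∈ X then avg A fun x => avg B fun y => sl a G z x y *
      ((if t ≤ ‖uF H σ I z x‖ ^ 2 then s z (ι z) / S * φ z (ι z) x else 0) *
        (if t ≤ ‖vF H σ I z y‖ ^ 2 then ψ z (ι z) y else 0)) else 0 with hT
  have hTe : (avg C fun z => if z ∈ X then avg A fun x => avg B fun y =>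
      a x y * f (c.1 * x + c.2.1 * y + c.2.2 * z) *
        ((if x ∈ D1 z then s z (ι z) / S * φ z (ι z) x else 0) *
          (if y ∈ D2 z then ψ z (ι z) y else 0)) else 0) = T := by
    rw [hT]
    refine avg_congr fun z hz => ?_
    split_ifs with h1
    · refine avg_congr fun x hx => avg_congr fun y hy => ?_
      have h2 : (x ∈ D1 z) ↔ t ≤ ‖uF H σ I z x‖ ^ 2 := by simp [hD1, hx]
      have h3 : (y ∈ D2 z) ↔ t ≤ ‖vF H σ I z y‖ ^ 2 := by simp [hD2, hy]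
      have e0 : sl a G z x y = a x y * G (x, y, z) := rfl
      rw [e0, hGf x hx y hy z hz]
      rw [if_congr h2 rfl rfl, if_congr h3 rfl rfl]
    · rfl
  rw [hTe] at key
  -- arithmetic
  set Y : ℝ := n0 / (κ * β ^ 2) with hY
  have hY1 : 1 ≤ Y := by
    rw [hY, one_le_div (by positivity)]
    have : κ * β ^ 2 ≤ 1 := by
      have h1 : β ^ 2 ≤ 1 := pow_le_one₀ hβ.le hβ1
      calc κ * β ^ 2 ≤ 1 * 1 := mul_le_mul hκ1 h1 (by positivity) (by norm_num)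
        _ = 1 := by ring
    linarith
  have hPd : P * h ^ 2 * d = p ^ 2 * Y := by
    rw [hP, hd, ht, hS, hY]
    field_simp
  have hδp : 0 < δ ^ (1 / 90 : ℝ) := Real.rpow_pos_of_pos hδ _
  have key2 : T ^ 4 ≤ 40000 * (P ^ 2 * (p ^ 2 * Y) ^ 2 * L ^ 2 * δ ^ (1 / 90 : ℝ)) := by
    refine key.trans ?_
    have h1 : P ^ 3 * h ^ 2 * d * L ^ 2 * (P * h ^ 2 * d + p ^ 2) * δ ^ (1 / 90 : ℝ) =
        P ^ 2 * (p ^ 2 * Y) * L ^ 2 * (p ^ 2 * Y + p ^ 2) * δ ^ (1 / 90 : ℝ) := by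
      rw [← hPd]; ring
    rw [h1]
    have h2 : p ^ 2 * Y + p ^ 2 ≤ 2 * (p ^ 2 * Y) := by nlinarith [sq_nonneg p]
    have h3 : 0 ≤ P ^ 2 * (p ^ 2 * Y) * L ^ 2 := by positivity
    have h4 := mul_le_mul_of_nonneg_left h2 h3
    have h5 := mul_le_mul_of_nonneg_right h4 hδp.le
    linarith
  set R : ℝ := 15 * (p ^ 2 / σ) * √(e * L * (n0 / κ)) * β⁻¹ * δ ^ (1 / 360 : ℝ) with hR
  have hR0 : 0 ≤ R := by positivity
  have hR4 : R ^ 4 = 50625 * (P ^ 2 * (p ^ 2 * Y) ^ 2 * L ^ 2 * δ ^ (1 / 90 : ℝ)) := by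
    have h1 : √(e * L * (n0 / κ)) ^ 4 = (e * L * (n0 / κ)) ^ 2 := by
      rw [show √(e * L * (n0 / κ)) ^ 4 = (√(e * L * (n0 / κ)) ^ 2) ^ 2 by ring,
        Real.sq_sqrt (by positivity)]
    have h2 : (δ ^ (1 / 360 : ℝ)) ^ 4 = δ ^ (1 / 90 : ℝ) := by
      rw [← Real.rpow_natCast, ← Real.rpow_mul hδ.le]; norm_num
    rw [hR, mul_pow, mul_pow, mul_pow, mul_pow, h1, h2, hP, hY]
    field_simp
    norm_num
  by_contra hcon
  rw [not_le] at hcon
  have h1 : R ^ 4 < T ^ 4 := pow_lt_pow_left₀ hcon hR0 (by norm_num)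
  have h2 : 0 ≤ P ^ 2 * (p ^ 2 * Y) ^ 2 * L ^ 2 * δ ^ (1 / 90 : ℝ) := by positivity
  rw [hR4] at h1
  linarith

/-- averages on the box, fibre first -/
theorem avg_box (F : ℤ × ℤ × ℤ → ℝ) :
    avg (A ×ˢ B ×ˢ C) F = avg C fun z => avg A fun x => avg B fun y => F (x, y, z) := by
  rw [avg_prod]
  have e2 : ∀ x, (avg (B ×ˢ C) fun r => F (x, r)) = avg C fun z => avg B fun y => F (x, y, z) := by
    intro x
    rw [avg_prod, avg_comm]
  simp only [e2]
  rw [avg_comm]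

/-- the pairing with the high parts of the vector edges -/
theorem few_high (H : IsSvdF A B (sl a G) s φ ψ) {L : ℝ} (hL1 : 1 ≤ L)
    (hG : LiftB L A B C G) (hU : UnifP δ A B C G) (hδ : 0 < δ) (he : 0 < e) (hh : 0 < h)
    (hp : 0 < p) (ha : ∀ x ∈ A, ∀ y ∈ B, |a x y| ≤ h) (hp2 : n2 (A ×ˢ B) (gf a) ≤ p)
    {σ S κ β : ℝ} (hσ : 0 < σ) (hκ : 0 < κ) (hκ1 : κ ≤ 1) (hS : S = σ / κ) (hβ : 0 < β)
    (hβ1 : β ≤ 1) {n0 : ℕ} (hn0 : 1 ≤ n0) {I : ℤ → Finset A}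
    (hI : ∀ z, ∀ i ∈ I z, σ ≤ s z i ∧ s z i < S) (hc : ∀ z, (I z).card ≤ n0)
    (hE : (avg C fun z => ∑ i ∈ I z, s z i ^ 2) ≤ e * p ^ 2) :
    (avg (A ×ˢ B ×ˢ C) fun q => G q * cen a
      (cutV (fun z x => β ^ 2 * (h ^ 2 * e) ≤ ‖uF H σ I z x‖ ^ 2) (uF H σ I))
      (cutV (fun z y => β ^ 2 * (h ^ 2 * e) ≤ ‖vF H σ I z y‖ ^ 2) (vF H σ I)) q) ≤
      σ * S * (n0 * (15 * (p ^ 2 / σ) * √(e * L * (n0 / κ)) * β⁻¹ * δ ^ (1 / 360 : ℝ))) := by
  classical
  have hSpos : 0 < S := by rw [hS]; positivity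
  have hAne : A.Nonempty := by
    obtain ⟨N, c, f, W, hN, hA, _⟩ := hG
    rw [← card_pos, hA]; exact hN
  obtain ⟨i0, hi0⟩ := hAne
  set ι : ℕ → ℤ → A := fun n z => if hn : n < (I z).card then nth (I z) n hn else ⟨i0, hi0⟩ with hι
  set X : ℕ → Finset ℤ := fun n => C.filter fun z => n < (I z).card with hX
  set F : ℕ → ℤ → ℤ → ℤ → ℝ := fun n z x y => sl a G z x y *
      ((if β ^ 2 * (h ^ 2 * e) ≤ ‖uF H σ I z x‖ ^ 2 then s z (ι n z) / S * φ z (ι n z) x else 0) *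
        (if β ^ 2 * (h ^ 2 * e) ≤ ‖vF H σ I z y‖ ^ 2 then ψ z (ι n z) y else 0)) with hF
  have hpt : ∀ z ∈ C, ∀ x y, sl a G z x y *
      inner ℝ (cutV (fun z x => β ^ 2 * (h ^ 2 * e) ≤ ‖uF H σ I z x‖ ^ 2) (uF H σ I) z x)
        (cutV (fun z y => β ^ 2 * (h ^ 2 * e) ≤ ‖vF H σ I z y‖ ^ 2) (vF H σ I) z y) =
      σ * S * ∑ n ∈ range n0, if z ∈ X n then F n z x y else 0 := by
    intro z hz x y
    by_cases g1 : β ^ 2 * (h ^ 2 * e) ≤ ‖uF H σ I z x‖ ^ 2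
    · by_cases g2 : β ^ 2 * (h ^ 2 * e) ≤ ‖vF H σ I z y‖ ^ 2
      · have e1 : cutV (fun z x => β ^ 2 * (h ^ 2 * e) ≤ ‖uF H σ I z x‖ ^ 2) (uF H σ I) z x =
            uF H σ I z x := by unfold cutV; rw [if_pos g1]
        have e2 : cutV (fun z y => β ^ 2 * (h ^ 2 * e) ≤ ‖vF H σ I z y‖ ^ 2) (vF H σ I) z y =
            vF H σ I z y := by unfold cutV; rw [if_pos g2]
        rw [e1, e2, inner_uvF H hσ.le, lev, sum_nth (I z) (hc z), mul_sum, mul_sum, mul_sum]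
        refine sum_congr rfl fun n _ => ?_
        have h1 : z ∈ X n ↔ n < (I z).card := by simp [hX, hz]
        by_cases hn : n < (I z).card
        · rw [dif_pos hn, if_pos (h1.2 hn), hF]
          dsimp only
          rw [if_pos g1, if_pos g2]
          have h2 : ι n z = nth (I z) n hn := by rw [hι]; exact dif_pos hn
          rw [h2]
          field_simp
        · rw [dif_neg hn, if_neg fun h => hn (h1.1 h)]
          ring
      · have e2 : cutV (fun z y => β ^ 2 * (h ^ 2 * e) ≤ ‖vF H σ I z y‖ ^ 2) (vF H σ I) z y = 0 := by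
          unfold cutV; rw [if_neg g2]
        rw [e2, inner_zero_right, mul_zero]
        have h1 : ∀ n ∈ range n0, (if z ∈ X n then F n z x y else 0) = 0 := by
          intro n _
          have : F n z x y = 0 := by rw [hF]; dsimp only; rw [if_neg g2]; ring
          rw [this]; simp
        rw [sum_congr rfl h1]; simp
    · have e1 : cutV (fun z x => β ^ 2 * (h ^ 2 * e) ≤ ‖uF H σ I z x‖ ^ 2) (uF H σ I) z x = 0 := by
        unfold cutV; rw [if_neg g1]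
      rw [e1, inner_zero_left, mul_zero]
      have h1 : ∀ n ∈ range n0, (if z ∈ X n then F n z x y else 0) = 0 := by
        intro n _
        have : F n z x y = 0 := by rw [hF]; dsimp only; rw [if_neg g1]; ring
        rw [this]; simp
      rw [sum_congr rfl h1]; simp
  have hsum : (avg (A ×ˢ B ×ˢ C) fun q => G q * cen a
      (cutV (fun z x => β ^ 2 * (h ^ 2 * e) ≤ ‖uF H σ I z x‖ ^ 2) (uF H σ I))
      (cutV (fun z y => β ^ 2 * (h ^ 2 * e) ≤ ‖vF H σ I z y‖ ^ 2) (vF H σ I)) q) =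
      σ * S * ∑ n ∈ range n0, avg C fun z => if z ∈ X n then avg A fun x => avg B fun y =>
        F n z x y else 0 := by
    rw [avg_box, ← avg_sum, ← avg_mul_left]
    refine avg_congr fun z hz => ?_
    have h1 : ∀ x y, G (x, y, z) * cen a
        (cutV (fun z x => β ^ 2 * (h ^ 2 * e) ≤ ‖uF H σ I z x‖ ^ 2) (uF H σ I))
        (cutV (fun z y => β ^ 2 * (h ^ 2 * e) ≤ ‖vF H σ I z y‖ ^ 2) (vF H σ I)) (x, y, z) =
        σ * S * ∑ n ∈ range n0, if z ∈ X n then F n z x y else 0 := by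
      intro x y
      rw [← hpt z hz x y]
      show G (x, y, z) * (a x y * _) = a x y * G (x, y, z) * _
      ring
    simp only [h1]
    have h2 : ∀ x, (avg B fun y => σ * S * ∑ n ∈ range n0, if z ∈ X n then F n z x y else 0) =
        σ * S * ∑ n ∈ range n0, if z ∈ X n then avg B fun y => F n z x y else 0 := by
      intro x
      rw [avg_mul_left, avg_sum]
      congr 1
      refine sum_congr rfl fun n _ => ?_
      split_ifs
      · rfl
      · unfold avg; simp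
    simp only [h2]
    rw [avg_mul_left, avg_sum]
    congr 1
    refine sum_congr rfl fun n _ => ?_
    split_ifs
    · rfl
    · unfold avg; simp
  rw [hsum]
  refine mul_le_mul_of_nonneg_left ?_ (by positivity)
  have hone : ∀ n ∈ range n0, (avg C fun z => if z ∈ X n then avg A fun x => avg B fun y =>
      F n z x y else 0) ≤ 15 * (p ^ 2 / σ) * √(e * L * (n0 / κ)) * β⁻¹ * δ ^ (1 / 360 : ℝ) := by
    intro n _
    refine few_sel H hL1 hG hU hδ he hh hp ha hp2 hσ hκ hκ1 hS hβ hβ1 hn0 hI hc hE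
      (X := X n) (filter_subset _ _) (ι n) ?_
    intro z hz
    have h1 : n < (I z).card := (mem_filter.1 hz).2
    have h2 : ι n z = nth (I z) n h1 := by rw [hι]; exact dif_pos h1
    rw [h2]
    exact nth_mem _ _ _
  refine (sum_le_sum hone).trans (le_of_eq ?_)
  rw [sum_const, card_range, nsmul_eq_mul]

/-- **The few part of the level.** -/
theorem few_energy (H : IsSvdF A B (sl a G) s φ ψ) (hL : LineB e A B C G) {L : ℝ} (hL1 : 1 ≤ L)
    (hG : LiftB L A B C G) (hU : UnifP δ A B C G) (hδ : 0 < δ) (he : 0 < e) (hh : 0 < h)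
    (hp : 0 < p) (ha : ∀ x ∈ A, ∀ y ∈ B, |a x y| ≤ h) (hp2 : n2 (A ×ˢ B) (gf a) ≤ p)
    (hr : ∀ x ∈ A, (avg B fun y => a x y ^ 2) ≤ h * p)
    {σ S κ β ρ : ℝ} (hσ : 0 < σ) (hκ : 0 < κ) (hκ1 : κ ≤ 1) (hS : S = σ / κ) (hβ : 0 < β)
    (hβ1 : β ≤ 1) {n0 : ℕ} (hn0 : 1 ≤ n0) (hσS : σ * S = δ ^ 2 * (h * p))
    (hGL : GenL ρ β δ e A B C G) :
    (σ * avg C fun z => ∑ i ∈ fewI C s σ S n0 z, s z i ^ 2) ≤
      2 * (ρ * (δ * e * (√h * (p ^ 2 * √p)))) +
      σ * S * (n0 * (15 * (p ^ 2 / σ) * √(e * L * (n0 / κ)) * β⁻¹ * δ ^ (1 / 360 : ℝ))) := by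
  have hSpos : 0 < S := by rw [hS]; positivity
  set I : ℤ → Finset A := fewI C s σ S n0 with hIdef
  have hI : ∀ z, ∀ i ∈ I z, σ ≤ s z i ∧ s z i < S := fun z i hi => fewI_mem hi
  have hc : ∀ z, (I z).card ≤ n0 := fun z => fewI_card z
  have hE : (avg C fun z => ∑ i ∈ I z, s z i ^ 2) ≤ e * p ^ 2 := by
    refine (energy_lev_le H _).trans ((energy_gauge hL a).trans ?_)
    exact mul_le_mul_of_nonneg_left (pow_le_pow_left₀ (n2_nonneg _ _) hp2 2) he.le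
  have hcen : Cen A B C h p e (δ ^ 2 * (h * p)) a (uF H σ I) (vF H σ I) := by
    rw [← hσS]
    exact cen_of_set H hL he.le ha hp2 hr hσ.le hSpos.le (fun z _ i hi => (hI z i hi).1)
      (fun z _ i hi => (hI z i hi).2.le)
  set P : ℤ → ℤ → Prop := fun z x => β ^ 2 * (h ^ 2 * e) ≤ ‖uF H σ I z x‖ ^ 2 with hP
  set Q : ℤ → ℤ → Prop := fun z y => β ^ 2 * (h ^ 2 * e) ≤ ‖vF H σ I z y‖ ^ 2 with hQ
  have hpair := pair_cen (C := C) H hσ I
  have hsplit : (avg (A ×ˢ B ×ˢ C) fun q => G q * cen a (uF H σ I) (vF H σ I) q) =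
      (avg (A ×ˢ B ×ˢ C) fun q => G q * cen a (cutV P (uF H σ I)) (cutV Q (vF H σ I)) q) +
      (avg (A ×ˢ B ×ˢ C) fun q => G q *
        cen a (cutV (fun z x => ¬ P z x) (uF H σ I)) (vF H σ I) q) +
      (avg (A ×ˢ B ×ˢ C) fun q => G q *
        cen a (cutV P (uF H σ I)) (cutV (fun z y => ¬ Q z y) (vF H σ I)) q) := by
    rw [← avg_add, ← avg_add]
    refine avg_congr fun q _ => ?_
    unfold cen
    rw [cut_split P Q (uF H σ I) (vF H σ I)]
    ring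
  have hlow : ∀ z x, ‖cutV (fun z x => ¬ P z x) (uF H σ I) z x‖ ^ 2 ≤ β ^ 2 * (h ^ 2 * e) := by
    intro z x
    unfold cutV
    by_cases g : P z x
    · rw [if_neg (not_not.2 g), norm_zero, zero_pow two_ne_zero]; positivity
    · rw [if_pos g]; exact (not_le.1 g).le
  have hlow' : ∀ z y, ‖cutV (fun z y => ¬ Q z y) (vF H σ I) z y‖ ^ 2 ≤ β ^ 2 * (h ^ 2 * e) := by
    intro z x
    unfold cutV
    by_cases g : Q z x
    · rw [if_neg (not_not.2 g), norm_zero, zero_pow two_ne_zero]; positivity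
    · rw [if_pos g]; exact (not_le.1 g).le
  have k2 : (avg (A ×ˢ B ×ˢ C) fun q => G q *
        cen a (cutV (fun z x => ¬ P z x) (uF H σ I)) (vF H σ I) q) ≤
        ρ * (δ * e * (√h * (p ^ 2 * √p))) := by
    have h1 := cen_cut hcen (fun z x => ¬ P z x) (fun _ _ => True)
    rw [cutV_true] at h1
    exact hGL a h p hh.le hp.le A _ _ h1 (Or.inl fun z _ x _ => hlow z x)
  have k3 : (avg (A ×ˢ B ×ˢ C) fun q => G q *
        cen a (cutV P (uF H σ I)) (cutV (fun z y => ¬ Q z y) (vF H σ I)) q) ≤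
        ρ * (δ * e * (√h * (p ^ 2 * √p))) :=
    hGL a h p hh.le hp.le A _ _ (cen_cut hcen P (fun z y => ¬ Q z y))
      (Or.inr fun z _ y _ => hlow' z y)
  have k1 := few_high H hL1 hG hU hδ he hh hp ha hp2 hσ hκ hκ1 hS hβ hβ1 hn0 hI hc hE
  rw [← hpair, hsplit]
  linarith

end

end Vale.Agent.P141.H927
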