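import Vale.Agent.P141.H927.FewDefs

/-!
# P141, composite events, few singular values: the two Cauchy-Schwarz steps

`bilin_four`: the fourth power of a bilinear sum with unit vectors is at most the sum of the
4-cycles; `sum_four`: the power mean inequality for the exponent `4`; `split_one`: the pairs with
non-popular differences are dropped from the sum of the 4-cycles of one fibre.
-/

namespace Vale.Agent.P141.H927

open Finset

noncomputable section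

theorem bilin_four (A B : Finset ℤ) (M : ℤ → ℤ → ℝ) (φ ψ : ℤ → ℝ)
    (hφ : ∑ y ∈ A, φ y ^ 2 ≤ 1) (hψ : ∑ z ∈ B, ψ z ^ 2 ≤ 1) :
    (∑ y ∈ A, ∑ z ∈ B, M y z * φ y * ψ z) ^ 4 ≤
      ∑ y ∈ A, ∑ y' ∈ A, (∑ z ∈ B, M y z * M y' z) ^ 2 := by
  have h1 : (∑ y ∈ A, ∑ z ∈ B, M y z * φ y * ψ z) ^ 2 ≤
      ∑ z ∈ B, (∑ y ∈ A, M y z * φ y) ^ 2 := by
    have e : ∑ y ∈ A, ∑ z ∈ B, M y z * φ y * ψ z = ∑ z ∈ B, ψ z * ∑ y ∈ A, M y z * φ y := by
      rw [sum_comm]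
      refine sum_congr rfl fun z _ => ?_
      rw [mul_sum]
      exact sum_congr rfl fun y _ => by ring
    rw [e]
    refine (sum_mul_sq_le_sq_mul_sq B ψ _).trans ?_
    calc (∑ z ∈ B, ψ z ^ 2) * ∑ z ∈ B, (∑ y ∈ A, M y z * φ y) ^ 2
        ≤ 1 * ∑ z ∈ B, (∑ y ∈ A, M y z * φ y) ^ 2 :=
          mul_le_mul_of_nonneg_right hψ (sum_nonneg fun _ _ => sq_nonneg _)
      _ = _ := one_mul _
  have h2 : ∑ z ∈ B, (∑ y ∈ A, M y z * φ y) ^ 2 =
      ∑ p ∈ A ×ˢ A, (φ p.1 * φ p.2) * ∑ z ∈ B, M p.1 z * M p.2 z := by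
    rw [sum_product]
    have : ∀ z ∈ B, (∑ y ∈ A, M y z * φ y) ^ 2 =
        ∑ y ∈ A, ∑ y' ∈ A, (φ y * φ y') * (M y z * M y' z) := by
      intro z _
      rw [sq, sum_mul_sum]
      exact sum_congr rfl fun y _ => sum_congr rfl fun y' _ => by ring
    rw [sum_congr rfl this, sum_comm]
    refine sum_congr rfl fun y _ => ?_
    rw [sum_comm]
    refine sum_congr rfl fun y' _ => ?_
    rw [mul_sum]
  have h3 : (∑ p ∈ A ×ˢ A, (φ p.1 * φ p.2) * ∑ z ∈ B, M p.1 z * M p.2 z) ^ 2 ≤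
      ∑ y ∈ A, ∑ y' ∈ A, (∑ z ∈ B, M y z * M y' z) ^ 2 := by
    refine (sum_mul_sq_le_sq_mul_sq (A ×ˢ A) _ _).trans ?_
    have e : ∑ p ∈ A ×ˢ A, (φ p.1 * φ p.2) ^ 2 = (∑ y ∈ A, φ y ^ 2) ^ 2 := by
      rw [sum_product, sq, sum_mul_sum]
      exact sum_congr rfl fun y _ => sum_congr rfl fun y' _ => by ring
    rw [e, ← sum_product']
    have h0 : 0 ≤ ∑ y ∈ A, φ y ^ 2 := sum_nonneg fun _ _ => sq_nonneg _
    have h1 : (∑ y ∈ A, φ y ^ 2) ^ 2 ≤ 1 := by nlinarith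
    calc (∑ y ∈ A, φ y ^ 2) ^ 2 * ∑ p ∈ A ×ˢ A, (∑ z ∈ B, M p.1 z * M p.2 z) ^ 2
        ≤ 1 * ∑ p ∈ A ×ˢ A, (∑ z ∈ B, M p.1 z * M p.2 z) ^ 2 :=
          mul_le_mul_of_nonneg_right h1 (sum_nonneg fun _ _ => sq_nonneg _)
      _ = _ := one_mul _
  calc (∑ y ∈ A, ∑ z ∈ B, M y z * φ y * ψ z) ^ 4
      = ((∑ y ∈ A, ∑ z ∈ B, M y z * φ y * ψ z) ^ 2) ^ 2 := by ring
    _ ≤ (∑ z ∈ B, (∑ y ∈ A, M y z * φ y) ^ 2) ^ 2 := pow_le_pow_left₀ (sq_nonneg _) h1 2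
    _ ≤ _ := by rw [h2]; exact h3

theorem sum_four {ι : Type*} (X : Finset ι) (g : ι → ℝ) :
    (∑ x ∈ X, g x) ^ 4 ≤ (X.card : ℝ) ^ 3 * ∑ x ∈ X, g x ^ 4 := by
  have h1 : (∑ x ∈ X, g x) ^ 2 ≤ X.card * ∑ x ∈ X, g x ^ 2 := sq_sum_le_card_mul_sum_sq
  have h2 : (∑ x ∈ X, g x ^ 2) ^ 2 ≤ X.card * ∑ x ∈ X, (g x ^ 2) ^ 2 := sq_sum_le_card_mul_sum_sq
  have hc : (0 : ℝ) ≤ X.card := Nat.cast_nonneg _
  calc (∑ x ∈ X, g x) ^ 4 = ((∑ x ∈ X, g x) ^ 2) ^ 2 := by ring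
    _ ≤ (X.card * ∑ x ∈ X, g x ^ 2) ^ 2 := pow_le_pow_left₀ (sq_nonneg _) h1 2
    _ = (X.card : ℝ) ^ 2 * (∑ x ∈ X, g x ^ 2) ^ 2 := by ring
    _ ≤ (X.card : ℝ) ^ 2 * (X.card * ∑ x ∈ X, (g x ^ 2) ^ 2) := by gcongr
    _ = (X.card : ℝ) ^ 3 * ∑ x ∈ X, g x ^ 4 := by
      rw [show (fun x => g x ^ 4) = fun x => (g x ^ 2) ^ 2 from funext fun x => by ring]
      ring

/-- the indicator of a proposition -/
def ind (p : Prop) [Decidable p] : ℝ := if p then 1 else 0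

theorem ind_nonneg (p : Prop) [Decidable p] : 0 ≤ ind p := by unfold ind; split_ifs <;> norm_num

theorem ind_le_one (p : Prop) [Decidable p] : ind p ≤ 1 := by unfold ind; split_ifs <;> norm_num

theorem ind_abs (p : Prop) [Decidable p] : |ind p| = ind p := abs_of_nonneg (ind_nonneg p)

theorem ind_mul_self (p : Prop) [Decidable p] : ind p * ind p = ind p := by
  unfold ind; split_ifs <;> norm_num

theorem ind_sq (p : Prop) [Decidable p] : ind p ^ 2 = ind p := by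
  unfold ind; split_ifs <;> norm_num

/-- one fibre: the pairs with non-popular differences are dropped -/
theorem split_one (D1 D2 P1 P2 : Finset ℤ) (M : ℤ → ℤ → ℝ) (D B : ℝ)
    (h1 : (D1.card : ℝ) ≤ D) (h2 : (D2.card : ℝ) ≤ D)
    (hy : ∀ y ∈ D1, ∀ y' ∈ D1, y' - y ∉ P1 → ∑ z ∈ D2, |M y z * M y' z| ≤ B)
    (hz : ∀ z ∈ D2, ∀ z' ∈ D2, z' - z ∉ P2 → ∑ y ∈ D1, |M y z * M y z'| ≤ B) :
    ∑ y ∈ D1, ∑ y' ∈ D1, (∑ z ∈ D2, M y z * M y' z) ^ 2 ≤
      2 * (D ^ 2 * B ^ 2) + ∑ y ∈ D1, ∑ y' ∈ D1, ∑ z ∈ D2, ∑ z' ∈ D2,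
        (ind (y' - y ∈ P1) * ind (z' - z ∈ P2)) * (M y z * M y' z * (M y z' * M y' z')) := by
  have hD : 0 ≤ D := le_trans (Nat.cast_nonneg _) h1
  have key : ∀ y y', (∑ z ∈ D2, M y z * M y' z) ^ 2 =
      ∑ z ∈ D2, ∑ z' ∈ D2, M y z * M y' z * (M y z' * M y' z') := by
    intro y y'
    rw [sq, sum_mul_sum]
  have e1 : ∑ y ∈ D1, ∑ y' ∈ D1, (∑ z ∈ D2, M y z * M y' z) ^ 2 ≤
      D ^ 2 * B ^ 2 + ∑ y ∈ D1, ∑ y' ∈ D1, ind (y' - y ∈ P1) *
        (∑ z ∈ D2, M y z * M y' z) ^ 2 := by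
    have : ∀ y ∈ D1, ∀ y' ∈ D1, (∑ z ∈ D2, M y z * M y' z) ^ 2 ≤
        B ^ 2 + ind (y' - y ∈ P1) * (∑ z ∈ D2, M y z * M y' z) ^ 2 := by
      intro y hy1 y' hy2
      by_cases hp : y' - y ∈ P1
      · simp only [ind, hp, if_true, one_mul]
        have := sq_nonneg B
        linarith
      · simp only [ind, hp, if_false, zero_mul, add_zero]
        have h3 : |∑ z ∈ D2, M y z * M y' z| ≤ B := (abs_sum_le_sum_abs _ _).trans (hy y hy1 y' hy2 hp)
        have h4 := abs_le.mp h3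
        nlinarith
    calc ∑ y ∈ D1, ∑ y' ∈ D1, (∑ z ∈ D2, M y z * M y' z) ^ 2
        ≤ ∑ y ∈ D1, ∑ y' ∈ D1, (B ^ 2 + ind (y' - y ∈ P1) * (∑ z ∈ D2, M y z * M y' z) ^ 2) :=
          sum_le_sum fun y hy1 => sum_le_sum fun y' hy2 => this y hy1 y' hy2
      _ = (D1.card : ℝ) * (D1.card * B ^ 2) + ∑ y ∈ D1, ∑ y' ∈ D1, ind (y' - y ∈ P1) *
            (∑ z ∈ D2, M y z * M y' z) ^ 2 := by
          simp only [sum_add_distrib, sum_const, nsmul_eq_mul]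
      _ ≤ _ := by
          have : (D1.card : ℝ) * (D1.card * B ^ 2) ≤ D ^ 2 * B ^ 2 := by
            have hc : (0 : ℝ) ≤ D1.card := Nat.cast_nonneg _
            have := mul_le_mul h1 h1 hc hD
            nlinarith [sq_nonneg B]
          linarith
  have e2 : ∑ y ∈ D1, ∑ y' ∈ D1, ind (y' - y ∈ P1) * (∑ z ∈ D2, M y z * M y' z) ^ 2 =
      (∑ y ∈ D1, ∑ y' ∈ D1, ∑ z ∈ D2, ∑ z' ∈ D2,
        (ind (y' - y ∈ P1) * ind (z' - z ∈ P2)) * (M y z * M y' z * (M y z' * M y' z'))) +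
      ∑ y ∈ D1, ∑ y' ∈ D1, ∑ z ∈ D2, ∑ z' ∈ D2,
        (ind (y' - y ∈ P1) * ind (z' - z ∉ P2)) * (M y z * M y' z * (M y z' * M y' z')) := by
    rw [← sum_add_distrib]
    refine sum_congr rfl fun y _ => ?_
    rw [← sum_add_distrib]
    refine sum_congr rfl fun y' _ => ?_
    rw [key, mul_sum, ← sum_add_distrib]
    refine sum_congr rfl fun z _ => ?_
    rw [mul_sum, ← sum_add_distrib]
    refine sum_congr rfl fun z' _ => ?_
    have : ind (z' - z ∈ P2) + ind (z' - z ∉ P2) = 1 := by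
      unfold ind
      by_cases h : z' - z ∈ P2 <;> simp [h]
    calc ind (y' - y ∈ P1) * (M y z * M y' z * (M y z' * M y' z'))
        = ind (y' - y ∈ P1) * (ind (z' - z ∈ P2) + ind (z' - z ∉ P2)) *
            (M y z * M y' z * (M y z' * M y' z')) := by rw [this]; ring
      _ = _ := by ring
  have e3 : ∑ y ∈ D1, ∑ y' ∈ D1, ∑ z ∈ D2, ∑ z' ∈ D2,
        (ind (y' - y ∈ P1) * ind (z' - z ∉ P2)) * (M y z * M y' z * (M y z' * M y' z')) ≤
      D ^ 2 * B ^ 2 := by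
    calc ∑ y ∈ D1, ∑ y' ∈ D1, ∑ z ∈ D2, ∑ z' ∈ D2,
          (ind (y' - y ∈ P1) * ind (z' - z ∉ P2)) * (M y z * M y' z * (M y z' * M y' z'))
        ≤ ∑ y ∈ D1, ∑ y' ∈ D1, ∑ z ∈ D2, ∑ z' ∈ D2,
          ind (z' - z ∉ P2) * (|M y z * M y z'| * |M y' z * M y' z'|) := by
          refine sum_le_sum fun y _ => sum_le_sum fun y' _ => sum_le_sum fun z _ =>
            sum_le_sum fun z' _ => ?_
          have h3 : M y z * M y' z * (M y z' * M y' z') ≤ |M y z * M y z'| * |M y' z * M y' z'| := by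
            rw [← abs_mul]
            refine le_trans (le_of_eq ?_) (le_abs_self _)
            ring
          have h4 : 0 ≤ |M y z * M y z'| * |M y' z * M y' z'| := by positivity
          by_cases hp : z' - z ∈ P2
          · have e : ind (z' - z ∉ P2) = 0 := by unfold ind; simp [hp]
            rw [e, mul_zero, zero_mul, zero_mul]
          · have e : ind (z' - z ∉ P2) = 1 := by unfold ind; simp [hp]
            rw [e, mul_one, one_mul]
            calc ind (y' - y ∈ P1) * (M y z * M y' z * (M y z' * M y' z'))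
                ≤ ind (y' - y ∈ P1) * (|M y z * M y z'| * |M y' z * M y' z'|) :=
                  mul_le_mul_of_nonneg_left h3 (ind_nonneg _)
              _ ≤ 1 * (|M y z * M y z'| * |M y' z * M y' z'|) :=
                  mul_le_mul_of_nonneg_right (ind_le_one _) h4
              _ = _ := one_mul _
      _ = ∑ z ∈ D2, ∑ z' ∈ D2, ind (z' - z ∉ P2) * (∑ y ∈ D1, |M y z * M y z'|) ^ 2 := by
          have : ∀ z ∈ D2, ∀ z' ∈ D2, ind (z' - z ∉ P2) * (∑ y ∈ D1, |M y z * M y z'|) ^ 2 =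
              ∑ y ∈ D1, ∑ y' ∈ D1, ind (z' - z ∉ P2) * (|M y z * M y z'| * |M y' z * M y' z'|) := by
            intro z _ z' _
            rw [sq, sum_mul_sum, mul_sum]
            exact sum_congr rfl fun y _ => by rw [mul_sum]
          rw [sum_congr rfl fun z hz1 => sum_congr rfl fun z' hz2 => this z hz1 z' hz2]
          -- move the sums over y, y' inside
          calc ∑ y ∈ D1, ∑ y' ∈ D1, ∑ z ∈ D2, ∑ z' ∈ D2,
                ind (z' - z ∉ P2) * (|M y z * M y z'| * |M y' z * M y' z'|)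
              = ∑ y ∈ D1, ∑ z ∈ D2, ∑ y' ∈ D1, ∑ z' ∈ D2,
                ind (z' - z ∉ P2) * (|M y z * M y z'| * |M y' z * M y' z'|) :=
                sum_congr rfl fun y _ => sum_comm
            _ = ∑ y ∈ D1, ∑ z ∈ D2, ∑ z' ∈ D2, ∑ y' ∈ D1,
                ind (z' - z ∉ P2) * (|M y z * M y z'| * |M y' z * M y' z'|) :=
                sum_congr rfl fun y _ => sum_congr rfl fun z _ => sum_comm
            _ = ∑ z ∈ D2, ∑ y ∈ D1, ∑ z' ∈ D2, ∑ y' ∈ D1,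
                ind (z' - z ∉ P2) * (|M y z * M y z'| * |M y' z * M y' z'|) := sum_comm
            _ = _ := sum_congr rfl fun z _ => sum_comm
      _ ≤ ∑ z ∈ D2, ∑ z' ∈ D2, B ^ 2 := by
          refine sum_le_sum fun z hz1 => sum_le_sum fun z' hz2 => ?_
          by_cases hp : z' - z ∈ P2
          · have : ind (z' - z ∉ P2) = 0 := by unfold ind; simp [hp]
            rw [this, zero_mul]
            exact sq_nonneg B
          · have : ind (z' - z ∉ P2) = 1 := by unfold ind; simp [hp]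
            rw [this, one_mul]
            exact pow_le_pow_left₀ (sum_nonneg fun _ _ => abs_nonneg _) (hz z hz1 z' hz2 hp) 2
      _ = (D2.card : ℝ) * (D2.card * B ^ 2) := by simp only [sum_const, nsmul_eq_mul]
      _ ≤ _ := by
          have hc : (0 : ℝ) ≤ D2.card := Nat.cast_nonneg _
          have := mul_le_mul h2 h2 hc hD
          nlinarith [sq_nonneg B]
  linarith [e1, e2, e3]

end

end Vale.Agent.P141.H927
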