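import Vale.Agent.P141.H927.FewA

/-!
# P141, composite events, few singular values: the abstract bound

`few_abs`: the bound of the bilinear sums `∑_x ∑_{y,z} a(y,z) F(x,y,z) φ(x,y) ψ(x,z)` in terms of
the bound `K` of the octahedron sums and of two finite sets of popular differences.
-/

namespace Vale.Agent.P141.H927

open Finset

noncomputable section

/-- reordering of a sum over six variables -/
theorem reorder6 (A B C : Finset ℤ) (H : ℤ → ℤ → ℤ → ℤ → ℤ → ℤ → ℝ) :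
    ∑ y ∈ B, ∑ y' ∈ B, ∑ z ∈ C, ∑ z' ∈ C, ∑ x ∈ A, ∑ x' ∈ A, H x x' y y' z z' =
      ∑ x' ∈ A, ∑ y' ∈ B, ∑ z' ∈ C, ∑ x ∈ A, ∑ y ∈ B, ∑ z ∈ C, H x x' y y' z z' := by
  have h1 : ∑ y ∈ B, ∑ y' ∈ B, ∑ z ∈ C, ∑ z' ∈ C, ∑ x ∈ A, ∑ x' ∈ A, H x x' y y' z z' =
      ∑ p ∈ B ×ˢ B ×ˢ C ×ˢ C ×ˢ A ×ˢ A,
        H p.2.2.2.2.1 p.2.2.2.2.2 p.1 p.2.1 p.2.2.1 p.2.2.2.1 := by
    simp only [sum_product]
  have h2 : ∑ x' ∈ A, ∑ y' ∈ B, ∑ z' ∈ C, ∑ x ∈ A, ∑ y ∈ B, ∑ z ∈ C, H x x' y y' z z' =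
      ∑ p ∈ A ×ˢ B ×ˢ C ×ˢ A ×ˢ B ×ˢ C,
        H p.2.2.2.1 p.1 p.2.2.2.2.1 p.2.1 p.2.2.2.2.2 p.2.2.1 := by
    simp only [sum_product]
  rw [h1, h2]
  refine sum_nbij'
    (fun p => (p.2.2.2.2.2, p.2.1, p.2.2.2.1, p.2.2.2.2.1, p.1, p.2.2.1))
    (fun p => (p.2.2.2.2.1, p.2.1, p.2.2.2.2.2, p.2.2.1, p.2.2.2.1, p.1)) ?_ ?_ ?_ ?_ ?_
  · intro p hp
    simp only [mem_product] at hp ⊢
    tauto
  · intro p hp
    simp only [mem_product] at hp ⊢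
    tauto
  · intro p _; rfl
  · intro p _; rfl
  · intro p _; rfl

/-- a sum over a subset as a sum with an indicator -/
theorem sum_ind {ι : Type*} [DecidableEq ι] {X I : Finset ι} (h : X ⊆ I) (g : ι → ℝ) :
    ∑ x ∈ X, g x = ∑ x ∈ I, ind (x ∈ X) * g x := by
  unfold ind
  simp only [ite_mul, one_mul, zero_mul]
  rw [← sum_filter, filter_mem_eq_inter, inter_eq_right.mpr h]

theorem abs_le_one_mul {a b : ℝ} (h1 : |a| ≤ 1) (h2 : |b| ≤ 1) : |a * b| ≤ 1 := by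
  rw [abs_mul]
  exact mul_le_one₀ h1 (abs_nonneg _) h2

theorem ind_abs_le (p : Prop) [Decidable p] : |ind p| ≤ 1 := by
  rw [ind_abs]; exact ind_le_one p

/-- the fibre weights -/
def wf (X : Finset ℤ) (D1 D2 : ℤ → Finset ℤ) (x y y' z z' : ℤ) : ℝ :=
  ind (x ∈ X) * (ind (y ∈ D1 x) * ind (y' ∈ D1 x)) * (ind (z ∈ D2 x) * ind (z' ∈ D2 x))

/-- the indicator of the four corners -/
def ws (S : Finset (ℤ × ℤ)) (y y' z z' : ℤ) : ℝ :=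
  ind ((y, z) ∈ S) * ind ((y', z) ∈ S) * ind ((y, z') ∈ S) * ind ((y', z') ∈ S)

/-- the 4-cycle -/
def cy (F : ℤ → ℤ → ℤ → ℝ) (x y y' z z' : ℤ) : ℝ :=
  F x y z * F x y' z * (F x y z' * F x y' z')

theorem wf_sq (X : Finset ℤ) (D1 D2 : ℤ → Finset ℤ) (x y y' z z' : ℤ) :
    wf X D1 D2 x y y' z z' * wf X D1 D2 x y y' z z' = wf X D1 D2 x y y' z z' := by
  unfold wf ind
  split_ifs <;> simp

theorem ws_sq (S : Finset (ℤ × ℤ)) (y y' z z' : ℤ) : ws S y y' z z' ^ 2 = ws S y y' z z' := by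
  unfold ws ind
  split_ifs <;> simp

/-- **the sum of the squares of the fibre sums is an octahedron sum** -/
theorem oct_sum {K : ℝ} {I0 I1 I2 : Finset ℤ} {F : ℤ → ℤ → ℤ → ℝ} (hO : OctB K I0 I1 I2 F)
    (X : Finset ℤ) (D1 D2 : ℤ → Finset ℤ) (S : Finset (ℤ × ℤ)) (hS : S ⊆ I1 ×ˢ I2) :
    ∑ y ∈ I1, ∑ y' ∈ I1, ∑ z ∈ I2, ∑ z' ∈ I2,
      (ws S y y' z z' * ∑ x ∈ I0, wf X D1 D2 x y y' z z' * cy F x y y' z z') ^ 2 ≤
      K * S.card := by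
  have e1 : ∀ y y' z z' : ℤ,
      (ws S y y' z z' * ∑ x ∈ I0, wf X D1 D2 x y y' z z' * cy F x y y' z z') ^ 2 =
      ∑ x ∈ I0, ∑ x' ∈ I0, ws S y y' z z' * ((wf X D1 D2 x y y' z z' * cy F x y y' z z') *
        (wf X D1 D2 x' y y' z z' * cy F x' y y' z z')) := by
    intro y y' z z'
    rw [mul_pow, ws_sq, sq (∑ x ∈ I0, wf X D1 D2 x y y' z z' * cy F x y y' z z'), sum_mul_sum,
      mul_sum]
    exact sum_congr rfl fun x _ => by rw [mul_sum]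
  have e2 : ∑ y ∈ I1, ∑ y' ∈ I1, ∑ z ∈ I2, ∑ z' ∈ I2,
      (ws S y y' z z' * ∑ x ∈ I0, wf X D1 D2 x y y' z z' * cy F x y y' z z') ^ 2 =
      ∑ x' ∈ I0, ∑ q ∈ S, ∑ x ∈ I0, ∑ y ∈ I1, ∑ z ∈ I2,
        ((ind (x ∈ X) * ind (x' ∈ X) * (ind (y ∈ D1 x) * ind (q.1 ∈ D1 x)) *
            (ind (y ∈ D1 x') * ind (q.1 ∈ D1 x'))) *
          ((ind (z ∈ D2 x) * ind (q.2 ∈ D2 x)) * (ind (z ∈ D2 x') * ind (q.2 ∈ D2 x'))) *
          (ind ((y, z) ∈ S) * ind ((q.1, z) ∈ S) * ind ((y, q.2) ∈ S))) *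
          o8 F x x' y q.1 z q.2 := by
    rw [sum_congr rfl fun y _ => sum_congr rfl fun y' _ => sum_congr rfl fun z _ =>
      sum_congr rfl fun z' _ => e1 y y' z z', reorder6]
    refine sum_congr rfl fun x' _ => ?_
    rw [sum_ind hS, sum_product]
    refine sum_congr rfl fun y' _ => sum_congr rfl fun z' _ => ?_
    rw [mul_sum]
    refine sum_congr rfl fun x _ => ?_
    rw [mul_sum]
    refine sum_congr rfl fun y _ => ?_
    rw [mul_sum]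
    refine sum_congr rfl fun z _ => ?_
    unfold ws wf cy o8
    ring
  rw [e2]
  refine (le_abs_self _).trans (hO S
    (fun p x y => ind (x ∈ X) * ind (p.1 ∈ X) * (ind (y ∈ D1 x) * ind (p.2.1 ∈ D1 x)) *
      (ind (y ∈ D1 p.1) * ind (p.2.1 ∈ D1 p.1)))
    (fun p x z => (ind (z ∈ D2 x) * ind (p.2.2 ∈ D2 x)) *
      (ind (z ∈ D2 p.1) * ind (p.2.2 ∈ D2 p.1)))
    (fun p y z => ind ((y, z) ∈ S) * ind ((p.2.1, z) ∈ S) * ind ((y, p.2.2) ∈ S))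
    hS ?_ ?_ ?_ ?_)
  · intro p x y
    exact abs_le_one_mul (abs_le_one_mul (abs_le_one_mul (ind_abs_le _) (ind_abs_le _))
      (abs_le_one_mul (ind_abs_le _) (ind_abs_le _)))
      (abs_le_one_mul (ind_abs_le _) (ind_abs_le _))
  · intro p x z
    exact abs_le_one_mul (abs_le_one_mul (ind_abs_le _) (ind_abs_le _))
      (abs_le_one_mul (ind_abs_le _) (ind_abs_le _))
  · intro p y z
    exact abs_le_one_mul (abs_le_one_mul (ind_abs_le _) (ind_abs_le _)) (ind_abs_le _)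
  · intro p y z h
    by_contra h1
    exact h (by simp [ind, h1])

/-- the number of quadruples with popular differences -/
theorem pop_count {I1 I2 : Finset ℤ} {S : Finset (ℤ × ℤ)} (hS : S ⊆ I1 ×ˢ I2) (P1 P2 : Finset ℤ) :
    ∑ y ∈ I1, ∑ y' ∈ I1, ∑ z ∈ I2, ∑ z' ∈ I2,
      ind ((y, z) ∈ S) * (ind (y' - y ∈ P1) * ind (z' - z ∈ P2)) ≤
      S.card * (P1.card * P2.card) := by
  have h1 : ∀ (I P : Finset ℤ) (y : ℤ), ∑ y' ∈ I, ind (y' - y ∈ P) ≤ P.card := by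
    intro I P y
    unfold ind
    rw [← sum_filter, sum_const, nsmul_eq_mul, mul_one]
    exact_mod_cast card_le_card_of_injOn (fun y' => y' - y)
      (fun y' hy => (mem_filter.mp hy).2) (fun a _ b _ h => by simpa using h)
  have h2 : ∑ y ∈ I1, ∑ y' ∈ I1, ∑ z ∈ I2, ∑ z' ∈ I2,
      ind ((y, z) ∈ S) * (ind (y' - y ∈ P1) * ind (z' - z ∈ P2)) =
      ∑ y ∈ I1, ∑ z ∈ I2, ind ((y, z) ∈ S) *
        ((∑ y' ∈ I1, ind (y' - y ∈ P1)) * ∑ z' ∈ I2, ind (z' - z ∈ P2)) := by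
    refine sum_congr rfl fun y _ => ?_
    rw [sum_comm]
    refine sum_congr rfl fun z _ => ?_
    rw [sum_mul_sum, mul_sum]
    exact sum_congr rfl fun y' _ => by rw [mul_sum]
  rw [h2, ← sum_product' I1 I2 fun y z => ind ((y, z) ∈ S) *
        ((∑ y' ∈ I1, ind (y' - y ∈ P1)) * ∑ z' ∈ I2, ind (z' - z ∈ P2))]
  have h3 := sum_ind hS fun q : ℤ × ℤ =>
    (∑ y' ∈ I1, ind (y' - q.1 ∈ P1)) * ∑ z' ∈ I2, ind (z' - q.2 ∈ P2)
  rw [← h3]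
  calc ∑ q ∈ S, (∑ y' ∈ I1, ind (y' - q.1 ∈ P1)) * ∑ z' ∈ I2, ind (z' - q.2 ∈ P2)
      ≤ ∑ _q ∈ S, (P1.card : ℝ) * P2.card :=
        sum_le_sum fun q _ => mul_le_mul (h1 _ _ _) (h1 _ _ _)
          (sum_nonneg fun _ _ => ind_nonneg _) (Nat.cast_nonneg _)
    _ = _ := by rw [sum_const, nsmul_eq_mul]

/-- Cauchy-Schwarz for sums over four variables -/
theorem cs4 (B C : Finset ℤ) (u v : ℤ → ℤ → ℤ → ℤ → ℝ) :
    (∑ y ∈ B, ∑ y' ∈ B, ∑ z ∈ C, ∑ z' ∈ C, u y y' z z' * v y y' z z') ^ 2 ≤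
      (∑ y ∈ B, ∑ y' ∈ B, ∑ z ∈ C, ∑ z' ∈ C, u y y' z z' ^ 2) *
        ∑ y ∈ B, ∑ y' ∈ B, ∑ z ∈ C, ∑ z' ∈ C, v y y' z z' ^ 2 := by
  have h := sum_mul_sq_le_sq_mul_sq (B ×ˢ B ×ˢ C ×ˢ C)
    (fun p => u p.1 p.2.1 p.2.2.1 p.2.2.2) (fun p => v p.1 p.2.1 p.2.2.1 p.2.2.2)
  simp only [sum_product] at h
  exact h

/-- the sum over the parameter of the popular parts -/
theorem main_sum {X I0 I1 I2 : Finset ℤ} (hX : X ⊆ I0) {D1 D2 : ℤ → Finset ℤ}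
    (hD1 : ∀ x ∈ X, D1 x ⊆ I1) (hD2 : ∀ x ∈ X, D2 x ⊆ I2) {S : Finset (ℤ × ℤ)}
    {a : ℤ → ℤ → ℝ} (haS : ∀ y z, a y z ≠ 0 → (y, z) ∈ S) (P1 P2 : Finset ℤ)
    (F : ℤ → ℤ → ℤ → ℝ) :
    ∑ x ∈ X, ∑ y ∈ D1 x, ∑ y' ∈ D1 x, ∑ z ∈ D2 x, ∑ z' ∈ D2 x,
        (ind (y' - y ∈ P1) * ind (z' - z ∈ P2)) *
          (a y z * F x y z * (a y' z * F x y' z) *
            (a y z' * F x y z' * (a y' z' * F x y' z'))) =
      ∑ y ∈ I1, ∑ y' ∈ I1, ∑ z ∈ I2, ∑ z' ∈ I2,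
        ((ind (y' - y ∈ P1) * ind (z' - z ∈ P2)) * (a y z * a y' z * (a y z' * a y' z'))) *
          (ws S y y' z z' * ∑ x ∈ I0, wf X D1 D2 x y y' z z' * cy F x y y' z z') := by
  have hA : ∀ y y' z z', (a y z * a y' z * (a y z' * a y' z')) * ws S y y' z z' =
      a y z * a y' z * (a y z' * a y' z') := by
    intro y y' z z'
    by_cases h1 : a y z = 0
    · simp [h1]
    by_cases h2 : a y' z = 0
    · simp [h2]
    by_cases h3 : a y z' = 0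
    · simp [h3]
    by_cases h4 : a y' z' = 0
    · simp [h4]
    simp [ws, ind, haS _ _ h1, haS _ _ h2, haS _ _ h3, haS _ _ h4]
  have e1 : ∀ x ∈ X, ∑ y ∈ D1 x, ∑ y' ∈ D1 x, ∑ z ∈ D2 x, ∑ z' ∈ D2 x,
        (ind (y' - y ∈ P1) * ind (z' - z ∈ P2)) *
          (a y z * F x y z * (a y' z * F x y' z) *
            (a y z' * F x y z' * (a y' z' * F x y' z'))) =
      ∑ y ∈ I1, ∑ y' ∈ I1, ∑ z ∈ I2, ∑ z' ∈ I2,
        ((ind (y' - y ∈ P1) * ind (z' - z ∈ P2)) * (a y z * a y' z * (a y z' * a y' z'))) *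
          (wf X D1 D2 x y y' z z' * cy F x y y' z z') := by
    intro x hx
    rw [sum_ind (hD1 x hx)]
    refine sum_congr rfl fun y _ => ?_
    rw [sum_ind (hD1 x hx), mul_sum]
    refine sum_congr rfl fun y' _ => ?_
    rw [sum_ind (hD2 x hx), mul_sum, mul_sum]
    refine sum_congr rfl fun z _ => ?_
    rw [sum_ind (hD2 x hx), mul_sum, mul_sum, mul_sum]
    refine sum_congr rfl fun z' _ => ?_
    have hx1 : ind (x ∈ X) = 1 := by simp [ind, hx]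
    unfold wf cy
    rw [hx1]
    ring
  rw [sum_congr rfl e1, sum_comm]
  have e2 : ∀ y ∈ I1, ∑ x ∈ X, ∑ y' ∈ I1, ∑ z ∈ I2, ∑ z' ∈ I2,
        ((ind (y' - y ∈ P1) * ind (z' - z ∈ P2)) * (a y z * a y' z * (a y z' * a y' z'))) *
          (wf X D1 D2 x y y' z z' * cy F x y y' z z') =
      ∑ y' ∈ I1, ∑ z ∈ I2, ∑ z' ∈ I2, ∑ x ∈ X,
        ((ind (y' - y ∈ P1) * ind (z' - z ∈ P2)) * (a y z * a y' z * (a y z' * a y' z'))) *
          (wf X D1 D2 x y y' z z' * cy F x y y' z z') := by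
    intro y _
    rw [sum_comm]
    refine sum_congr rfl fun y' _ => ?_
    rw [sum_comm]
    refine sum_congr rfl fun z _ => ?_
    rw [sum_comm]
  rw [sum_congr rfl e2]
  refine sum_congr rfl fun y _ => sum_congr rfl fun y' _ => sum_congr rfl fun z _ =>
    sum_congr rfl fun z' _ => ?_
  rw [← mul_sum]
  have e3 : ∑ x ∈ X, wf X D1 D2 x y y' z z' * cy F x y y' z z' =
      ∑ x ∈ I0, wf X D1 D2 x y y' z z' * cy F x y y' z z' := by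
    rw [sum_ind hX]
    refine sum_congr rfl fun x _ => ?_
    rw [← mul_assoc]
    congr 1
    unfold wf
    rw [show ind (x ∈ X) * (ind (x ∈ X) * (ind (y ∈ D1 x) * ind (y' ∈ D1 x)) *
      (ind (z ∈ D2 x) * ind (z' ∈ D2 x))) = (ind (x ∈ X) * ind (x ∈ X)) *
      (ind (y ∈ D1 x) * ind (y' ∈ D1 x)) * (ind (z ∈ D2 x) * ind (z' ∈ D2 x)) by ring,
      ind_mul_self]
  rw [e3]
  calc _ = (ind (y' - y ∈ P1) * ind (z' - z ∈ P2)) *
        ((a y z * a y' z * (a y z' * a y' z')) * ws S y y' z z') *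
          ∑ x ∈ I0, wf X D1 D2 x y y' z z' * cy F x y y' z z' := by rw [hA]
    _ = _ := by ring

/-- the popular part is bounded by the octahedron sums -/
theorem main_le {K : ℝ} {I0 I1 I2 : Finset ℤ} {F : ℤ → ℤ → ℤ → ℝ} (hO : OctB K I0 I1 I2 F)
    {X : Finset ℤ} (hX : X ⊆ I0) {D1 D2 : ℤ → Finset ℤ} (hD1 : ∀ x ∈ X, D1 x ⊆ I1)
    (hD2 : ∀ x ∈ X, D2 x ⊆ I2) {S : Finset (ℤ × ℤ)} (hS : S ⊆ I1 ×ˢ I2)
    {a : ℤ → ℤ → ℝ} {m : ℝ} (hm : 0 ≤ m) (ha : ∀ y z, |a y z| ≤ m)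
    (haS : ∀ y z, a y z ≠ 0 → (y, z) ∈ S) (P1 P2 : Finset ℤ) :
    ∑ x ∈ X, ∑ y ∈ D1 x, ∑ y' ∈ D1 x, ∑ z ∈ D2 x, ∑ z' ∈ D2 x,
        (ind (y' - y ∈ P1) * ind (z' - z ∈ P2)) *
          (a y z * F x y z * (a y' z * F x y' z) *
            (a y z' * F x y z' * (a y' z' * F x y' z'))) ≤
      m ^ 4 * S.card * √(P1.card * P2.card * K) := by
  rw [main_sum hX hD1 hD2 haS P1 P2 F]
  have hcs := cs4 I1 I2
    (fun y y' z z' => (ind (y' - y ∈ P1) * ind (z' - z ∈ P2)) *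
      (a y z * a y' z * (a y z' * a y' z')))
    (fun y y' z z' => ws S y y' z z' * ∑ x ∈ I0, wf X D1 D2 x y y' z z' * cy F x y y' z z')
  have hU := oct_sum hO X D1 D2 S hS
  have hV : ∑ y ∈ I1, ∑ y' ∈ I1, ∑ z ∈ I2, ∑ z' ∈ I2,
      ((ind (y' - y ∈ P1) * ind (z' - z ∈ P2)) * (a y z * a y' z * (a y z' * a y' z'))) ^ 2 ≤
      m ^ 8 * (S.card * (P1.card * P2.card)) := by
    refine le_trans ?_ (mul_le_mul_of_nonneg_left (pop_count hS P1 P2) (by positivity))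
    rw [mul_sum]
    refine sum_le_sum fun y _ => ?_
    rw [mul_sum]
    refine sum_le_sum fun y' _ => ?_
    rw [mul_sum]
    refine sum_le_sum fun z _ => ?_
    rw [mul_sum]
    refine sum_le_sum fun z' _ => ?_
    have hw0 : 0 ≤ ind (y' - y ∈ P1) * ind (z' - z ∈ P2) :=
      mul_nonneg (ind_nonneg _) (ind_nonneg _)
    have hw : (ind (y' - y ∈ P1) * ind (z' - z ∈ P2)) ^ 2 =
        ind (y' - y ∈ P1) * ind (z' - z ∈ P2) := by rw [mul_pow, ind_sq, ind_sq]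
    by_cases h1 : a y z = 0
    · rw [h1]
      simp only [zero_mul, mul_zero]
      rw [zero_pow (by norm_num)]
      exact mul_nonneg (by positivity) (mul_nonneg (ind_nonneg _) hw0)
    · have hi : ind ((y, z) ∈ S) = 1 := by simp [ind, haS _ _ h1]
      rw [mul_pow, hw, hi, one_mul, mul_comm]
      refine mul_le_mul_of_nonneg_right ?_ hw0
      have hb : |a y z * a y' z * (a y z' * a y' z')| ≤ m ^ 4 := by
        rw [abs_mul, abs_mul, abs_mul]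
        calc |a y z| * |a y' z| * (|a y z'| * |a y' z'|) ≤ m * m * (m * m) := by
              gcongr <;> exact ha _ _
          _ = m ^ 4 := by ring
      calc (a y z * a y' z * (a y z' * a y' z')) ^ 2 =
            |a y z * a y' z * (a y z' * a y' z')| ^ 2 := (sq_abs _).symm
        _ ≤ (m ^ 4) ^ 2 := pow_le_pow_left₀ (abs_nonneg _) hb 2
        _ = m ^ 8 := by ring
  have hV0 : 0 ≤ m ^ 8 * ((S.card : ℝ) * (P1.card * P2.card)) := by positivity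
  have hU0 : 0 ≤ ∑ y ∈ I1, ∑ y' ∈ I1, ∑ z ∈ I2, ∑ z' ∈ I2,
      (ws S y y' z z' * ∑ x ∈ I0, wf X D1 D2 x y y' z z' * cy F x y y' z z') ^ 2 :=
    sum_nonneg fun _ _ => sum_nonneg fun _ _ => sum_nonneg fun _ _ => sum_nonneg fun _ _ =>
      sq_nonneg _
  have h4 := hcs.trans (mul_le_mul hV hU hU0 hV0)
  refine (Real.le_sqrt_of_sq_le h4).trans (le_of_eq ?_)
  rw [show m ^ 8 * ((S.card : ℝ) * (P1.card * P2.card)) * (K * S.card) =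
    (m ^ 4 * S.card) ^ 2 * (P1.card * P2.card * K) by ring,
    Real.sqrt_mul (sq_nonneg _), Real.sqrt_sq (by positivity)]

/-- **the abstract bound** -/
theorem few_abs {K : ℝ} {I0 I1 I2 : Finset ℤ} {F : ℤ → ℤ → ℤ → ℝ} (hO : OctB K I0 I1 I2 F)
    {X : Finset ℤ} (hX : X ⊆ I0) {D1 D2 : ℤ → Finset ℤ} (hD1 : ∀ x ∈ X, D1 x ⊆ I1)
    (hD2 : ∀ x ∈ X, D2 x ⊆ I2) {D : ℝ} (hc1 : ∀ x ∈ X, ((D1 x).card : ℝ) ≤ D)
    (hc2 : ∀ x ∈ X, ((D2 x).card : ℝ) ≤ D) {S : Finset (ℤ × ℤ)} (hS : S ⊆ I1 ×ˢ I2)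
    {a : ℤ → ℤ → ℝ} {m : ℝ} (hm : 0 ≤ m) (ha : ∀ y z, |a y z| ≤ m)
    (haS : ∀ y z, a y z ≠ 0 → (y, z) ∈ S) {P1 P2 : Finset ℤ} {B : ℝ}
    (hP1 : ∀ x ∈ X, ∀ y ∈ I1, ∀ y' ∈ I1, y' - y ∉ P1 → ∑ z ∈ D2 x, |F x y z * F x y' z| ≤ B)
    (hP2 : ∀ x ∈ X, ∀ z ∈ I2, ∀ z' ∈ I2, z' - z ∉ P2 → ∑ y ∈ D1 x, |F x y z * F x y z'| ≤ B)
    {φ ψ : ℤ → ℤ → ℝ} (hφ : ∀ x ∈ X, ∑ y ∈ D1 x, φ x y ^ 2 ≤ 1)
    (hψ : ∀ x ∈ X, ∑ z ∈ D2 x, ψ x z ^ 2 ≤ 1) :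
    (∑ x ∈ X, ∑ y ∈ D1 x, ∑ z ∈ D2 x, a y z * F x y z * φ x y * ψ x z) ^ 4 ≤
      (X.card : ℝ) ^ 3 * (X.card * (2 * (D ^ 2 * (m ^ 2 * B) ^ 2)) +
        m ^ 4 * S.card * √(P1.card * P2.card * K)) := by
  refine (sum_four X _).trans (mul_le_mul_of_nonneg_left ?_ (by positivity))
  have h1 : ∀ x ∈ X, (∑ y ∈ D1 x, ∑ z ∈ D2 x, a y z * F x y z * φ x y * ψ x z) ^ 4 ≤
      2 * (D ^ 2 * (m ^ 2 * B) ^ 2) +
        ∑ y ∈ D1 x, ∑ y' ∈ D1 x, ∑ z ∈ D2 x, ∑ z' ∈ D2 x,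
        (ind (y' - y ∈ P1) * ind (z' - z ∈ P2)) *
          (a y z * F x y z * (a y' z * F x y' z) *
            (a y z' * F x y z' * (a y' z' * F x y' z'))) := by
    intro x hx
    refine (bilin_four (D1 x) (D2 x) (fun y z => a y z * F x y z) (φ x) (ψ x) (hφ x hx)
      (hψ x hx)).trans ?_
    refine split_one (D1 x) (D2 x) P1 P2 (fun y z => a y z * F x y z) D (m ^ 2 * B)
      (hc1 x hx) (hc2 x hx) ?_ ?_
    · intro y hy y' hy' hn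
      calc ∑ z ∈ D2 x, |a y z * F x y z * (a y' z * F x y' z)|
          ≤ ∑ z ∈ D2 x, m ^ 2 * |F x y z * F x y' z| := by
            refine sum_le_sum fun z _ => ?_
            rw [show a y z * F x y z * (a y' z * F x y' z) =
              (a y z * a y' z) * (F x y z * F x y' z) by ring, abs_mul]
            refine mul_le_mul_of_nonneg_right ?_ (abs_nonneg _)
            rw [abs_mul, sq]
            exact mul_le_mul (ha _ _) (ha _ _) (abs_nonneg _) hm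
        _ = m ^ 2 * ∑ z ∈ D2 x, |F x y z * F x y' z| := by rw [mul_sum]
        _ ≤ _ := mul_le_mul_of_nonneg_left
            (hP1 x hx y (hD1 x hx hy) y' (hD1 x hx hy') hn) (sq_nonneg m)
    · intro z hz z' hz' hn
      calc ∑ y ∈ D1 x, |a y z * F x y z * (a y z' * F x y z')|
          ≤ ∑ y ∈ D1 x, m ^ 2 * |F x y z * F x y z'| := by
            refine sum_le_sum fun y _ => ?_
            rw [show a y z * F x y z * (a y z' * F x y z') =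
              (a y z * a y z') * (F x y z * F x y z') by ring, abs_mul]
            refine mul_le_mul_of_nonneg_right ?_ (abs_nonneg _)
            rw [abs_mul, sq]
            exact mul_le_mul (ha _ _) (ha _ _) (abs_nonneg _) hm
        _ = m ^ 2 * ∑ y ∈ D1 x, |F x y z * F x y z'| := by rw [mul_sum]
        _ ≤ _ := mul_le_mul_of_nonneg_left
            (hP2 x hx z (hD2 x hx hz) z' (hD2 x hx hz') hn) (sq_nonneg m)
  refine (sum_le_sum h1).trans ?_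
  rw [sum_add_distrib, sum_const, nsmul_eq_mul]
  exact add_le_add le_rfl (main_le hO hX hD1 hD2 hS hm ha haS P1 P2)

end

end Vale.Agent.P141.H927
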