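import Mathlib

/-!
# P141, composite events, few singular values: definitions

`o8 F x x' y y' z z'`: the product of a function over the eight vertices of the octahedron, the
vertex `(x,y,z)` is the tested one, `(x',y',z')` is the pivot.
`lf c f`: the lift of a function of one variable.
`TestB τ I0 I1 I2 F`: the test bound against bounded edge functions on product boxes.
`OctB K I0 I1 I2 F`: the bound of the octahedron sums with bounded weights.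
-/

namespace Vale.Agent.P141.H927

open Finset

noncomputable section

/-- the lift of a function of one variable -/
def lf (c : ℤ × ℤ × ℤ) (f : ℤ → ℝ) (x y z : ℤ) : ℝ := f (c.1 * x + c.2.1 * y + c.2.2 * z)

/-- the product over the eight vertices -/
def o8 (F : ℤ → ℤ → ℤ → ℝ) (x x' y y' z z' : ℤ) : ℝ :=
  F x y z * (F x y z' * F x y' z * F x' y z) * (F x y' z' * F x' y z' * F x' y' z) * F x' y' z'

/-- the test bound on boxes with at most `n` points on each side -/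
def TestB (τ : ℝ) (I0 I1 I2 : Finset ℤ) (F : ℤ → ℤ → ℤ → ℝ) : Prop :=
  ∀ (A0 A1 A2 : Finset ℤ) (a b g : ℤ → ℤ → ℝ) (s1 s2 s3 : ℝ) (n : ℕ),
    A0 ⊆ I0 → A1 ⊆ I1 → A2 ⊆ I2 → A0.card ≤ n → A1.card ≤ n → A2.card ≤ n →
    0 ≤ s1 → 0 ≤ s2 → 0 ≤ s3 →
    (∀ x ∈ A0, ∀ y ∈ A1, |a x y| ≤ s1) → (∀ x ∈ A0, ∀ z ∈ A2, |b x z| ≤ s2) →
    (∀ y ∈ A1, ∀ z ∈ A2, |g y z| ≤ s3) →
    |∑ x ∈ A0, ∑ y ∈ A1, ∑ z ∈ A2, F x y z * (a x y * b x z * g y z)| ≤
      τ * (s1 * s2 * s3) * ((n : ℝ) ^ 2 * √n)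

/-- the bound of the octahedron sums with bounded weights, both squares in `S` -/
def OctB (K : ℝ) (I0 I1 I2 : Finset ℤ) (F : ℤ → ℤ → ℤ → ℝ) : Prop :=
  ∀ (S : Finset (ℤ × ℤ)) (α β γ : ℤ × ℤ × ℤ → ℤ → ℤ → ℝ), S ⊆ I1 ×ˢ I2 →
    (∀ p x y, |α p x y| ≤ 1) → (∀ p x z, |β p x z| ≤ 1) → (∀ p y z, |γ p y z| ≤ 1) →
    (∀ p y z, γ p y z ≠ 0 → (y, z) ∈ S) →
    |∑ x' ∈ I0, ∑ q ∈ S, ∑ x ∈ I0, ∑ y ∈ I1, ∑ z ∈ I2,
        (α (x', q) x y * β (x', q) x z * γ (x', q) y z) * o8 F x x' y q.1 z q.2| ≤ K * S.card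

end

end Vale.Agent.P141.H927
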