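import Vale.Agent.P141.H927.FewG
import Vale.Agent.P141.H944.BoxP

/-!
# P141, composite events, few singular values: final form

`testB_of_unif`: uniformity with the pair weight gives the test bound on boxes;
`few_delta`: the bound of the bilinear sums with the free parameter `b`;
`few_final`: the same after the choice of `b`, gain `t ^ (1 / 90)` in the fourth power.
-/

namespace Vale.Agent.P141.H927

open Finset
open Vale.Agent.P141.PL.H315 (avg atm Tri e12 e13 e23)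
open Vale.Agent.P141.H922 (n2 n4 nN n2_nonneg n4_nonneg nN_nonneg)
open Vale.Agent.P141.H944 (UnifB)

noncomputable section

/-- norms of a bounded function with small support -/
theorem n2_box_le {I J A B : Finset ℤ} {N n : ℕ} (hI : I.card = N) (hJ : J.card = N)
    (hN : 0 < N) (hAn : A.card ≤ n) (hBn : B.card ≤ n) {s : ℝ} (hs : 0 ≤ s)
    {u : ℤ × ℤ → ℝ} (hu : ∀ q, |u q| ≤ if q.1 ∈ A ∧ q.2 ∈ B then s else 0) :
    n2 (I ×ˢ J) u ≤ s * (n / N) ∧ n4 (I ×ˢ J) u ≤ s * √(n / N) := by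
  have hN0 : (0 : ℝ) < N := by exact_mod_cast hN
  have hc : ((I ×ˢ J).card : ℝ) = (N : ℝ) ^ 2 := by
    rw [card_product, hI, hJ]; push_cast; ring
  have key : ∀ r : ℕ, 0 < r → Even r → avg (I ×ˢ J) (fun q => u q ^ r) ≤ s ^ r * (n / N) ^ 2 := by
    intro r hr0 hr
    unfold avg
    rw [hc, inv_mul_le_iff₀ (by positivity)]
    have h1 : ∑ q ∈ I ×ˢ J, u q ^ r ≤ ∑ q ∈ (I ×ˢ J).filter (fun q => q.1 ∈ A ∧ q.2 ∈ B), s ^ r := by
      rw [sum_filter]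
      refine sum_le_sum fun q _ => ?_
      rw [← hr.pow_abs]
      have h2 := hu q
      split_ifs at h2 ⊢ with h3
      · exact pow_le_pow_left₀ (abs_nonneg _) h2 r
      · have : |u q| = 0 := le_antisymm h2 (abs_nonneg _)
        rw [this, zero_pow hr0.ne']
    refine h1.trans ?_
    rw [sum_const, nsmul_eq_mul]
    have h4 : ((I ×ˢ J).filter (fun q => q.1 ∈ A ∧ q.2 ∈ B)).card ≤ n * n := by
      calc ((I ×ˢ J).filter (fun q => q.1 ∈ A ∧ q.2 ∈ B)).card ≤ (A ×ˢ B).card := by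
            refine card_le_card fun q hq => ?_
            have := (mem_filter.mp hq).2
            exact mem_product.mpr this
        _ = A.card * B.card := card_product _ _
        _ ≤ n * n := Nat.mul_le_mul hAn hBn
    have h5 : ((((I ×ˢ J).filter (fun q => q.1 ∈ A ∧ q.2 ∈ B)).card : ℕ) : ℝ) ≤ n * n := by
      exact_mod_cast h4
    calc _ ≤ (n * n : ℝ) * s ^ r := mul_le_mul_of_nonneg_right h5 (by positivity)
      _ = _ := by field_simp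
  constructor
  · unfold n2
    refine Real.sqrt_le_iff.mpr ⟨by positivity, ?_⟩
    refine (key 2 (by norm_num) (by decide)).trans (le_of_eq ?_)
    ring
  · unfold n4
    refine Real.sqrt_le_iff.mpr ⟨by positivity, ?_⟩
    refine Real.sqrt_le_iff.mpr ⟨by positivity, ?_⟩
    refine (key 4 (by norm_num) (by decide)).trans (le_of_eq ?_)
    have : √((n : ℝ) / N) ^ 2 = n / N := Real.sq_sqrt (by positivity)
    calc s ^ 4 * ((n : ℝ) / N) ^ 2 = s ^ 4 * (√((n : ℝ) / N) ^ 2) ^ 2 := by rw [this]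
      _ = _ := by ring

theorem nN_box_le {I J A B : Finset ℤ} {N n : ℕ} (hI : I.card = N) (hJ : J.card = N)
    (hN : 0 < N) (hAn : A.card ≤ n) (hBn : B.card ≤ n) {s : ℝ} (hs : 0 ≤ s)
    {u : ℤ × ℤ → ℝ} (hu : ∀ q, |u q| ≤ if q.1 ∈ A ∧ q.2 ∈ B then s else 0) :
    nN (I ×ˢ J) u ≤ s * √((n / N : ℝ) * √(n / N)) := by
  have h := n2_box_le hI hJ hN hAn hBn hs hu
  unfold nN
  calc √(n2 (I ×ˢ J) u * n4 (I ×ˢ J) u) ≤ √((s * (n / N)) * (s * √(n / N))) := by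
        refine Real.sqrt_le_sqrt (mul_le_mul h.1 h.2 (n4_nonneg _ _) (by positivity))
    _ = √(s ^ 2 * ((n / N : ℝ) * √(n / N))) := by congr 1; ring
    _ = _ := by rw [Real.sqrt_mul (sq_nonneg s), Real.sqrt_sq hs]

/-- **uniformity with the pair weight gives the test bound** -/
theorem testB_of_unif {t : ℝ} (ht : 0 ≤ t) {I0 I1 I2 : Finset ℤ} {N : ℕ} (hN : 0 < N)
    (h0 : I0.card = N) (h1 : I1.card = N) (h2 : I2.card = N) {F : ℤ → ℤ → ℤ → ℝ}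
    (hU : UnifB t I0 I1 I2 fun q => F q.1 q.2.1 q.2.2) :
    TestB (3 * t * √N) I0 I1 I2 F := by
  classical
  intro A0 A1 A2 a b g s1 s2 s3 n hA0 hA1 hA2 c0 c1 c2 hs1 hs2 hs3 ha hb hg
  have hN0 : (0 : ℝ) < N := by exact_mod_cast hN
  set ua : ℤ × ℤ → ℝ := fun q => if q.1 ∈ A0 ∧ q.2 ∈ A1 then a q.1 q.2 else 0 with hua
  set ub : ℤ × ℤ → ℝ := fun q => if q.1 ∈ A0 ∧ q.2 ∈ A2 then b q.1 q.2 else 0 with hub
  set ug : ℤ × ℤ → ℝ := fun q => if q.1 ∈ A1 ∧ q.2 ∈ A2 then g q.1 q.2 else 0 with hug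
  have ba : ∀ q, |ua q| ≤ if q.1 ∈ A0 ∧ q.2 ∈ A1 then s1 else 0 := by
    intro q; rw [hua]; dsimp only; split_ifs with h
    · exact ha _ h.1 _ h.2
    · simp
  have bb : ∀ q, |ub q| ≤ if q.1 ∈ A0 ∧ q.2 ∈ A2 then s2 else 0 := by
    intro q; rw [hub]; dsimp only; split_ifs with h
    · exact hb _ h.1 _ h.2
    · simp
  have bg : ∀ q, |ug q| ≤ if q.1 ∈ A1 ∧ q.2 ∈ A2 then s3 else 0 := by
    intro q; rw [hug]; dsimp only; split_ifs with h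
    · exact hg _ h.1 _ h.2
    · simp
  have hu := hU (ua, ub, ug)
  set r : ℝ := n / N with hr
  have hr0 : 0 ≤ r := by positivity
  have Na := nN_box_le h0 h1 hN c0 c1 hs1 ba
  have Nb := nN_box_le h0 h2 hN c0 c2 hs2 bb
  have Ng := nN_box_le h1 h2 hN c1 c2 hs3 bg
  have Ma := (n2_box_le h0 h1 hN c0 c1 hs1 ba).1
  have Mb := (n2_box_le h0 h2 hN c0 c2 hs2 bb).1
  have Mg := (n2_box_le h1 h2 hN c1 c2 hs3 bg).1
  rw [← hr] at Na Nb Ng Ma Mb Mg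
  have hsum : ∑ x ∈ A0, ∑ y ∈ A1, ∑ z ∈ A2, F x y z * (a x y * b x z * g y z) =
      (N : ℝ) ^ 3 * avg (I0 ×ˢ I1 ×ˢ I2) (fun q => F q.1 q.2.1 q.2.2 * atm (ua, ub, ug) q) := by
    have hc : ((I0 ×ˢ I1 ×ˢ I2).card : ℝ) = (N : ℝ) ^ 3 := by
      rw [card_product, card_product, h0, h1, h2]; push_cast; ring
    unfold avg
    rw [hc, ← mul_assoc, mul_inv_cancel₀ (by positivity), one_mul, sum_product]
    have e0 : A0 = I0.filter fun x => x ∈ A0 := by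
      ext x; simp only [mem_filter]; exact ⟨fun h => ⟨hA0 h, h⟩, fun h => h.2⟩
    have e1 : A1 = I1.filter fun x => x ∈ A1 := by
      ext x; simp only [mem_filter]; exact ⟨fun h => ⟨hA1 h, h⟩, fun h => h.2⟩
    have e2 : A2 = I2.filter fun x => x ∈ A2 := by
      ext x; simp only [mem_filter]; exact ⟨fun h => ⟨hA2 h, h⟩, fun h => h.2⟩
    conv_lhs => rw [e0]
    rw [sum_filter]
    refine sum_congr rfl fun x _ => ?_
    rw [sum_product]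
    by_cases hx : x ∈ A0
    · rw [if_pos hx]
      conv_lhs => rw [e1]
      rw [sum_filter]
      refine sum_congr rfl fun y _ => ?_
      by_cases hy : y ∈ A1
      · rw [if_pos hy]
        conv_lhs => rw [e2]
        rw [sum_filter]
        refine sum_congr rfl fun z _ => ?_
        by_cases hz : z ∈ A2
        · rw [if_pos hz]
          simp only [atm, e12, e13, e23, hua, hub, hug, hx, hy, hz, and_self, if_true]
        · rw [if_neg hz]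
          simp only [atm, e12, e13, e23, hub, hz, and_false, if_false, mul_zero, zero_mul]
      · rw [if_neg hy]
        refine (sum_eq_zero fun z _ => ?_).symm
        simp only [atm, e12, e13, e23, hua, hy, and_false, if_false, mul_zero, zero_mul]
    · rw [if_neg hx]
      refine (sum_eq_zero fun y _ => sum_eq_zero fun z _ => ?_).symm
      simp only [atm, e12, e13, e23, hua, hx, false_and, if_false, mul_zero, zero_mul]
  rw [hsum, abs_mul, abs_of_nonneg (by positivity : (0 : ℝ) ≤ (N : ℝ) ^ 3)]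
  set v : ℝ := √(r * √r) with hv
  have hv0 : 0 ≤ v := Real.sqrt_nonneg _
  have hvv : v * v = r * √r := Real.mul_self_sqrt (by positivity)
  have T1 : nN (I0 ×ˢ I1) ua * nN (I0 ×ˢ I2) ub * n2 (I1 ×ˢ I2) ug ≤
      s1 * v * (s2 * v) * (s3 * r) :=
    mul_le_mul (mul_le_mul Na Nb (nN_nonneg _ _) (by positivity)) Mg (n2_nonneg _ _)
      (by positivity)
  have T2 : nN (I0 ×ˢ I1) ua * nN (I1 ×ˢ I2) ug * n2 (I0 ×ˢ I2) ub ≤
      s1 * v * (s3 * v) * (s2 * r) :=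
    mul_le_mul (mul_le_mul Na Ng (nN_nonneg _ _) (by positivity)) Mb (n2_nonneg _ _)
      (by positivity)
  have T3 : nN (I0 ×ˢ I2) ub * nN (I1 ×ˢ I2) ug * n2 (I0 ×ˢ I1) ua ≤
      s2 * v * (s3 * v) * (s1 * r) :=
    mul_le_mul (mul_le_mul Nb Ng (nN_nonneg _ _) (by positivity)) Ma (n2_nonneg _ _)
      (by positivity)
  have hT : nN (I0 ×ˢ I1) ua * nN (I0 ×ˢ I2) ub * n2 (I1 ×ˢ I2) ug +
      nN (I0 ×ˢ I1) ua * nN (I1 ×ˢ I2) ug * n2 (I0 ×ˢ I2) ub +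
      nN (I0 ×ˢ I2) ub * nN (I1 ×ˢ I2) ug * n2 (I0 ×ˢ I1) ua ≤
      3 * (s1 * s2 * s3) * (r ^ 2 * √r) := by
    have e : 3 * (s1 * s2 * s3) * (r ^ 2 * √r) = 3 * (s1 * s2 * s3) * ((v * v) * r) := by
      rw [hvv]; ring
    rw [e]
    calc _ ≤ s1 * v * (s2 * v) * (s3 * r) + s1 * v * (s3 * v) * (s2 * r) +
          s2 * v * (s3 * v) * (s1 * r) := add_le_add (add_le_add T1 T2) T3
      _ = _ := by ring
  have hfin : (N : ℝ) ^ 3 * (r ^ 2 * √r) = √N * ((n : ℝ) ^ 2 * √n) := by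
    rw [hr, Real.sqrt_div (Nat.cast_nonneg n)]
    have h3 : √(N : ℝ) * √(N : ℝ) = N := Real.mul_self_sqrt hN0.le
    have h4 : √(N : ℝ) ≠ 0 := (Real.sqrt_pos.mpr hN0).ne'
    field_simp
    calc (N : ℝ) * (n : ℝ) ^ 2 * √n = (√(N : ℝ) * √(N : ℝ)) * (n : ℝ) ^ 2 * √n := by rw [h3]
      _ = _ := by ring
  calc (N : ℝ) ^ 3 * |avg (I0 ×ˢ I1 ×ˢ I2) fun q => F q.1 q.2.1 q.2.2 * atm (ua, ub, ug) q|
      ≤ (N : ℝ) ^ 3 * (t * (3 * (s1 * s2 * s3) * (r ^ 2 * √r))) := by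
        refine mul_le_mul_of_nonneg_left (hu.trans ?_) (by positivity)
        exact mul_le_mul_of_nonneg_left hT ht
    _ = 3 * t * (s1 * s2 * s3) * ((N : ℝ) ^ 3 * (r ^ 2 * √r)) := by ring
    _ = _ := by rw [hfin]; ring

/-- **few singular values, with the free parameters** -/
theorem few_delta {c : ℤ × ℤ × ℤ} (hc : c.1 ≠ 0 ∧ c.2.1 ≠ 0 ∧ c.2.2 ≠ 0) {f : ℤ → ℝ}
    {I0 I1 I2 W : Finset ℤ}
    (hW : ∀ x ∈ I0, ∀ y ∈ I1, ∀ z ∈ I2, c.1 * x + c.2.1 * y + c.2.2 * z ∈ W)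
    {N : ℕ} (hN : 0 < N) (h0 : I0.card = N) (h1 : I1.card = N) (h2 : I2.card = N) {t L : ℝ}
    (ht : 0 ≤ t) (hL : 1 ≤ L) (hE : ∑ y ∈ W, f y ^ 2 ≤ L * N)
    (hU : UnifB t I0 I1 I2 fun q => lf c f q.1 q.2.1 q.2.2)
    {X : Finset ℤ} (hX : X ⊆ I0) {D1 D2 : ℤ → Finset ℤ} (hD1 : ∀ x ∈ X, D1 x ⊆ I1)
    (hD2 : ∀ x ∈ X, D2 x ⊆ I2) {D : ℝ} (hD0 : 0 < D) (hd1 : ∀ x ∈ X, ((D1 x).card : ℝ) ≤ D)
    (hd2 : ∀ x ∈ X, ((D2 x).card : ℝ) ≤ D) {S : Finset (ℤ × ℤ)} (hS : S ⊆ I1 ×ˢ I2)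
    {a : ℤ → ℤ → ℝ} {m : ℝ} (hm : 0 ≤ m) (ha : ∀ y z, |a y z| ≤ m)
    (haS : ∀ y z, a y z ≠ 0 → (y, z) ∈ S)
    {φ ψ : ℤ → ℤ → ℝ} (hφ : ∀ x ∈ X, ∑ y ∈ D1 x, φ x y ^ 2 ≤ 1)
    (hψ : ∀ x ∈ X, ∑ z ∈ D2 x, ψ x z ^ 2 ≤ 1) {b : ℕ} (hb : 1 < b) {eta : ℝ} (he : 0 < eta) :
    (∑ x ∈ X, ∑ y ∈ D1 x, ∑ z ∈ D2 x, a y z * lf c f x y z * φ x y * ψ x z) ^ 4 ≤
      (X.card : ℝ) ^ 3 * m ^ 4 * D * (L * N) ^ 2 *
        (18 * X.card * D * eta ^ 2 + S.card * √(12 / b + 3 * t * (b : ℝ) ^ 17) / eta ^ 3) := by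
  have hN0 : (0 : ℝ) < N := by exact_mod_cast hN
  have hB1 : (0 : ℝ) < b := by exact_mod_cast (by omega : 0 < b)
  set E : ℝ := L * N with hEd
  have hE0 : 0 < E := by positivity
  have hNE : (N : ℝ) ≤ E := by rw [hEd]; nlinarith
  have hO := octB_of hc hW hE (by positivity) (testB_of_unif ht hN h0 h1 h2 hU) hb
  set K : ℝ := 12 * E ^ 4 / b + 3 * t * √N * (b : ℝ) ^ 17 * (E ^ 3 * √E) with hK
  have hK0 : 0 ≤ K := by positivity
  have hKE : √K ≤ E ^ 2 * √(12 / b + 3 * t * (b : ℝ) ^ 17) := by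
    have e1 : K ≤ (E ^ 2) ^ 2 * (12 / b + 3 * t * (b : ℝ) ^ 17) := by
      have h3 : √(N : ℝ) ≤ √E := Real.sqrt_le_sqrt hNE
      have h4 : √E * √E = E := Real.mul_self_sqrt hE0.le
      have h5 : √(N : ℝ) * √E ≤ E := by
        calc √(N : ℝ) * √E ≤ √E * √E := mul_le_mul_of_nonneg_right h3 (Real.sqrt_nonneg _)
          _ = E := h4
      calc K = 12 * E ^ 4 / b + 3 * t * (b : ℝ) ^ 17 * E ^ 3 * (√N * √E) := by rw [hK]; ring
        _ ≤ 12 * E ^ 4 / b + 3 * t * (b : ℝ) ^ 17 * E ^ 3 * E := by gcongr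
        _ = _ := by ring
    calc √K ≤ √((E ^ 2) ^ 2 * (12 / b + 3 * t * (b : ℝ) ^ 17)) := Real.sqrt_le_sqrt e1
      _ = _ := by rw [Real.sqrt_mul (by positivity), Real.sqrt_sq (by positivity)]
  have key := few_lift hc.2.1 hc.2.2 hW hE0 hE hO hK0 hX hD1 hD2 hD0 hd1 hd2 hS hm ha haS hφ hψ he
  refine key.trans ?_
  have e2 : (X.card : ℝ) ^ 3 * m ^ 4 * D * E ^ 2 *
        (18 * X.card * D * eta ^ 2 + S.card * √(12 / b + 3 * t * (b : ℝ) ^ 17) / eta ^ 3) =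
      (X.card : ℝ) ^ 3 * m ^ 4 * D * (18 * X.card * D * E ^ 2 * eta ^ 2 +
        S.card * (E ^ 2 * √(12 / b + 3 * t * (b : ℝ) ^ 17)) / eta ^ 3) := by ring
  rw [e2]
  gcongr

/-- **Few singular values, final form**: the fourth power of the bilinear sums gains
`t ^ (1 / 90)` over the trivial bound when `|X| D` is comparable to `|S|`. -/
theorem few_final {c : ℤ × ℤ × ℤ} (hc : c.1 ≠ 0 ∧ c.2.1 ≠ 0 ∧ c.2.2 ≠ 0) {f : ℤ → ℝ}
    {I0 I1 I2 W : Finset ℤ}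
    (hW : ∀ x ∈ I0, ∀ y ∈ I1, ∀ z ∈ I2, c.1 * x + c.2.1 * y + c.2.2 * z ∈ W)
    {N : ℕ} (hN : 0 < N) (h0 : I0.card = N) (h1 : I1.card = N) (h2 : I2.card = N) {t L : ℝ}
    (ht : 0 < t) (ht1 : t ≤ 1) (hL : 1 ≤ L) (hE : ∑ y ∈ W, f y ^ 2 ≤ L * N)
    (hU : UnifB t I0 I1 I2 fun q => lf c f q.1 q.2.1 q.2.2)
    {X : Finset ℤ} (hX : X ⊆ I0) {D1 D2 : ℤ → Finset ℤ} (hD1 : ∀ x ∈ X, D1 x ⊆ I1)
    (hD2 : ∀ x ∈ X, D2 x ⊆ I2) {D : ℝ} (hD0 : 0 < D) (hd1 : ∀ x ∈ X, ((D1 x).card : ℝ) ≤ D)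
    (hd2 : ∀ x ∈ X, ((D2 x).card : ℝ) ≤ D) {S : Finset (ℤ × ℤ)} (hS : S ⊆ I1 ×ˢ I2)
    {a : ℤ → ℤ → ℝ} {m : ℝ} (hm : 0 ≤ m) (ha : ∀ y z, |a y z| ≤ m)
    (haS : ∀ y z, a y z ≠ 0 → (y, z) ∈ S)
    {φ ψ : ℤ → ℤ → ℝ} (hφ : ∀ x ∈ X, ∑ y ∈ D1 x, φ x y ^ 2 ≤ 1)
    (hψ : ∀ x ∈ X, ∑ z ∈ D2 x, ψ x z ^ 2 ≤ 1) :
    (∑ x ∈ X, ∑ y ∈ D1 x, ∑ z ∈ D2 x, a y z * lf c f x y z * φ x y * ψ x z) ^ 4 ≤
      20000 * ((X.card : ℝ) ^ 3 * m ^ 4 * D * (L * N) ^ 2 * (X.card * D + S.card) *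
        t ^ (1 / 90 : ℝ)) := by
  -- the choice of the ratio
  set u : ℝ := t ^ (1 / 18 : ℝ) with hu
  have hu0 : 0 < u := Real.rpow_pos_of_pos ht _
  have hu1 : u ≤ 1 := Real.rpow_le_one ht.le ht1 (by norm_num)
  have hu18 : u ^ 18 = t := by
    rw [hu, ← Real.rpow_natCast, ← Real.rpow_mul ht.le]
    norm_num
  set b : ℕ := ⌈u⁻¹⌉₊ + 1 with hb
  have hui : 1 ≤ u⁻¹ := (one_le_inv₀ hu0).mpr hu1
  have hb1 : 1 < b := by
    have : 1 ≤ ⌈u⁻¹⌉₊ := Nat.one_le_ceil_iff.mpr (by positivity)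
    omega
  have hbl : u⁻¹ ≤ b := by
    have := Nat.le_ceil u⁻¹
    rw [hb]; push_cast; linarith
  have hbu : (b : ℝ) ≤ 3 * u⁻¹ := by
    have := (Nat.ceil_lt_add_one (by positivity : (0 : ℝ) ≤ u⁻¹)).le
    rw [hb]; push_cast; linarith
  have hb0 : (0 : ℝ) < b := by exact_mod_cast (by omega : 0 < b)
  have hδ : 12 / (b : ℝ) + 3 * t * (b : ℝ) ^ 17 ≤ (12 + 3 ^ 18) * u := by
    have h3 : 12 / (b : ℝ) ≤ 12 * u := by
      rw [div_le_iff₀ hb0]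
      have : 1 ≤ u * b := by
        calc (1 : ℝ) = u * u⁻¹ := (mul_inv_cancel₀ hu0.ne').symm
          _ ≤ u * b := mul_le_mul_of_nonneg_left hbl hu0.le
      nlinarith
    have h4 : 3 * t * (b : ℝ) ^ 17 ≤ 3 ^ 18 * u := by
      calc 3 * t * (b : ℝ) ^ 17 ≤ 3 * t * (3 * u⁻¹) ^ 17 := by gcongr
        _ = 3 ^ 18 * (t * (u⁻¹) ^ 17) := by ring
        _ = 3 ^ 18 * u := by rw [← hu18]; field_simp
    linarith
  set eta : ℝ := t ^ (1 / 180 : ℝ) with heta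
  have he0 : 0 < eta := Real.rpow_pos_of_pos ht _
  have he2 : eta ^ 2 = t ^ (1 / 90 : ℝ) := by
    rw [heta, ← Real.rpow_natCast, ← Real.rpow_mul ht.le]
    norm_num
  have he10 : u = eta ^ 10 := by
    rw [heta, ← Real.rpow_natCast, ← Real.rpow_mul ht.le, hu]
    norm_num
  have hsq : √(12 / (b : ℝ) + 3 * t * (b : ℝ) ^ 17) ≤ 19684 * eta ^ 5 := by
    refine Real.sqrt_le_iff.mpr ⟨by positivity, hδ.trans ?_⟩
    rw [he10, mul_pow, ← pow_mul, show 5 * 2 = 10 from rfl]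
    have : (0 : ℝ) < eta ^ 10 := by positivity
    exact mul_le_mul_of_nonneg_right (by norm_num) this.le
  have key := few_delta hc hW hN h0 h1 h2 ht.le hL hE hU hX hD1 hD2 hD0 hd1 hd2 hS hm ha haS
    hφ hψ hb1 he0
  refine key.trans ?_
  have hX0 : (0 : ℝ) ≤ X.card := Nat.cast_nonneg _
  have hS0 : (0 : ℝ) ≤ S.card := Nat.cast_nonneg _
  have h5 : 18 * X.card * D * eta ^ 2 + S.card * √(12 / b + 3 * t * (b : ℝ) ^ 17) / eta ^ 3 ≤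
      20000 * ((X.card * D + S.card) * t ^ (1 / 90 : ℝ)) := by
    have h6 : S.card * √(12 / b + 3 * t * (b : ℝ) ^ 17) / eta ^ 3 ≤ S.card * (19684 * eta ^ 2) := by
      rw [div_le_iff₀ (by positivity)]
      calc S.card * √(12 / b + 3 * t * (b : ℝ) ^ 17) ≤ S.card * (19684 * eta ^ 5) :=
            mul_le_mul_of_nonneg_left hsq hS0
        _ = _ := by ring
    rw [← he2]
    have h7 : 0 ≤ (X.card : ℝ) * D * eta ^ 2 := by positivity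
    have h8 : 0 ≤ (S.card : ℝ) * eta ^ 2 := by positivity
    nlinarith
  calc _ ≤ (X.card : ℝ) ^ 3 * m ^ 4 * D * (L * N) ^ 2 *
        (20000 * ((X.card * D + S.card) * t ^ (1 / 90 : ℝ))) :=
        mul_le_mul_of_nonneg_left h5 (by positivity)
    _ = _ := by ring

end

end Vale.Agent.P141.H927
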