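import Vale.Agent.P141.H927.FewP
import Vale.Agent.P141.H651.FewBad

/-!
# P141, composite events, few singular values: the tested part of the octahedron sums

`good_sum`: the configurations with all mixed values comparable to the value at the pivot are
bounded by one test on a box per pivot; `octB_of`: the bound of the octahedron sums of a lift.
-/

namespace Vale.Agent.P141.H927

open Finset

noncomputable section

/-- comparable values: between `q / B` and `q B²` -/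
def Inn (q B v : ℝ) : Prop := q / B ≤ |v| ∧ |v| < q * B ^ 2

/-- the lower power of `b` below the absolute value -/
def lowq (b : ℕ) (v : ℝ) : ℝ := (b : ℝ) ^ Int.log b |v|

open Classical in
/-- all mixed values are comparable to the value at the pivot -/
def gd (b : ℕ) (F : ℤ → ℤ → ℤ → ℝ) (x x' y y' z z' : ℤ) : ℝ :=
  (ind (Inn (lowq b (F x' y' z')) b (F x y z')) * ind (Inn (lowq b (F x' y' z')) b (F x y' z')))
    * (ind (Inn (lowq b (F x' y' z')) b (F x y' z)) * ind (Inn (lowq b (F x' y' z')) b (F x' y' z)))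
    * (ind (Inn (lowq b (F x' y' z')) b (F x' y z)) *
      ind (Inn (lowq b (F x' y' z')) b (F x' y z')))

theorem lowq_pos {b : ℕ} (hb : 1 < b) (v : ℝ) : 0 < lowq b v := by
  unfold lowq
  have : (0 : ℝ) < b := by exact_mod_cast (by omega : 0 < b)
  positivity

theorem lowq_le {b : ℕ} (hb : 1 < b) {v : ℝ} (hv : v ≠ 0) : lowq b v ≤ |v| :=
  Int.zpow_log_le_self hb (abs_pos.mpr hv)

theorem lt_lowq {b : ℕ} (hb : 1 < b) {v : ℝ} : |v| < lowq b v * b := by
  have h := Int.lt_zpow_succ_log_self hb |v|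
  have hb0 : (b : ℝ) ≠ 0 := by
    have : (0 : ℝ) < b := by exact_mod_cast (by omega : 0 < b)
    exact this.ne'
  rw [zpow_add_one₀ hb0] at h
  exact h

/-- a configuration which is not good is bad, or the pivot value is zero -/
theorem bad_of_not {b : ℕ} (hb : 1 < b) (F : ℤ → ℤ → ℤ → ℝ) (x x' y y' z z' : ℤ)
    (hV : F x' y' z' ≠ 0) (h : gd b F x x' y y' z z' ≠ 1) :
    H651.Bad b F x x' y y' z z' := by
  classical
  set q := lowq b (F x' y' z') with hq
  have hb1 : (0 : ℝ) < b := by exact_mod_cast (by omega : 0 < b)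
  have hqp : 0 < q := lowq_pos hb _
  have key : ∀ v : ℝ, ¬ Inn q b v → (b : ℝ) * |v| ≤ |F x' y' z'| ∨ (b : ℝ) * |F x' y' z'| ≤ |v| := by
    intro v hv
    unfold Inn at hv
    rw [not_and_or, not_le, not_lt] at hv
    rcases hv with h1 | h1
    · left
      rw [lt_div_iff₀ hb1] at h1
      have := lowq_le hb hV
      rw [← hq] at this
      nlinarith
    · right
      have := lt_lowq hb (v := F x' y' z')
      rw [← hq] at this
      nlinarith
  have : ¬ (Inn q b (F x y z') ∧ Inn q b (F x y' z') ∧ Inn q b (F x y' z) ∧ Inn q b (F x' y' z) ∧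
      Inn q b (F x' y z) ∧ Inn q b (F x' y z')) := by
    rintro ⟨h1, h2, h3, h4, h5, h6⟩
    apply h
    unfold gd ind
    rw [← hq]
    simp [h1, h2, h3, h4, h5, h6]
  unfold H651.Bad
  by_contra hn
  apply this
  have hm : ∀ v ∈ [F x y z', F x y' z, F x' y z, F x y' z', F x' y z', F x' y' z], Inn q b v := by
    intro v hv
    by_contra h2
    exact hn ⟨v, hv, key v h2⟩
  exact ⟨hm _ (by simp), hm _ (by simp), hm _ (by simp), hm _ (by simp), hm _ (by simp),
    hm _ (by simp)⟩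

/-- the number of points of the window with comparable values -/
theorem card_inn {W : Finset ℤ} {f : ℤ → ℝ} {E q B : ℝ} (hq : 0 < q) (hB : 0 < B)
    (hE : ∑ y ∈ W, f y ^ 2 ≤ E) {n : ℕ} {V : Finset ℤ} (hV : V ⊆ W)
    (hV1 : ∀ w ∈ V, q / B ≤ |f w|) (hn : n ≤ V.card) : (n : ℝ) ≤ E * B ^ 2 / q ^ 2 := by
  rw [le_div_iff₀ (by positivity)]
  have h1 : (V.card : ℝ) * (q / B) ^ 2 ≤ E := by
    calc (V.card : ℝ) * (q / B) ^ 2 = ∑ _w ∈ V, (q / B) ^ 2 := by rw [sum_const, nsmul_eq_mul]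
      _ ≤ ∑ w ∈ V, f w ^ 2 := by
          refine sum_le_sum fun w hw => ?_
          rw [← sq_abs (f w)]
          exact pow_le_pow_left₀ (by positivity) (hV1 w hw) 2
      _ ≤ ∑ w ∈ W, f w ^ 2 := sum_le_sum_of_subset_of_nonneg hV fun w _ _ => sq_nonneg _
      _ ≤ E := hE
  have h2 : (n : ℝ) ≤ V.card := by exact_mod_cast hn
  have h3 : (n : ℝ) * (q / B) ^ 2 ≤ E :=
    (mul_le_mul_of_nonneg_right h2 (by positivity)).trans h1
  have h4 : (n : ℝ) * q ^ 2 = (n * (q / B) ^ 2) * B ^ 2 := by field_simp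
  rw [h4]
  exact mul_le_mul_of_nonneg_right h3 (by positivity)

theorem half_pow {n e : ℝ} (hn : 0 ≤ n) (h : n ≤ e) : n ^ 2 * √n ≤ e ^ 2 * √e := by
  have := Real.sqrt_le_sqrt h
  have h2 := pow_le_pow_left₀ hn h 2
  exact mul_le_mul h2 this (Real.sqrt_nonneg _) (by positivity)

/-- **one pivot** -/
theorem one_pivot {c : ℤ × ℤ × ℤ} (hc : c.1 ≠ 0 ∧ c.2.1 ≠ 0 ∧ c.2.2 ≠ 0)
    {I0 I1 I2 W : Finset ℤ}
    (hW : ∀ x ∈ I0, ∀ y ∈ I1, ∀ z ∈ I2, c.1 * x + c.2.1 * y + c.2.2 * z ∈ W)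
    {f : ℤ → ℝ} {E τ : ℝ} (hE : ∑ y ∈ W, f y ^ 2 ≤ E) (hτ : 0 ≤ τ)
    (hT : TestB τ I0 I1 I2 (lf c f)) {b : ℕ} (hb : 1 < b) {x' y' z' : ℤ} (hx' : x' ∈ I0)
    (hy' : y' ∈ I1) (hz' : z' ∈ I2) {α β γ : ℤ → ℤ → ℝ} (hα : ∀ x y, |α x y| ≤ 1)
    (hβ : ∀ x z, |β x z| ≤ 1) (hγ : ∀ y z, |γ y z| ≤ 1) :
    |∑ x ∈ I0, ∑ y ∈ I1, ∑ z ∈ I2, (α x y * β x z * γ y z) *
        (gd b (lf c f) x x' y y' z z' * o8 (lf c f) x x' y y' z z')| ≤
      τ * (b : ℝ) ^ 17 * (E ^ 2 * √E) * lf c f x' y' z' ^ 2 := by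
  classical
  have hE0 : 0 ≤ E := le_trans (sum_nonneg fun _ _ => sq_nonneg _) hE
  set F := lf c f with hF
  by_cases hV : F x' y' z' = 0
  · have : ∑ x ∈ I0, ∑ y ∈ I1, ∑ z ∈ I2, (α x y * β x z * γ y z) *
        (gd b F x x' y y' z z' * o8 F x x' y y' z z') = 0 := by
      refine sum_eq_zero fun x _ => sum_eq_zero fun y _ => sum_eq_zero fun z _ => ?_
      unfold o8
      rw [hV]
      ring
    rw [this, abs_zero, hV]
    simp
  set q := lowq b (F x' y' z') with hq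
  have hB1 : (0 : ℝ) < b := by exact_mod_cast (by omega : 0 < b)
  have hq0 : 0 < q := lowq_pos hb _
  set s : ℝ := q * (b : ℝ) ^ 2 with hs
  have hs0 : 0 < s := by positivity
  set A0 := I0.filter fun x => Inn q b (F x y' z') with hA0
  set A1 := I1.filter fun y => Inn q b (F x' y z') with hA1
  set A2 := I2.filter fun z => Inn q b (F x' y' z) with hA2
  set Wq := W.filter fun w => Inn q b (f w) with hWq
  have cd0 : A0.card ≤ Wq.card := by
    refine card_le_card_of_injOn (fun x => c.1 * x + c.2.1 * y' + c.2.2 * z') ?_ ?_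
    · intro x hx
      have h1 := mem_filter.mp (mem_coe.mp hx)
      exact mem_coe.mpr (mem_filter.mpr ⟨hW x h1.1 y' hy' z' hz', h1.2⟩)
    · intro p _ r _ hpr
      have : c.1 * p = c.1 * r := by simpa using hpr
      exact mul_left_cancel₀ hc.1 this
  have cd1 : A1.card ≤ Wq.card := by
    refine card_le_card_of_injOn (fun y => c.1 * x' + c.2.1 * y + c.2.2 * z') ?_ ?_
    · intro y hy
      have h1 := mem_filter.mp (mem_coe.mp hy)
      exact mem_coe.mpr (mem_filter.mpr ⟨hW x' hx' y h1.1 z' hz', h1.2⟩)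
    · intro p _ r _ hpr
      have : c.2.1 * p = c.2.1 * r := by simpa using hpr
      exact mul_left_cancel₀ hc.2.1 this
  have cd2 : A2.card ≤ Wq.card := by
    refine card_le_card_of_injOn (fun z => c.1 * x' + c.2.1 * y' + c.2.2 * z) ?_ ?_
    · intro z hz
      have h1 := mem_filter.mp (mem_coe.mp hz)
      exact mem_coe.mpr (mem_filter.mpr ⟨hW x' hx' y' hy' z h1.1, h1.2⟩)
    · intro p _ r _ hpr
      have : c.2.2 * p = c.2.2 * r := by simpa using hpr
      exact mul_left_cancel₀ hc.2.2 this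
  have cdn : (Wq.card : ℝ) ≤ E * (b : ℝ) ^ 2 / q ^ 2 :=
    card_inn hq0 hB1 hE (filter_subset _ _) (fun w hw => (mem_filter.mp hw).2.1) le_rfl
  have hI : ∀ v : ℝ, |ind (Inn q b v) * v| ≤ s := by
    intro v
    by_cases h : Inn q b v
    · have : ind (Inn q b v) = 1 := by unfold ind; rw [if_pos h]
      rw [this, one_mul]
      exact h.2.le
    · have : ind (Inn q b v) = 0 := by unfold ind; rw [if_neg h]
      rw [this, zero_mul, abs_zero]
      exact hs0.le
  have ht := hT A0 A1 A2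
    (fun x y => α x y * (ind (Inn q b (F x y z')) * F x y z') * F x y' z')
    (fun x z => β x z * (ind (Inn q b (F x y' z)) * F x y' z) * F x' y' z)
    (fun y z => γ y z * (ind (Inn q b (F x' y z)) * F x' y z) * F x' y z')
    (s ^ 2) (s ^ 2) (s ^ 2) Wq.card (filter_subset _ _) (filter_subset _ _) (filter_subset _ _)
    cd0 cd1 cd2 (by positivity) (by positivity) (by positivity)
    (by
      intro x hx y _
      rw [abs_mul, abs_mul]
      have h1 := (mem_filter.mp hx).2.2.le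
      calc |α x y| * |ind (Inn q b (F x y z')) * F x y z'| * |F x y' z'| ≤ 1 * s * s := by
            refine mul_le_mul (mul_le_mul (hα x y) (hI _) (abs_nonneg _) zero_le_one) h1
              (abs_nonneg _) (by positivity)
        _ = s ^ 2 := by ring)
    (by
      intro x _ z hz
      rw [abs_mul, abs_mul]
      have h1 := (mem_filter.mp hz).2.2.le
      calc |β x z| * |ind (Inn q b (F x y' z)) * F x y' z| * |F x' y' z| ≤ 1 * s * s := by
            refine mul_le_mul (mul_le_mul (hβ x z) (hI _) (abs_nonneg _) zero_le_one) h1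
              (abs_nonneg _) (by positivity)
        _ = s ^ 2 := by ring)
    (by
      intro y hy z _
      rw [abs_mul, abs_mul]
      have h1 := (mem_filter.mp hy).2.2.le
      calc |γ y z| * |ind (Inn q b (F x' y z)) * F x' y z| * |F x' y z'| ≤ 1 * s * s := by
            refine mul_le_mul (mul_le_mul (hγ y z) (hI _) (abs_nonneg _) zero_le_one) h1
              (abs_nonneg _) (by positivity)
        _ = s ^ 2 := by ring)
  have e1 : ∑ x ∈ I0, ∑ y ∈ I1, ∑ z ∈ I2, (α x y * β x z * γ y z) *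
        (gd b F x x' y y' z z' * o8 F x x' y y' z z') =
      F x' y' z' * ∑ x ∈ A0, ∑ y ∈ A1, ∑ z ∈ A2, F x y z *
        ((α x y * (ind (Inn q b (F x y z')) * F x y z') * F x y' z') *
          (β x z * (ind (Inn q b (F x y' z)) * F x y' z) * F x' y' z) *
          (γ y z * (ind (Inn q b (F x' y z)) * F x' y z) * F x' y z')) := by
    rw [mul_sum, hA0, sum_filter]
    refine sum_congr rfl fun x _ => ?_
    by_cases h0 : Inn q b (F x y' z')
    · rw [if_pos h0, mul_sum, hA1, sum_filter]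
      refine sum_congr rfl fun y _ => ?_
      by_cases h1 : Inn q b (F x' y z')
      · rw [if_pos h1, mul_sum, hA2, sum_filter]
        refine sum_congr rfl fun z _ => ?_
        by_cases h2 : Inn q b (F x' y' z)
        · rw [if_pos h2]
          unfold gd
          rw [← hq]
          have i0 : ind (Inn q b (F x y' z')) = 1 := by unfold ind; rw [if_pos h0]
          have i1 : ind (Inn q b (F x' y z')) = 1 := by unfold ind; rw [if_pos h1]
          have i2 : ind (Inn q b (F x' y' z)) = 1 := by unfold ind; rw [if_pos h2]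
          rw [i0, i1, i2]
          unfold o8
          ring
        · rw [if_neg h2]
          unfold gd
          rw [← hq]
          have i2 : ind (Inn q b (F x' y' z)) = 0 := by unfold ind; rw [if_neg h2]
          rw [i2]
          ring
      · rw [if_neg h1]
        refine sum_eq_zero fun z _ => ?_
        unfold gd
        rw [← hq]
        have i1 : ind (Inn q b (F x' y z')) = 0 := by unfold ind; rw [if_neg h1]
        rw [i1]
        ring
    · rw [if_neg h0]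
      refine sum_eq_zero fun y _ => sum_eq_zero fun z _ => ?_
      unfold gd
      rw [← hq]
      have i0 : ind (Inn q b (F x y' z')) = 0 := by unfold ind; rw [if_neg h0]
      rw [i0]
      ring
  rw [e1, abs_mul]
  have hV1 : q ≤ |F x' y' z'| := lowq_le hb hV
  have hn := half_pow (Nat.cast_nonneg Wq.card) cdn
  have hsq : √(E * (b : ℝ) ^ 2 / q ^ 2) = √E * b / q := by
    rw [Real.sqrt_div (by positivity), Real.sqrt_sq hq0.le, Real.sqrt_mul hE0,
      Real.sqrt_sq hB1.le]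
  rw [hsq] at hn
  calc |F x' y' z'| * |∑ x ∈ A0, ∑ y ∈ A1, ∑ z ∈ A2, F x y z *
        ((α x y * (ind (Inn q b (F x y z')) * F x y z') * F x y' z') *
          (β x z * (ind (Inn q b (F x y' z)) * F x y' z) * F x' y' z) *
          (γ y z * (ind (Inn q b (F x' y z)) * F x' y z) * F x' y z'))|
      ≤ |F x' y' z'| * (τ * (s ^ 2 * s ^ 2 * s ^ 2) * ((Wq.card : ℝ) ^ 2 * √(Wq.card : ℝ))) :=
        mul_le_mul_of_nonneg_left ht (abs_nonneg _)
    _ ≤ |F x' y' z'| * (τ * (s ^ 2 * s ^ 2 * s ^ 2) *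
        ((E * (b : ℝ) ^ 2 / q ^ 2) ^ 2 * (√E * b / q))) := by
        refine mul_le_mul_of_nonneg_left ?_ (abs_nonneg _)
        exact mul_le_mul_of_nonneg_left hn (by positivity)
    _ = (τ * (b : ℝ) ^ 17 * (E ^ 2 * √E)) * (|F x' y' z'| * q) := by
        rw [hs]
        field_simp
    _ ≤ (τ * (b : ℝ) ^ 17 * (E ^ 2 * √E)) * (|F x' y' z'| * |F x' y' z'|) := by
        refine mul_le_mul_of_nonneg_left ?_ (by positivity)
        exact mul_le_mul_of_nonneg_left hV1 (abs_nonneg _)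
    _ = _ := by rw [← sq, sq_abs]

theorem reorder6' (A B C : Finset ℤ) (H : ℤ → ℤ → ℤ → ℤ → ℤ → ℤ → ℝ) :
    ∑ x' ∈ A, ∑ y' ∈ B, ∑ z' ∈ C, ∑ x ∈ A, ∑ y ∈ B, ∑ z ∈ C, H x x' y y' z z' =
      ∑ y ∈ B, ∑ z ∈ C, ∑ x ∈ A, ∑ x' ∈ A, ∑ y' ∈ B, ∑ z' ∈ C, H x x' y y' z z' := by
  have h1 : ∑ x' ∈ A, ∑ y' ∈ B, ∑ z' ∈ C, ∑ x ∈ A, ∑ y ∈ B, ∑ z ∈ C, H x x' y y' z z' =
      ∑ p ∈ A ×ˢ B ×ˢ C ×ˢ A ×ˢ B ×ˢ C,
        H p.2.2.2.1 p.1 p.2.2.2.2.1 p.2.1 p.2.2.2.2.2 p.2.2.1 := by
    simp only [sum_product]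
  have h2 : ∑ y ∈ B, ∑ z ∈ C, ∑ x ∈ A, ∑ x' ∈ A, ∑ y' ∈ B, ∑ z' ∈ C, H x x' y y' z z' =
      ∑ p ∈ B ×ˢ C ×ˢ A ×ˢ A ×ˢ B ×ˢ C,
        H p.2.2.1 p.2.2.2.1 p.1 p.2.2.2.2.1 p.2.1 p.2.2.2.2.2 := by
    simp only [sum_product]
  rw [h1, h2]
  refine sum_nbij'
    (fun p => (p.2.2.2.2.1, p.2.2.2.2.2, p.2.2.2.1, p.1, p.2.1, p.2.2.1))
    (fun p => (p.2.2.2.1, p.2.2.2.2.1, p.2.2.2.2.2, p.2.2.1, p.1, p.2.1)) ?_ ?_ ?_ ?_ ?_
  · intro p hp
    simp only [mem_product] at hp ⊢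
    tauto
  · intro p hp
    simp only [mem_product] at hp ⊢
    tauto
  · intro p _; rfl
  · intro p _; rfl
  · intro p _; rfl

theorem gd_nonneg (b : ℕ) (F : ℤ → ℤ → ℤ → ℝ) (x x' y y' z z' : ℤ) :
    0 ≤ gd b F x x' y y' z z' := by
  classical
  unfold gd
  exact mul_nonneg (mul_nonneg (mul_nonneg (ind_nonneg _) (ind_nonneg _))
    (mul_nonneg (ind_nonneg _) (ind_nonneg _))) (mul_nonneg (ind_nonneg _) (ind_nonneg _))

theorem gd_le_one (b : ℕ) (F : ℤ → ℤ → ℤ → ℝ) (x x' y y' z z' : ℤ) :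
    gd b F x x' y y' z z' ≤ 1 := by
  classical
  unfold gd
  have h := fun (p : Prop) [Decidable p] => ind_le_one p
  have h0 := fun (p : Prop) [Decidable p] => ind_nonneg p
  exact mul_le_one₀ (mul_le_one₀ (mul_le_one₀ (h _) (h0 _) (h _))
    (mul_nonneg (h0 _) (h0 _)) (mul_le_one₀ (h _) (h0 _) (h _)))
    (mul_nonneg (h0 _) (h0 _)) (mul_le_one₀ (h _) (h0 _) (h _))

/-- **The bound of the octahedron sums of a lift.** -/
theorem octB_of {c : ℤ × ℤ × ℤ} (hc : c.1 ≠ 0 ∧ c.2.1 ≠ 0 ∧ c.2.2 ≠ 0)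
    {I0 I1 I2 W : Finset ℤ}
    (hW : ∀ x ∈ I0, ∀ y ∈ I1, ∀ z ∈ I2, c.1 * x + c.2.1 * y + c.2.2 * z ∈ W)
    {f : ℤ → ℝ} {E τ : ℝ} (hE : ∑ y ∈ W, f y ^ 2 ≤ E) (hτ : 0 ≤ τ)
    (hT : TestB τ I0 I1 I2 (lf c f)) {b : ℕ} (hb : 1 < b) :
    OctB (12 * E ^ 4 / b + τ * (b : ℝ) ^ 17 * (E ^ 3 * √E)) I0 I1 I2 (lf c f) := by
  intro S α β γ hS hα hβ hγ hγS
  classical
  have hE0 : 0 ≤ E := le_trans (sum_nonneg fun _ _ => sq_nonneg _) hE
  have hB1 : (0 : ℝ) < b := by exact_mod_cast (by omega : 0 < b)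
  have hB2 : (1 : ℝ) ≤ b := by exact_mod_cast (by omega : 1 ≤ b)
  set F := lf c f with hF
  -- the two parts
  have e1 : ∑ x' ∈ I0, ∑ q ∈ S, ∑ x ∈ I0, ∑ y ∈ I1, ∑ z ∈ I2,
        (α (x', q) x y * β (x', q) x z * γ (x', q) y z) * o8 F x x' y q.1 z q.2 =
      (∑ x' ∈ I0, ∑ q ∈ S, ∑ x ∈ I0, ∑ y ∈ I1, ∑ z ∈ I2,
        (α (x', q) x y * β (x', q) x z * γ (x', q) y z) *
          (gd b F x x' y q.1 z q.2 * o8 F x x' y q.1 z q.2)) +
      ∑ x' ∈ I0, ∑ q ∈ S, ∑ x ∈ I0, ∑ y ∈ I1, ∑ z ∈ I2,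
        (α (x', q) x y * β (x', q) x z * γ (x', q) y z) *
          ((1 - gd b F x x' y q.1 z q.2) * o8 F x x' y q.1 z q.2) := by
    rw [← sum_add_distrib]
    refine sum_congr rfl fun x' _ => ?_
    rw [← sum_add_distrib]
    refine sum_congr rfl fun q _ => ?_
    rw [← sum_add_distrib]
    refine sum_congr rfl fun x _ => ?_
    rw [← sum_add_distrib]
    refine sum_congr rfl fun y _ => ?_
    rw [← sum_add_distrib]
    refine sum_congr rfl fun z _ => ?_
    ring
  rw [e1]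
  refine (abs_add_le _ _).trans ?_
  have g1 : |∑ x' ∈ I0, ∑ q ∈ S, ∑ x ∈ I0, ∑ y ∈ I1, ∑ z ∈ I2,
        (α (x', q) x y * β (x', q) x z * γ (x', q) y z) *
          (gd b F x x' y q.1 z q.2 * o8 F x x' y q.1 z q.2)| ≤
      τ * (b : ℝ) ^ 17 * (E ^ 3 * √E) * S.card := by
    calc |∑ x' ∈ I0, ∑ q ∈ S, ∑ x ∈ I0, ∑ y ∈ I1, ∑ z ∈ I2,
          (α (x', q) x y * β (x', q) x z * γ (x', q) y z) *
            (gd b F x x' y q.1 z q.2 * o8 F x x' y q.1 z q.2)|
        ≤ ∑ x' ∈ I0, ∑ q ∈ S, |∑ x ∈ I0, ∑ y ∈ I1, ∑ z ∈ I2,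
          (α (x', q) x y * β (x', q) x z * γ (x', q) y z) *
            (gd b F x x' y q.1 z q.2 * o8 F x x' y q.1 z q.2)| :=
          (abs_sum_le_sum_abs _ _).trans (sum_le_sum fun x' _ => abs_sum_le_sum_abs _ _)
      _ ≤ ∑ x' ∈ I0, ∑ q ∈ S, τ * (b : ℝ) ^ 17 * (E ^ 2 * √E) * F x' q.1 q.2 ^ 2 := by
          refine sum_le_sum fun x' hx' => sum_le_sum fun q hq => ?_
          have hq2 := mem_product.mp (hS hq)
          exact one_pivot hc hW hE hτ hT hb hx' hq2.1 hq2.2 (hα _) (hβ _) (hγ _)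
      _ = ∑ q ∈ S, τ * (b : ℝ) ^ 17 * (E ^ 2 * √E) * ∑ x' ∈ I0, F x' q.1 q.2 ^ 2 := by
          rw [sum_comm]
          exact sum_congr rfl fun q _ => by rw [mul_sum]
      _ ≤ ∑ _q ∈ S, τ * (b : ℝ) ^ 17 * (E ^ 2 * √E) * E := by
          refine sum_le_sum fun q hq => mul_le_mul_of_nonneg_left ?_ (by positivity)
          have hq2 := mem_product.mp (hS hq)
          exact line_sq hE (e := fun x' => c.1 * x' + c.2.1 * q.1 + c.2.2 * q.2)
            (fun p _ r _ hpr => by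
              have : c.1 * p = c.1 * r := by simpa using hpr
              exact mul_left_cancel₀ hc.1 this)
            (fun x' hx' => hW x' hx' _ hq2.1 _ hq2.2)
      _ = _ := by rw [sum_const, nsmul_eq_mul]; ring
  have g2 : |∑ x' ∈ I0, ∑ q ∈ S, ∑ x ∈ I0, ∑ y ∈ I1, ∑ z ∈ I2,
        (α (x', q) x y * β (x', q) x z * γ (x', q) y z) *
          ((1 - gd b F x x' y q.1 z q.2) * o8 F x x' y q.1 z q.2)| ≤
      12 * E ^ 4 / b * S.card := by
    set w : ℤ → ℤ → ℤ → ℤ → ℤ → ℤ → ℝ := fun x x' y y' z z' =>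
      if F x' y' z' = 0 then 0 else 1 - gd b F x x' y y' z z' with hw
    have hpt : ∀ x' q x y z, |(α (x', q) x y * β (x', q) x z * γ (x', q) y z) *
          ((1 - gd b F x x' y q.1 z q.2) * o8 F x x' y q.1 z q.2)| ≤
        ind ((y, z) ∈ S) * |w x x' y q.1 z q.2 * o8 F x x' y q.1 z q.2| := by
      intro x' q x y z
      by_cases h0 : F x' q.1 q.2 = 0
      · have : o8 F x x' y q.1 z q.2 = 0 := by unfold o8; rw [h0]; ring
        rw [this]
        simp
      · by_cases h1 : (y, z) ∈ S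
        · have i1 : ind ((y, z) ∈ S) = 1 := by unfold ind; rw [if_pos h1]
          have hww : w x x' y q.1 z q.2 = 1 - gd b F x x' y q.1 z q.2 := by
            rw [hw]; simp only [h0, if_false]
          rw [i1, one_mul, hww, abs_mul]
          calc |α (x', q) x y * β (x', q) x z * γ (x', q) y z| *
                |(1 - gd b F x x' y q.1 z q.2) * o8 F x x' y q.1 z q.2|
              ≤ 1 * |(1 - gd b F x x' y q.1 z q.2) * o8 F x x' y q.1 z q.2| :=
                mul_le_mul_of_nonneg_right (abs_le_one_mul (abs_le_one_mul (hα _ _ _) (hβ _ _ _))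
                  (hγ _ _ _)) (abs_nonneg _)
            _ = _ := one_mul _
        · have h2 : γ (x', q) y z = 0 := by
            by_contra h3
            exact h1 (hγS _ _ _ h3)
          rw [h2]
          simp only [mul_zero, zero_mul, abs_zero]
          exact mul_nonneg (ind_nonneg _) (abs_nonneg _)
    calc |∑ x' ∈ I0, ∑ q ∈ S, ∑ x ∈ I0, ∑ y ∈ I1, ∑ z ∈ I2,
          (α (x', q) x y * β (x', q) x z * γ (x', q) y z) *
            ((1 - gd b F x x' y q.1 z q.2) * o8 F x x' y q.1 z q.2)|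
        ≤ ∑ x' ∈ I0, ∑ q ∈ S, ∑ x ∈ I0, ∑ y ∈ I1, ∑ z ∈ I2,
          |(α (x', q) x y * β (x', q) x z * γ (x', q) y z) *
            ((1 - gd b F x x' y q.1 z q.2) * o8 F x x' y q.1 z q.2)| :=
          (abs_sum_le_sum_abs _ _).trans (sum_le_sum fun x' _ => (abs_sum_le_sum_abs _ _).trans
            (sum_le_sum fun q _ => (abs_sum_le_sum_abs _ _).trans (sum_le_sum fun x _ =>
              (abs_sum_le_sum_abs _ _).trans (sum_le_sum fun y _ => abs_sum_le_sum_abs _ _))))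
      _ ≤ ∑ x' ∈ I0, ∑ q ∈ S, ∑ x ∈ I0, ∑ y ∈ I1, ∑ z ∈ I2,
          ind ((y, z) ∈ S) * |w x x' y q.1 z q.2 * o8 F x x' y q.1 z q.2| :=
          sum_le_sum fun x' _ => sum_le_sum fun q _ => sum_le_sum fun x _ => sum_le_sum fun y _ =>
            sum_le_sum fun z _ => hpt x' q x y z
      _ ≤ ∑ x' ∈ I0, ∑ q ∈ I1 ×ˢ I2, ∑ x ∈ I0, ∑ y ∈ I1, ∑ z ∈ I2,
          ind ((y, z) ∈ S) * |w x x' y q.1 z q.2 * o8 F x x' y q.1 z q.2| :=
          sum_le_sum fun x' _ => sum_le_sum_of_subset_of_nonneg hS fun q _ _ =>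
            sum_nonneg fun _ _ => sum_nonneg fun _ _ => sum_nonneg fun _ _ =>
              mul_nonneg (ind_nonneg _) (abs_nonneg _)
      _ = ∑ x' ∈ I0, ∑ y' ∈ I1, ∑ z' ∈ I2, ∑ x ∈ I0, ∑ y ∈ I1, ∑ z ∈ I2,
          ind ((y, z) ∈ S) * |w x x' y y' z z' * o8 F x x' y y' z z'| :=
          sum_congr rfl fun x' _ => by rw [sum_product]
      _ = ∑ y ∈ I1, ∑ z ∈ I2, ∑ x ∈ I0, ∑ x' ∈ I0, ∑ y' ∈ I1, ∑ z' ∈ I2,
          ind ((y, z) ∈ S) * |w x x' y y' z z' * o8 F x x' y y' z z'| := reorder6' _ _ _ _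
      _ = ∑ q ∈ S, ∑ x ∈ I0, ∑ x' ∈ I0, ∑ y' ∈ I1, ∑ z' ∈ I2,
          |w x x' q.1 y' q.2 z' * o8 F x x' q.1 y' q.2 z'| := by
          rw [sum_ind hS, sum_product]
          refine sum_congr rfl fun y _ => sum_congr rfl fun z _ => ?_
          rw [mul_sum]
          refine sum_congr rfl fun x _ => ?_
          rw [mul_sum]
          refine sum_congr rfl fun x' _ => ?_
          rw [mul_sum]
          refine sum_congr rfl fun y' _ => ?_
          rw [mul_sum]
      _ ≤ ∑ _q ∈ S, 12 * E ^ 4 / b := by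
          refine sum_le_sum fun q hq => ?_
          have hq2 := mem_product.mp (hS hq)
          refine H651.bad_sum hc hW hE hB2 hq2.1 hq2.2 (fun x x' y' z' => w x x' q.1 y' q.2 z')
            ?_ ?_
          · intro x x' y' z' h
            have hV : F x' y' z' ≠ 0 := by
              intro h1
              apply h
              rw [hw]; simp only [h1, if_true]
            refine bad_of_not hb F x x' q.1 y' q.2 z' hV ?_
            intro h1
            apply h
            rw [hw]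
            simp only [hV, if_false, h1, sub_self]
          · intro x x' y' z'
            rw [hw]
            dsimp only
            split_ifs
            · simp
            · have h1 := gd_nonneg b F x x' q.1 y' q.2 z'
              have h2 := gd_le_one b F x x' q.1 y' q.2 z'
              rw [abs_le]
              constructor <;> linarith
      _ = _ := by rw [sum_const, nsmul_eq_mul]; ring
  calc _ ≤ τ * (b : ℝ) ^ 17 * (E ^ 3 * √E) * S.card + 12 * E ^ 4 / b * S.card := add_le_add g1 g2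
    _ = _ := by ring

end

end Vale.Agent.P141.H927
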