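import Vale.Agent.P141.H927.FewC

/-!
# P141, composite events, few singular values: popular differences of a lift

`hi H f`: the part of a function of height at least `H`; `Rd W H f h`: its autocorrelation on a
window; `popS`: the differences of a set with large autocorrelation; `popS_card`, `line_pair`;
`few_lift`: the bound for lifts in terms of the bound of the octahedron sums.
-/

namespace Vale.Agent.P141.H927

open Finset

noncomputable section

/-- the part of height at least `H`, absolute value -/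
def hi (H : ℝ) (f : ℤ → ℝ) (y : ℤ) : ℝ := if H ≤ |f y| then |f y| else 0

theorem hi_nonneg (H : ℝ) (f : ℤ → ℝ) (y : ℤ) : 0 ≤ hi H f y := by
  unfold hi; split_ifs
  · exact abs_nonneg _
  · exact le_rfl

theorem hi_le {H : ℝ} (hH : 0 < H) (f : ℤ → ℝ) (y : ℤ) : hi H f y ≤ f y ^ 2 / H := by
  unfold hi
  split_ifs with h
  · rw [le_div_iff₀ hH]
    calc |f y| * H ≤ |f y| * |f y| := mul_le_mul_of_nonneg_left h (abs_nonneg _)
      _ = f y ^ 2 := by rw [← sq, sq_abs]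
  · positivity

/-- the autocorrelation of the high part on a window -/
def Rd (W : Finset ℤ) (H : ℝ) (f : ℤ → ℝ) (h : ℤ) : ℝ :=
  ∑ y ∈ W, hi H f y * (if y + h ∈ W then hi H f (y + h) else 0)

theorem sum_hi {W : Finset ℤ} {f : ℤ → ℝ} {E H : ℝ} (hH : 0 < H) (hE : ∑ y ∈ W, f y ^ 2 ≤ E) :
    ∑ y ∈ W, hi H f y ≤ E / H :=
  calc ∑ y ∈ W, hi H f y ≤ ∑ y ∈ W, f y ^ 2 / H := sum_le_sum fun y _ => hi_le hH f y
    _ = (∑ y ∈ W, f y ^ 2) / H := by rw [sum_div]
    _ ≤ E / H := div_le_div_of_nonneg_right hE hH.le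

/-- the sum of the autocorrelation over any set of steps -/
theorem sum_Rd {W Δ : Finset ℤ} {f : ℤ → ℝ} {E H : ℝ} (hH : 0 < H) (hE0 : 0 ≤ E)
    (hE : ∑ y ∈ W, f y ^ 2 ≤ E) {c : ℤ} (hc : c ≠ 0) :
    ∑ h ∈ Δ, Rd W H f (c * h) ≤ (E / H) ^ 2 := by
  have hs := sum_hi hH hE
  have h1 : ∀ y ∈ W, ∑ h ∈ Δ, (if y + c * h ∈ W then hi H f (y + c * h) else 0) ≤ E / H := by
    intro y _
    rw [← sum_filter]
    have h2 : ∑ h ∈ Δ.filter (fun h => y + c * h ∈ W), hi H f (y + c * h) =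
        ∑ w ∈ (Δ.filter (fun h => y + c * h ∈ W)).image (fun h => y + c * h), hi H f w := by
      rw [sum_image]
      intro a _ b _ hab
      have : c * a = c * b := by simpa using hab
      exact mul_left_cancel₀ hc this
    rw [h2]
    refine le_trans (sum_le_sum_of_subset_of_nonneg ?_ fun w _ _ => hi_nonneg H f w) hs
    intro w hw
    obtain ⟨h, hh, rfl⟩ := mem_image.mp hw
    exact (mem_filter.mp hh).2
  unfold Rd
  rw [sum_comm]
  calc ∑ y ∈ W, ∑ h ∈ Δ, hi H f y * (if y + c * h ∈ W then hi H f (y + c * h) else 0)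
      = ∑ y ∈ W, hi H f y * ∑ h ∈ Δ, (if y + c * h ∈ W then hi H f (y + c * h) else 0) :=
        sum_congr rfl fun y _ => by rw [mul_sum]
    _ ≤ ∑ y ∈ W, hi H f y * (E / H) :=
        sum_le_sum fun y hy => mul_le_mul_of_nonneg_left (h1 y hy) (hi_nonneg H f y)
    _ = (∑ y ∈ W, hi H f y) * (E / H) := by rw [sum_mul]
    _ ≤ (E / H) * (E / H) := mul_le_mul_of_nonneg_right hs (by positivity)
    _ = _ := by ring

/-- the popular differences of a set -/
def popS (W : Finset ℤ) (H : ℝ) (f : ℤ → ℝ) (c : ℤ) (lam : ℝ) (I : Finset ℤ) : Finset ℤ :=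
  ((I ×ˢ I).image fun p => p.2 - p.1).filter fun h => lam ≤ Rd W H f (c * h)

theorem popS_card {W I : Finset ℤ} {f : ℤ → ℝ} {E H lam : ℝ} (hH : 0 < H) (hE0 : 0 ≤ E)
    (hE : ∑ y ∈ W, f y ^ 2 ≤ E) {c : ℤ} (hc : c ≠ 0) (hl : 0 < lam) :
    ((popS W H f c lam I).card : ℝ) ≤ (E / H) ^ 2 / lam := by
  rw [le_div_iff₀ hl]
  calc ((popS W H f c lam I).card : ℝ) * lam = ∑ _h ∈ popS W H f c lam I, lam := by
        rw [sum_const, nsmul_eq_mul]
    _ ≤ ∑ h ∈ popS W H f c lam I, Rd W H f (c * h) :=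
        sum_le_sum fun h hh => (mem_filter.mp hh).2
    _ ≤ _ := sum_Rd hH hE0 hE hc

theorem not_popS {W I : Finset ℤ} {f : ℤ → ℝ} {H lam : ℝ} {c y y' : ℤ} (hy : y ∈ I)
    (hy' : y' ∈ I) (h : y' - y ∉ popS W H f c lam I) : Rd W H f (c * (y' - y)) ≤ lam := by
  by_contra h1
  refine h (mem_filter.mpr ⟨mem_image.mpr ⟨(y, y'), mem_product.mpr ⟨hy, hy'⟩, rfl⟩, ?_⟩)
  exact (not_le.mp h1).le

/-- the sum over a line of the square of a lift -/
theorem line_sq {W A : Finset ℤ} {f : ℤ → ℝ} {E : ℝ} (hE : ∑ y ∈ W, f y ^ 2 ≤ E) {e : ℤ → ℤ}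
    (he : Set.InjOn e A) (hW : ∀ z ∈ A, e z ∈ W) : ∑ z ∈ A, f (e z) ^ 2 ≤ E := by
  have h1 : ∑ z ∈ A, f (e z) ^ 2 = ∑ w ∈ A.image e, f w ^ 2 := by
    rw [sum_image (fun a ha b hb hab => he ha hb hab)]
  rw [h1]
  refine le_trans (sum_le_sum_of_subset_of_nonneg ?_ fun w _ _ => sq_nonneg _) hE
  intro w hw
  obtain ⟨z, hz, rfl⟩ := mem_image.mp hw
  exact hW z hz

/-- the products of two parallel lines of a lift -/
theorem line_pair {W A : Finset ℤ} {f : ℤ → ℝ} {E H D : ℝ} (hH : 0 < H)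
    (hE : ∑ y ∈ W, f y ^ 2 ≤ E) {e : ℤ → ℤ} (he : Set.InjOn e A) {h : ℤ}
    (hW : ∀ z ∈ A, e z ∈ W) (hW' : ∀ z ∈ A, e z + h ∈ W) (hA : (A.card : ℝ) ≤ D) :
    ∑ z ∈ A, |f (e z) * f (e z + h)| ≤ Rd W H f h + 2 * (H * √(D * E)) := by
  have he' : Set.InjOn (fun z => e z + h) A := fun a ha b hb hab => he ha hb (by simpa using hab)
  have h1 : ∀ z ∈ A, |f (e z) * f (e z + h)| ≤ hi H f (e z) * hi H f (e z + h) +
      (H * |f (e z + h)| + H * |f (e z)|) := by
    intro z _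
    have a1 := abs_nonneg (f (e z))
    have a2 := abs_nonneg (f (e z + h))
    have b1 := hi_nonneg H f (e z)
    have b2 := hi_nonneg H f (e z + h)
    rw [abs_mul]
    by_cases c1 : H ≤ |f (e z)|
    · by_cases c2 : H ≤ |f (e z + h)|
      · have d1 : hi H f (e z) = |f (e z)| := by unfold hi; rw [if_pos c1]
        have d2 : hi H f (e z + h) = |f (e z + h)| := by unfold hi; rw [if_pos c2]
        rw [d1, d2]
        have := mul_nonneg hH.le a1
        have := mul_nonneg hH.le a2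
        linarith
      · have h3 : |f (e z)| * |f (e z + h)| ≤ |f (e z)| * H :=
          mul_le_mul_of_nonneg_left (not_le.mp c2).le a1
        have := mul_nonneg b1 b2
        have := mul_nonneg hH.le a2
        linarith
    · have h3 : |f (e z)| * |f (e z + h)| ≤ H * |f (e z + h)| :=
        mul_le_mul_of_nonneg_right (not_le.mp c1).le a2
      have := mul_nonneg b1 b2
      have := mul_nonneg hH.le a1
      linarith
  have h2 : ∑ z ∈ A, hi H f (e z) * hi H f (e z + h) ≤ Rd W H f h := by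
    have e1 : ∑ z ∈ A, hi H f (e z) * hi H f (e z + h) =
        ∑ w ∈ A.image e, hi H f w * (if w + h ∈ W then hi H f (w + h) else 0) := by
      rw [sum_image (fun a ha b hb hab => he ha hb hab)]
      exact sum_congr rfl fun z hz => by rw [if_pos (hW' z hz)]
    rw [e1]
    unfold Rd
    refine sum_le_sum_of_subset_of_nonneg ?_ fun w _ _ => ?_
    · intro w hw
      obtain ⟨z, hz, rfl⟩ := mem_image.mp hw
      exact hW z hz
    · refine mul_nonneg (hi_nonneg _ _ _) ?_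
      split_ifs
      · exact hi_nonneg _ _ _
      · exact le_rfl
  have h3 : ∀ e' : ℤ → ℤ, Set.InjOn e' A → (∀ z ∈ A, e' z ∈ W) →
      ∑ z ∈ A, H * |f (e' z)| ≤ H * √(D * E) := by
    intro e' he1 he2
    rw [← mul_sum]
    refine mul_le_mul_of_nonneg_left ?_ hH.le
    refine Real.le_sqrt_of_sq_le ?_
    have h4 : (∑ z ∈ A, |f (e' z)|) ^ 2 ≤ A.card * ∑ z ∈ A, |f (e' z)| ^ 2 :=
      sq_sum_le_card_mul_sum_sq
    simp only [sq_abs] at h4
    refine h4.trans (mul_le_mul hA (line_sq hE he1 he2) (sum_nonneg fun _ _ => sq_nonneg _)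
      (le_trans (Nat.cast_nonneg _) hA))
  have h5 := h3 e he hW
  have h6 := h3 (fun z => e z + h) he' hW'
  calc ∑ z ∈ A, |f (e z) * f (e z + h)|
      ≤ ∑ z ∈ A, (hi H f (e z) * hi H f (e z + h) +
        (H * |f (e z + h)| + H * |f (e z)|)) := sum_le_sum h1
    _ = (∑ z ∈ A, hi H f (e z) * hi H f (e z + h)) +
        ((∑ z ∈ A, H * |f (e z + h)|) + ∑ z ∈ A, H * |f (e z)|) := by
        rw [sum_add_distrib, sum_add_distrib]
    _ ≤ _ := by linarith

/-- **the bound for lifts, in terms of the bound of the octahedron sums** -/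
theorem few_lift {c : ℤ × ℤ × ℤ} {f : ℤ → ℝ} (hc1 : c.2.1 ≠ 0) (hc2 : c.2.2 ≠ 0)
    {I0 I1 I2 W : Finset ℤ}
    (hW : ∀ x ∈ I0, ∀ y ∈ I1, ∀ z ∈ I2, c.1 * x + c.2.1 * y + c.2.2 * z ∈ W) {E K : ℝ}
    (hE0 : 0 < E) (hE : ∑ y ∈ W, f y ^ 2 ≤ E) (hO : OctB K I0 I1 I2 (lf c f)) (hK : 0 ≤ K)
    {X : Finset ℤ} (hX : X ⊆ I0) {D1 D2 : ℤ → Finset ℤ} (hD1 : ∀ x ∈ X, D1 x ⊆ I1)
    (hD2 : ∀ x ∈ X, D2 x ⊆ I2) {D : ℝ} (hD0 : 0 < D) (hd1 : ∀ x ∈ X, ((D1 x).card : ℝ) ≤ D)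
    (hd2 : ∀ x ∈ X, ((D2 x).card : ℝ) ≤ D) {S : Finset (ℤ × ℤ)} (hS : S ⊆ I1 ×ˢ I2)
    {a : ℤ → ℤ → ℝ} {m : ℝ} (hm : 0 ≤ m) (ha : ∀ y z, |a y z| ≤ m)
    (haS : ∀ y z, a y z ≠ 0 → (y, z) ∈ S)
    {φ ψ : ℤ → ℤ → ℝ} (hφ : ∀ x ∈ X, ∑ y ∈ D1 x, φ x y ^ 2 ≤ 1)
    (hψ : ∀ x ∈ X, ∑ z ∈ D2 x, ψ x z ^ 2 ≤ 1) {eta : ℝ} (he : 0 < eta) :
    (∑ x ∈ X, ∑ y ∈ D1 x, ∑ z ∈ D2 x, a y z * lf c f x y z * φ x y * ψ x z) ^ 4 ≤
      (X.card : ℝ) ^ 3 * m ^ 4 * D *
        (18 * X.card * D * E ^ 2 * eta ^ 2 + S.card * √K / eta ^ 3) := by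
  have hDE : 0 < D * E := by positivity
  have hs : 0 < √(D * E) := Real.sqrt_pos.mpr hDE
  set lam : ℝ := eta * E with hlam
  have hl : 0 < lam := by positivity
  set H : ℝ := lam / √(D * E) with hH1
  have hH : 0 < H := by positivity
  have hHs : H * √(D * E) = lam := by rw [hH1]; field_simp
  have hH2 : H ^ 2 * (D * E) = lam ^ 2 := by
    rw [← hHs, mul_pow, Real.sq_sqrt hDE.le]
  -- the popular sets
  have hpc : ∀ (c' : ℤ) (I : Finset ℤ), c' ≠ 0 →
      ((popS W H f c' lam I).card : ℝ) ≤ D / eta ^ 3 := by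
    intro c' I hc'
    refine (popS_card hH hE0.le hE hc' hl).trans (le_of_eq ?_)
    have h1 : H ^ 2 = lam ^ 2 / (D * E) := by rw [← hH2]; field_simp
    rw [div_pow, h1, hlam]
    field_simp
  have hB : ∀ x ∈ X, ∀ y ∈ I1, ∀ y' ∈ I1, y' - y ∉ popS W H f c.2.1 lam I1 →
      ∑ z ∈ D2 x, |lf c f x y z * lf c f x y' z| ≤ 3 * lam := by
    intro x hx y hy y' hy' hn
    have h1 := line_pair (W := W) (A := D2 x) (f := f) (E := E) (H := H) (D := D) hH hE
      (e := fun z => c.1 * x + c.2.1 * y + c.2.2 * z)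
      (fun p _ q _ hpq => by
        have : c.2.2 * p = c.2.2 * q := by simpa using hpq
        exact mul_left_cancel₀ hc2 this)
      (h := c.2.1 * (y' - y))
      (fun z hz => hW x (hX hx) y hy z (hD2 x hx hz))
      (fun z hz => by
        have := hW x (hX hx) y' hy' z (hD2 x hx hz)
        have e1 : c.1 * x + c.2.1 * y + c.2.2 * z + c.2.1 * (y' - y) =
          c.1 * x + c.2.1 * y' + c.2.2 * z := by ring
        show c.1 * x + c.2.1 * y + c.2.2 * z + c.2.1 * (y' - y) ∈ W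
        rw [e1]; exact this)
      (hd2 x hx)
    have h2 := not_popS hy hy' hn
    calc ∑ z ∈ D2 x, |lf c f x y z * lf c f x y' z|
        = ∑ z ∈ D2 x, |f (c.1 * x + c.2.1 * y + c.2.2 * z) *
            f (c.1 * x + c.2.1 * y + c.2.2 * z + c.2.1 * (y' - y))| := by
          refine sum_congr rfl fun z _ => ?_
          unfold lf
          rw [show c.1 * x + c.2.1 * y + c.2.2 * z + c.2.1 * (y' - y) =
            c.1 * x + c.2.1 * y' + c.2.2 * z by ring]
      _ ≤ _ := h1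
      _ ≤ lam + 2 * lam := by rw [hHs]; linarith
      _ = 3 * lam := by ring
  have hB' : ∀ x ∈ X, ∀ z ∈ I2, ∀ z' ∈ I2, z' - z ∉ popS W H f c.2.2 lam I2 →
      ∑ y ∈ D1 x, |lf c f x y z * lf c f x y z'| ≤ 3 * lam := by
    intro x hx z hz z' hz' hn
    have h1 := line_pair (W := W) (A := D1 x) (f := f) (E := E) (H := H) (D := D) hH hE
      (e := fun y => c.1 * x + c.2.1 * y + c.2.2 * z)
      (fun p _ q _ hpq => by
        have : c.2.1 * p = c.2.1 * q := by simpa using hpq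
        exact mul_left_cancel₀ hc1 this)
      (h := c.2.2 * (z' - z))
      (fun y hy => hW x (hX hx) y (hD1 x hx hy) z hz)
      (fun y hy => by
        have := hW x (hX hx) y (hD1 x hx hy) z' hz'
        have e1 : c.1 * x + c.2.1 * y + c.2.2 * z + c.2.2 * (z' - z) =
          c.1 * x + c.2.1 * y + c.2.2 * z' := by ring
        show c.1 * x + c.2.1 * y + c.2.2 * z + c.2.2 * (z' - z) ∈ W
        rw [e1]; exact this)
      (hd1 x hx)
    have h2 := not_popS hz hz' hn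
    calc ∑ y ∈ D1 x, |lf c f x y z * lf c f x y z'|
        = ∑ y ∈ D1 x, |f (c.1 * x + c.2.1 * y + c.2.2 * z) *
            f (c.1 * x + c.2.1 * y + c.2.2 * z + c.2.2 * (z' - z))| := by
          refine sum_congr rfl fun y _ => ?_
          unfold lf
          rw [show c.1 * x + c.2.1 * y + c.2.2 * z + c.2.2 * (z' - z) =
            c.1 * x + c.2.1 * y + c.2.2 * z' by ring]
      _ ≤ _ := h1
      _ ≤ lam + 2 * lam := by rw [hHs]; linarith
      _ = 3 * lam := by ring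
  have key := few_abs hO hX hD1 hD2 hd1 hd2 hS hm ha haS hB hB' hφ hψ
  refine key.trans ?_
  have hp1 := hpc c.2.1 I1 hc1
  have hp2 := hpc c.2.2 I2 hc2
  have hsq : √(((popS W H f c.2.1 lam I1).card : ℝ) * (popS W H f c.2.2 lam I2).card * K) ≤
      D / eta ^ 3 * √K := by
    calc √(((popS W H f c.2.1 lam I1).card : ℝ) * (popS W H f c.2.2 lam I2).card * K)
        ≤ √((D / eta ^ 3) ^ 2 * K) := by
          refine Real.sqrt_le_sqrt (mul_le_mul_of_nonneg_right ?_ hK)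
          rw [sq]
          exact mul_le_mul hp1 hp2 (Nat.cast_nonneg _) (by positivity)
      _ = D / eta ^ 3 * √K := by
          rw [Real.sqrt_mul (sq_nonneg _), Real.sqrt_sq (by positivity)]
  have e1 : (X.card : ℝ) ^ 3 * m ^ 4 * D *
      (18 * X.card * D * E ^ 2 * eta ^ 2 + S.card * √K / eta ^ 3) =
      (X.card : ℝ) ^ 3 * (X.card * (2 * (D ^ 2 * (m ^ 2 * (3 * lam)) ^ 2)) +
        m ^ 4 * S.card * (D / eta ^ 3 * √K)) := by
    rw [hlam]
    field_simp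
    ring
  rw [e1]
  gcongr

end

end Vale.Agent.P141.H927
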