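import Vale.Agent.P141.H927.FewF

/-!
# P141, composite events, few singular values: weighted form

The same bounds as in `FewF`, for a general bounded gauge `a`: the number of points of the support
is replaced by the sum of the squares of `a` (`few_finalW`).
-/

namespace Vale.Agent.P141.H927

open Finset
open Vale.Agent.P141.H944 (UnifB)

noncomputable section

/-- the bound of the octahedron sums with a weight on the last two vertices -/
def OctW (K : ℝ) (I0 I1 I2 : Finset ℤ) (F : ℤ → ℤ → ℤ → ℝ) : Prop :=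
  ∀ (w : ℤ → ℤ → ℝ) (α β γ : ℤ × ℤ × ℤ → ℤ → ℤ → ℝ), (∀ y z, 0 ≤ w y z) → (∀ y z, w y z ≤ 1) →
    (∀ p x y, |α p x y| ≤ 1) → (∀ p x z, |β p x z| ≤ 1) → (∀ p y z, |γ p y z| ≤ 1) →
    |∑ x' ∈ I0, ∑ y' ∈ I1, ∑ z' ∈ I2, ∑ x ∈ I0, ∑ y ∈ I1, ∑ z ∈ I2,
        (w y' z' * (α (x', y', z') x y * β (x', y', z') x z * (w y z * γ (x', y', z') y z))) *
          o8 F x x' y y' z z'| ≤ K * ∑ y ∈ I1, ∑ z ∈ I2, w y z

/-- **The bound of the weighted octahedron sums of a lift.** -/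
theorem octW_of {c : ℤ × ℤ × ℤ} (hc : c.1 ≠ 0 ∧ c.2.1 ≠ 0 ∧ c.2.2 ≠ 0)
    {I0 I1 I2 W : Finset ℤ}
    (hW : ∀ x ∈ I0, ∀ y ∈ I1, ∀ z ∈ I2, c.1 * x + c.2.1 * y + c.2.2 * z ∈ W)
    {f : ℤ → ℝ} {E τ : ℝ} (hE : ∑ y ∈ W, f y ^ 2 ≤ E) (hτ : 0 ≤ τ)
    (hT : TestB τ I0 I1 I2 (lf c f)) {b : ℕ} (hb : 1 < b) :
    OctW (12 * E ^ 4 / b + τ * (b : ℝ) ^ 17 * (E ^ 3 * √E)) I0 I1 I2 (lf c f) := by
  intro w α β γ hw0 hw1 hα hβ hγ
  classical
  have hE0 : 0 ≤ E := le_trans (sum_nonneg fun _ _ => sq_nonneg _) hE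
  have hB1 : (0 : ℝ) < b := by exact_mod_cast (by omega : 0 < b)
  have hB2 : (1 : ℝ) ≤ b := by exact_mod_cast (by omega : 1 ≤ b)
  set F := lf c f with hF
  have hwγ : ∀ p y z, |w y z * γ p y z| ≤ 1 := fun p y z => by
    refine abs_le_one_mul ?_ (hγ p y z)
    rw [abs_of_nonneg (hw0 y z)]; exact hw1 y z
  -- the two parts
  have e1 : ∑ x' ∈ I0, ∑ y' ∈ I1, ∑ z' ∈ I2, ∑ x ∈ I0, ∑ y ∈ I1, ∑ z ∈ I2,
        (w y' z' * (α (x', y', z') x y * β (x', y', z') x z * (w y z * γ (x', y', z') y z))) *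
          o8 F x x' y y' z z' =
      (∑ x' ∈ I0, ∑ y' ∈ I1, ∑ z' ∈ I2, w y' z' * ∑ x ∈ I0, ∑ y ∈ I1, ∑ z ∈ I2,
        (α (x', y', z') x y * β (x', y', z') x z * (w y z * γ (x', y', z') y z)) *
          (gd b F x x' y y' z z' * o8 F x x' y y' z z')) +
      ∑ x' ∈ I0, ∑ y' ∈ I1, ∑ z' ∈ I2, ∑ x ∈ I0, ∑ y ∈ I1, ∑ z ∈ I2,
        (w y' z' * (α (x', y', z') x y * β (x', y', z') x z * (w y z * γ (x', y', z') y z))) *
          ((1 - gd b F x x' y y' z z') * o8 F x x' y y' z z') := by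
    rw [← sum_add_distrib]
    refine sum_congr rfl fun x' _ => ?_
    rw [← sum_add_distrib]
    refine sum_congr rfl fun y' _ => ?_
    rw [← sum_add_distrib]
    refine sum_congr rfl fun z' _ => ?_
    rw [mul_sum, ← sum_add_distrib]
    refine sum_congr rfl fun x _ => ?_
    rw [mul_sum, ← sum_add_distrib]
    refine sum_congr rfl fun y _ => ?_
    rw [mul_sum, ← sum_add_distrib]
    refine sum_congr rfl fun z _ => ?_
    ring
  rw [e1]
  refine (abs_add_le _ _).trans ?_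
  have g1 : |∑ x' ∈ I0, ∑ y' ∈ I1, ∑ z' ∈ I2, w y' z' * ∑ x ∈ I0, ∑ y ∈ I1, ∑ z ∈ I2,
        (α (x', y', z') x y * β (x', y', z') x z * (w y z * γ (x', y', z') y z)) *
          (gd b F x x' y y' z z' * o8 F x x' y y' z z')| ≤
      τ * (b : ℝ) ^ 17 * (E ^ 3 * √E) * ∑ y ∈ I1, ∑ z ∈ I2, w y z := by
    calc |∑ x' ∈ I0, ∑ y' ∈ I1, ∑ z' ∈ I2, w y' z' * ∑ x ∈ I0, ∑ y ∈ I1, ∑ z ∈ I2,
          (α (x', y', z') x y * β (x', y', z') x z * (w y z * γ (x', y', z') y z)) *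
            (gd b F x x' y y' z z' * o8 F x x' y y' z z')|
        ≤ ∑ x' ∈ I0, ∑ y' ∈ I1, ∑ z' ∈ I2, |w y' z' * ∑ x ∈ I0, ∑ y ∈ I1, ∑ z ∈ I2,
          (α (x', y', z') x y * β (x', y', z') x z * (w y z * γ (x', y', z') y z)) *
            (gd b F x x' y y' z z' * o8 F x x' y y' z z')| :=
          (abs_sum_le_sum_abs _ _).trans (sum_le_sum fun x' _ => (abs_sum_le_sum_abs _ _).trans
            (sum_le_sum fun y' _ => abs_sum_le_sum_abs _ _))
      _ ≤ ∑ x' ∈ I0, ∑ y' ∈ I1, ∑ z' ∈ I2,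
          w y' z' * (τ * (b : ℝ) ^ 17 * (E ^ 2 * √E) * F x' y' z' ^ 2) := by
          refine sum_le_sum fun x' hx' => sum_le_sum fun y' hy' => sum_le_sum fun z' hz' => ?_
          rw [abs_mul, abs_of_nonneg (hw0 y' z')]
          exact mul_le_mul_of_nonneg_left
            (one_pivot hc hW hE hτ hT hb hx' hy' hz' (hα _) (hβ _) (hwγ _)) (hw0 y' z')
      _ = ∑ y' ∈ I1, ∑ z' ∈ I2,
          w y' z' * (τ * (b : ℝ) ^ 17 * (E ^ 2 * √E) * ∑ x' ∈ I0, F x' y' z' ^ 2) := by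
          rw [sum_comm]
          refine sum_congr rfl fun y' _ => ?_
          rw [sum_comm]
          refine sum_congr rfl fun z' _ => ?_
          rw [mul_sum, mul_sum]
      _ ≤ ∑ y' ∈ I1, ∑ z' ∈ I2, w y' z' * (τ * (b : ℝ) ^ 17 * (E ^ 2 * √E) * E) := by
          refine sum_le_sum fun y' hy' => sum_le_sum fun z' hz' =>
            mul_le_mul_of_nonneg_left (mul_le_mul_of_nonneg_left ?_ (by positivity)) (hw0 y' z')
          exact line_sq hE (e := fun x' => c.1 * x' + c.2.1 * y' + c.2.2 * z')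
            (fun p _ r _ hpr => by
              have : c.1 * p = c.1 * r := by simpa using hpr
              exact mul_left_cancel₀ hc.1 this)
            (fun x' hx' => hW x' hx' _ hy' _ hz')
      _ = _ := by
          rw [mul_sum]
          refine sum_congr rfl fun y' _ => ?_
          rw [mul_sum]
          refine sum_congr rfl fun z' _ => ?_
          ring
  have g2 : |∑ x' ∈ I0, ∑ y' ∈ I1, ∑ z' ∈ I2, ∑ x ∈ I0, ∑ y ∈ I1, ∑ z ∈ I2,
        (w y' z' * (α (x', y', z') x y * β (x', y', z') x z * (w y z * γ (x', y', z') y z))) *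
          ((1 - gd b F x x' y y' z z') * o8 F x x' y y' z z')| ≤
      12 * E ^ 4 / b * ∑ y ∈ I1, ∑ z ∈ I2, w y z := by
    set v : ℤ → ℤ → ℤ → ℤ → ℤ → ℤ → ℝ := fun x x' y y' z z' =>
      if F x' y' z' = 0 then 0 else 1 - gd b F x x' y y' z z' with hv
    have hpt : ∀ x' y' z' x y z,
        |(w y' z' * (α (x', y', z') x y * β (x', y', z') x z * (w y z * γ (x', y', z') y z))) *
          ((1 - gd b F x x' y y' z z') * o8 F x x' y y' z z')| ≤
        w y z * |v x x' y y' z z' * o8 F x x' y y' z z'| := by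
      intro x' y' z' x y z
      by_cases h0 : F x' y' z' = 0
      · have : o8 F x x' y y' z z' = 0 := by unfold o8; rw [h0]; ring
        rw [this]
        simp
      · have hvv : v x x' y y' z z' = 1 - gd b F x x' y y' z z' := by
          rw [hv]; simp only [h0, if_false]
        have e2 : (w y' z' * (α (x', y', z') x y * β (x', y', z') x z *
            (w y z * γ (x', y', z') y z))) *
            ((1 - gd b F x x' y y' z z') * o8 F x x' y y' z z') =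
            (w y' z' * (α (x', y', z') x y * β (x', y', z') x z * γ (x', y', z') y z)) *
            (w y z * ((1 - gd b F x x' y y' z z') * o8 F x x' y y' z z')) := by ring
        rw [e2, abs_mul, hvv, abs_mul (w y z), abs_of_nonneg (hw0 y z)]
        calc |w y' z' * (α (x', y', z') x y * β (x', y', z') x z * γ (x', y', z') y z)| *
              (w y z * |(1 - gd b F x x' y y' z z') * o8 F x x' y y' z z'|)
            ≤ 1 * (w y z * |(1 - gd b F x x' y y' z z') * o8 F x x' y y' z z'|) := by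
              refine mul_le_mul_of_nonneg_right (abs_le_one_mul ?_ (abs_le_one_mul
                (abs_le_one_mul (hα _ _ _) (hβ _ _ _)) (hγ _ _ _)))
                (mul_nonneg (hw0 y z) (abs_nonneg _))
              rw [abs_of_nonneg (hw0 y' z')]; exact hw1 y' z'
          _ = _ := one_mul _
    calc |∑ x' ∈ I0, ∑ y' ∈ I1, ∑ z' ∈ I2, ∑ x ∈ I0, ∑ y ∈ I1, ∑ z ∈ I2,
          (w y' z' * (α (x', y', z') x y * β (x', y', z') x z * (w y z * γ (x', y', z') y z))) *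
            ((1 - gd b F x x' y y' z z') * o8 F x x' y y' z z')|
        ≤ ∑ x' ∈ I0, ∑ y' ∈ I1, ∑ z' ∈ I2, ∑ x ∈ I0, ∑ y ∈ I1, ∑ z ∈ I2,
          |(w y' z' * (α (x', y', z') x y * β (x', y', z') x z * (w y z * γ (x', y', z') y z))) *
            ((1 - gd b F x x' y y' z z') * o8 F x x' y y' z z')| :=
          (abs_sum_le_sum_abs _ _).trans (sum_le_sum fun x' _ => (abs_sum_le_sum_abs _ _).trans
            (sum_le_sum fun y' _ => (abs_sum_le_sum_abs _ _).trans (sum_le_sum fun z' _ =>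
              (abs_sum_le_sum_abs _ _).trans (sum_le_sum fun x _ =>
              (abs_sum_le_sum_abs _ _).trans (sum_le_sum fun y _ => abs_sum_le_sum_abs _ _)))))
      _ ≤ ∑ x' ∈ I0, ∑ y' ∈ I1, ∑ z' ∈ I2, ∑ x ∈ I0, ∑ y ∈ I1, ∑ z ∈ I2,
          w y z * |v x x' y y' z z' * o8 F x x' y y' z z'| :=
          sum_le_sum fun x' _ => sum_le_sum fun y' _ => sum_le_sum fun z' _ =>
            sum_le_sum fun x _ => sum_le_sum fun y _ => sum_le_sum fun z _ => hpt x' y' z' x y z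
      _ = ∑ y ∈ I1, ∑ z ∈ I2, ∑ x ∈ I0, ∑ x' ∈ I0, ∑ y' ∈ I1, ∑ z' ∈ I2,
          w y z * |v x x' y y' z z' * o8 F x x' y y' z z'| := reorder6' _ _ _ _
      _ = ∑ y ∈ I1, ∑ z ∈ I2, w y z * ∑ x ∈ I0, ∑ x' ∈ I0, ∑ y' ∈ I1, ∑ z' ∈ I2,
          |v x x' y y' z z' * o8 F x x' y y' z z'| := by
          refine sum_congr rfl fun y _ => sum_congr rfl fun z _ => ?_
          rw [mul_sum]
          refine sum_congr rfl fun x _ => ?_
          rw [mul_sum]
          refine sum_congr rfl fun x' _ => ?_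
          rw [mul_sum]
          refine sum_congr rfl fun y' _ => ?_
          rw [mul_sum]
      _ ≤ ∑ y ∈ I1, ∑ z ∈ I2, w y z * (12 * E ^ 4 / b) := by
          refine sum_le_sum fun y hy => sum_le_sum fun z hz =>
            mul_le_mul_of_nonneg_left ?_ (hw0 y z)
          refine H651.bad_sum hc hW hE hB2 hy hz (fun x x' y' z' => v x x' y y' z z') ?_ ?_
          · intro x x' y' z' h
            have hV : F x' y' z' ≠ 0 := by
              intro h1
              apply h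
              rw [hv]; simp only [h1, if_true]
            refine bad_of_not hb F x x' y y' z z' hV ?_
            intro h1
            apply h
            rw [hv]
            simp only [hV, if_false, h1, sub_self]
          · intro x x' y' z'
            rw [hv]
            dsimp only
            split_ifs
            · simp
            · have h1 := gd_nonneg b F x x' y y' z z'
              have h2 := gd_le_one b F x x' y y' z z'
              rw [abs_le]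
              constructor <;> linarith
      _ = _ := by
          rw [mul_sum]
          refine sum_congr rfl fun y _ => ?_
          rw [mul_sum]
          exact sum_congr rfl fun z _ => by ring
  calc _ ≤ τ * (b : ℝ) ^ 17 * (E ^ 3 * √E) * (∑ y ∈ I1, ∑ z ∈ I2, w y z) +
        12 * E ^ 4 / b * ∑ y ∈ I1, ∑ z ∈ I2, w y z := add_le_add g1 g2
    _ = _ := by ring

/-- the weighted sum of the squares of the fibre sums -/
theorem oct_sumW {K : ℝ} {I0 I1 I2 : Finset ℤ} {F : ℤ → ℤ → ℤ → ℝ} (hO : OctW K I0 I1 I2 F)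
    (X : Finset ℤ) (D1 D2 : ℤ → Finset ℤ) {w : ℤ → ℤ → ℝ} (hw0 : ∀ y z, 0 ≤ w y z)
    (hw1 : ∀ y z, w y z ≤ 1) :
    ∑ y ∈ I1, ∑ y' ∈ I1, ∑ z ∈ I2, ∑ z' ∈ I2,
      w y z * w y' z' * (∑ x ∈ I0, wf X D1 D2 x y y' z z' * cy F x y y' z z') ^ 2 ≤
      K * ∑ y ∈ I1, ∑ z ∈ I2, w y z := by
  have e1 : ∀ y y' z z' : ℤ,
      w y z * w y' z' * (∑ x ∈ I0, wf X D1 D2 x y y' z z' * cy F x y y' z z') ^ 2 =
      ∑ x ∈ I0, ∑ x' ∈ I0, w y z * w y' z' * ((wf X D1 D2 x y y' z z' * cy F x y y' z z') *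
        (wf X D1 D2 x' y y' z z' * cy F x' y y' z z')) := by
    intro y y' z z'
    rw [sq (∑ x ∈ I0, wf X D1 D2 x y y' z z' * cy F x y y' z z'), sum_mul_sum, mul_sum]
    exact sum_congr rfl fun x _ => by rw [mul_sum]
  rw [sum_congr rfl fun y _ => sum_congr rfl fun y' _ => sum_congr rfl fun z _ =>
      sum_congr rfl fun z' _ => e1 y y' z z', reorder6]
  have h := hO w
    (fun p x y => ind (x ∈ X) * ind (p.1 ∈ X) * (ind (y ∈ D1 x) * ind (p.2.1 ∈ D1 x)) *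
      (ind (y ∈ D1 p.1) * ind (p.2.1 ∈ D1 p.1)))
    (fun p x z => (ind (z ∈ D2 x) * ind (p.2.2 ∈ D2 x)) *
      (ind (z ∈ D2 p.1) * ind (p.2.2 ∈ D2 p.1)))
    (fun _ _ _ => 1) hw0 hw1 ?_ ?_ ?_
  · refine le_trans (le_of_eq ?_) ((le_abs_self _).trans h)
    refine sum_congr rfl fun x' _ => sum_congr rfl fun y' _ => sum_congr rfl fun z' _ =>
      sum_congr rfl fun x _ => sum_congr rfl fun y _ => sum_congr rfl fun z _ => ?_
    unfold wf cy o8
    ring
  · intro p x y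
    exact abs_le_one_mul (abs_le_one_mul (abs_le_one_mul (ind_abs_le _) (ind_abs_le _))
      (abs_le_one_mul (ind_abs_le _) (ind_abs_le _)))
      (abs_le_one_mul (ind_abs_le _) (ind_abs_le _))
  · intro p x z
    exact abs_le_one_mul (abs_le_one_mul (ind_abs_le _) (ind_abs_le _))
      (abs_le_one_mul (ind_abs_le _) (ind_abs_le _))
  · intro p y z
    simp

/-- the popular quadruples, weighted by the gauge -/
theorem pop_countW {I1 I2 : Finset ℤ} (P1 P2 : Finset ℤ) {a : ℤ → ℤ → ℝ} {m : ℝ} (_hm : 0 ≤ m)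
    (ha : ∀ y z, |a y z| ≤ m) :
    ∑ y ∈ I1, ∑ y' ∈ I1, ∑ z ∈ I2, ∑ z' ∈ I2,
      ((ind (y' - y ∈ P1) * ind (z' - z ∈ P2)) * (a y' z * a y z')) ^ 2 ≤
      m ^ 2 * (∑ y ∈ I1, ∑ z ∈ I2, a y z ^ 2) * (P1.card * P2.card) := by
  have h1 : ∀ (I P : Finset ℤ) (y : ℤ), ∑ y' ∈ I, ind (y' - y ∈ P) ≤ P.card := by
    intro I P y
    unfold ind
    rw [← sum_filter, sum_const, nsmul_eq_mul, mul_one]
    exact_mod_cast card_le_card_of_injOn (fun y' => y' - y)
      (fun y' hy => (mem_filter.mp hy).2) (fun a _ b _ h => by simpa using h)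
  have h1' : ∀ (I P : Finset ℤ) (y' : ℤ), ∑ y ∈ I, ind (y' - y ∈ P) ≤ P.card := by
    intro I P y'
    unfold ind
    rw [← sum_filter, sum_const, nsmul_eq_mul, mul_one]
    exact_mod_cast card_le_card_of_injOn (fun y => y' - y)
      (fun y hy => (mem_filter.mp hy).2) (fun a _ b _ h => by simpa using h)
  have h2 : ∀ y y' z z', ((ind (y' - y ∈ P1) * ind (z' - z ∈ P2)) * (a y' z * a y z')) ^ 2 ≤
      m ^ 2 * (a y' z ^ 2 * (ind (y' - y ∈ P1) * ind (z' - z ∈ P2))) := by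
    intro y y' z z'
    have e : ((ind (y' - y ∈ P1) * ind (z' - z ∈ P2)) * (a y' z * a y z')) ^ 2 =
        (a y z') ^ 2 * (a y' z ^ 2 * (ind (y' - y ∈ P1) ^ 2 * ind (z' - z ∈ P2) ^ 2)) := by ring
    rw [e, ind_sq, ind_sq]
    refine mul_le_mul_of_nonneg_right ?_
      (mul_nonneg (sq_nonneg _) (mul_nonneg (ind_nonneg _) (ind_nonneg _)))
    rw [← sq_abs]
    exact pow_le_pow_left₀ (abs_nonneg _) (ha y z') 2
  calc ∑ y ∈ I1, ∑ y' ∈ I1, ∑ z ∈ I2, ∑ z' ∈ I2,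
        ((ind (y' - y ∈ P1) * ind (z' - z ∈ P2)) * (a y' z * a y z')) ^ 2
      ≤ ∑ y ∈ I1, ∑ y' ∈ I1, ∑ z ∈ I2, ∑ z' ∈ I2,
        m ^ 2 * (a y' z ^ 2 * (ind (y' - y ∈ P1) * ind (z' - z ∈ P2))) :=
        sum_le_sum fun y _ => sum_le_sum fun y' _ => sum_le_sum fun z _ => sum_le_sum fun z' _ =>
          h2 y y' z z'
    _ = ∑ y' ∈ I1, ∑ z ∈ I2, m ^ 2 * (a y' z ^ 2 * ((∑ y ∈ I1, ind (y' - y ∈ P1)) *
        ∑ z' ∈ I2, ind (z' - z ∈ P2))) := by
        rw [sum_comm]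
        refine sum_congr rfl fun y' _ => ?_
        rw [sum_comm]
        refine sum_congr rfl fun z _ => ?_
        rw [sum_mul_sum, mul_sum, mul_sum]
        refine sum_congr rfl fun y _ => ?_
        rw [mul_sum, mul_sum]
    _ ≤ ∑ y' ∈ I1, ∑ z ∈ I2, m ^ 2 * (a y' z ^ 2 * (P1.card * P2.card)) := by
        refine sum_le_sum fun y' _ => sum_le_sum fun z _ => ?_
        refine mul_le_mul_of_nonneg_left (mul_le_mul_of_nonneg_left ?_ (sq_nonneg _)) (sq_nonneg _)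
        exact mul_le_mul (h1' _ _ _) (h1 _ _ _) (sum_nonneg fun _ _ => ind_nonneg _)
          (Nat.cast_nonneg _)
    _ = _ := by
        rw [mul_sum, sum_mul]
        refine sum_congr rfl fun y' _ => ?_
        rw [mul_sum, sum_mul]
        exact sum_congr rfl fun z _ => by ring

/-- the sum over the parameter of the popular parts -/
theorem main_sumW {X I0 I1 I2 : Finset ℤ} (hX : X ⊆ I0) {D1 D2 : ℤ → Finset ℤ}
    (hD1 : ∀ x ∈ X, D1 x ⊆ I1) (hD2 : ∀ x ∈ X, D2 x ⊆ I2)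
    (a : ℤ → ℤ → ℝ) (P1 P2 : Finset ℤ)
    (F : ℤ → ℤ → ℤ → ℝ) :
    ∑ x ∈ X, ∑ y ∈ D1 x, ∑ y' ∈ D1 x, ∑ z ∈ D2 x, ∑ z' ∈ D2 x,
        (ind (y' - y ∈ P1) * ind (z' - z ∈ P2)) *
          (a y z * F x y z * (a y' z * F x y' z) *
            (a y z' * F x y z' * (a y' z' * F x y' z'))) =
      ∑ y ∈ I1, ∑ y' ∈ I1, ∑ z ∈ I2, ∑ z' ∈ I2,
        ((ind (y' - y ∈ P1) * ind (z' - z ∈ P2)) * (a y z * a y' z * (a y z' * a y' z'))) *
          (∑ x ∈ I0, wf X D1 D2 x y y' z z' * cy F x y y' z z') := by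
  have e1 : ∀ x ∈ X, ∑ y ∈ D1 x, ∑ y' ∈ D1 x, ∑ z ∈ D2 x, ∑ z' ∈ D2 x,
        (ind (y' - y ∈ P1) * ind (z' - z ∈ P2)) *
          (a y z * F x y z * (a y' z * F x y' z) *
            (a y z' * F x y z' * (a y' z' * F x y' z'))) =
      ∑ y ∈ I1, ∑ y' ∈ I1, ∑ z ∈ I2, ∑ z' ∈ I2,
        ((ind (y' - y ∈ P1) * ind (z' - z ∈ P2)) * (a y z * a y' z * (a y z' * a y' z'))) *
          (wf X D1 D2 x y y' z z' * cy F x y y' z z') := by
    intro x hx
    rw [sum_ind (hD1 x hx)]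
    refine sum_congr rfl fun y _ => ?_
    rw [sum_ind (hD1 x hx), mul_sum]
    refine sum_congr rfl fun y' _ => ?_
    rw [sum_ind (hD2 x hx), mul_sum, mul_sum]
    refine sum_congr rfl fun z _ => ?_
    rw [sum_ind (hD2 x hx), mul_sum, mul_sum, mul_sum]
    refine sum_congr rfl fun z' _ => ?_
    have hx1 : ind (x ∈ X) = 1 := by simp [ind, hx]
    unfold wf cy
    rw [hx1]
    ring
  rw [sum_congr rfl e1, sum_comm]
  have e2 : ∀ y ∈ I1, ∑ x ∈ X, ∑ y' ∈ I1, ∑ z ∈ I2, ∑ z' ∈ I2,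
        ((ind (y' - y ∈ P1) * ind (z' - z ∈ P2)) * (a y z * a y' z * (a y z' * a y' z'))) *
          (wf X D1 D2 x y y' z z' * cy F x y y' z z') =
      ∑ y' ∈ I1, ∑ z ∈ I2, ∑ z' ∈ I2, ∑ x ∈ X,
        ((ind (y' - y ∈ P1) * ind (z' - z ∈ P2)) * (a y z * a y' z * (a y z' * a y' z'))) *
          (wf X D1 D2 x y y' z z' * cy F x y y' z z') := by
    intro y _
    rw [sum_comm]
    refine sum_congr rfl fun y' _ => ?_
    rw [sum_comm]
    refine sum_congr rfl fun z _ => ?_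
    rw [sum_comm]
  rw [sum_congr rfl e2]
  refine sum_congr rfl fun y _ => sum_congr rfl fun y' _ => sum_congr rfl fun z _ =>
    sum_congr rfl fun z' _ => ?_
  rw [← mul_sum]
  have e3 : ∑ x ∈ X, wf X D1 D2 x y y' z z' * cy F x y y' z z' =
      ∑ x ∈ I0, wf X D1 D2 x y y' z z' * cy F x y y' z z' := by
    rw [sum_ind hX]
    refine sum_congr rfl fun x _ => ?_
    rw [← mul_assoc]
    congr 1
    unfold wf
    rw [show ind (x ∈ X) * (ind (x ∈ X) * (ind (y ∈ D1 x) * ind (y' ∈ D1 x)) *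
      (ind (z ∈ D2 x) * ind (z' ∈ D2 x))) = (ind (x ∈ X) * ind (x ∈ X)) *
      (ind (y ∈ D1 x) * ind (y' ∈ D1 x)) * (ind (z ∈ D2 x) * ind (z' ∈ D2 x)) by ring,
      ind_mul_self]
  rw [e3]

/-- the popular part is bounded by the octahedron sums -/
theorem main_leW {K : ℝ} {I0 I1 I2 : Finset ℤ} {F : ℤ → ℤ → ℤ → ℝ} (hO : OctW K I0 I1 I2 F)
    (hK : 0 ≤ K)
    {X : Finset ℤ} (hX : X ⊆ I0) {D1 D2 : ℤ → Finset ℤ} (hD1 : ∀ x ∈ X, D1 x ⊆ I1)
    (hD2 : ∀ x ∈ X, D2 x ⊆ I2)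
    {a : ℤ → ℤ → ℝ} {m : ℝ} (hm : 0 ≤ m) (ha : ∀ y z, |a y z| ≤ m) (P1 P2 : Finset ℤ) :
    ∑ x ∈ X, ∑ y ∈ D1 x, ∑ y' ∈ D1 x, ∑ z ∈ D2 x, ∑ z' ∈ D2 x,
        (ind (y' - y ∈ P1) * ind (z' - z ∈ P2)) *
          (a y z * F x y z * (a y' z * F x y' z) *
            (a y z' * F x y z' * (a y' z' * F x y' z'))) ≤
      m ^ 2 * (∑ y ∈ I1, ∑ z ∈ I2, a y z ^ 2) * √(P1.card * P2.card * K) := by
  rw [main_sumW hX hD1 hD2 a P1 P2 F]
  set Na := ∑ y ∈ I1, ∑ z ∈ I2, a y z ^ 2 with hNa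
  have hNa0 : 0 ≤ Na := sum_nonneg fun _ _ => sum_nonneg fun _ _ => sq_nonneg _
  have hcs := cs4 I1 I2
    (fun y y' z z' => (ind (y' - y ∈ P1) * ind (z' - z ∈ P2)) * (a y' z * a y z'))
    (fun y y' z z' => (a y z * a y' z') *
      ∑ x ∈ I0, wf X D1 D2 x y y' z z' * cy F x y y' z z')
  have hV := pop_countW (I1 := I1) (I2 := I2) P1 P2 hm ha
  have hU : ∑ y ∈ I1, ∑ y' ∈ I1, ∑ z ∈ I2, ∑ z' ∈ I2, ((a y z * a y' z') *
      ∑ x ∈ I0, wf X D1 D2 x y y' z z' * cy F x y y' z z') ^ 2 ≤ m ^ 2 * (K * Na) := by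
    rcases hm.eq_or_lt with h0 | h0
    · have hz : ∀ y z, a y z = 0 := fun y z => by
        have := ha y z
        rw [← h0] at this
        exact abs_eq_zero.mp (le_antisymm this (abs_nonneg _))
      have : ∑ y ∈ I1, ∑ y' ∈ I1, ∑ z ∈ I2, ∑ z' ∈ I2, ((a y z * a y' z') *
          ∑ x ∈ I0, wf X D1 D2 x y y' z z' * cy F x y y' z z') ^ 2 = 0 := by
        refine sum_eq_zero fun y _ => sum_eq_zero fun y' _ => sum_eq_zero fun z _ =>
          sum_eq_zero fun z' _ => ?_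
        rw [hz y z]; ring
      rw [this]; positivity
    · have h := oct_sumW hO X D1 D2 (w := fun y z => (a y z / m) ^ 2) (fun y z => sq_nonneg _)
        (fun y z => by
          rw [← sq_abs, abs_div, abs_of_pos h0]
          exact pow_le_one₀ (by positivity) ((div_le_one h0).mpr (ha y z)))
      have e1 : ∑ y ∈ I1, ∑ z ∈ I2, (a y z / m) ^ 2 = Na / m ^ 2 := by
        rw [hNa, sum_div]
        refine sum_congr rfl fun y _ => ?_
        rw [sum_div]
        exact sum_congr rfl fun z _ => div_pow _ _ _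
      rw [e1] at h
      have e2 : ∑ y ∈ I1, ∑ y' ∈ I1, ∑ z ∈ I2, ∑ z' ∈ I2, ((a y z * a y' z') *
          ∑ x ∈ I0, wf X D1 D2 x y y' z z' * cy F x y y' z z') ^ 2 =
          m ^ 4 * ∑ y ∈ I1, ∑ y' ∈ I1, ∑ z ∈ I2, ∑ z' ∈ I2, (a y z / m) ^ 2 * (a y' z' / m) ^ 2 *
          (∑ x ∈ I0, wf X D1 D2 x y y' z z' * cy F x y y' z z') ^ 2 := by
        rw [mul_sum]
        refine sum_congr rfl fun y _ => ?_
        rw [mul_sum]
        refine sum_congr rfl fun y' _ => ?_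
        rw [mul_sum]
        refine sum_congr rfl fun z _ => ?_
        rw [mul_sum]
        refine sum_congr rfl fun z' _ => ?_
        field_simp
      rw [e2]
      calc m ^ 4 * _ ≤ m ^ 4 * (K * (Na / m ^ 2)) :=
            mul_le_mul_of_nonneg_left h (by positivity)
        _ = _ := by field_simp
  have hU0 : 0 ≤ ∑ y ∈ I1, ∑ y' ∈ I1, ∑ z ∈ I2, ∑ z' ∈ I2, ((a y z * a y' z') *
      ∑ x ∈ I0, wf X D1 D2 x y y' z z' * cy F x y y' z z') ^ 2 :=
    sum_nonneg fun _ _ => sum_nonneg fun _ _ => sum_nonneg fun _ _ => sum_nonneg fun _ _ =>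
      sq_nonneg _
  have h4 := hcs.trans (mul_le_mul hV hU hU0 (by positivity))
  have e3 : ∑ y ∈ I1, ∑ y' ∈ I1, ∑ z ∈ I2, ∑ z' ∈ I2,
      ((ind (y' - y ∈ P1) * ind (z' - z ∈ P2)) * (a y z * a y' z * (a y z' * a y' z'))) *
        (∑ x ∈ I0, wf X D1 D2 x y y' z z' * cy F x y y' z z') =
      ∑ y ∈ I1, ∑ y' ∈ I1, ∑ z ∈ I2, ∑ z' ∈ I2,
      ((ind (y' - y ∈ P1) * ind (z' - z ∈ P2)) * (a y' z * a y z')) * ((a y z * a y' z') *
        ∑ x ∈ I0, wf X D1 D2 x y y' z z' * cy F x y y' z z') :=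
    sum_congr rfl fun y _ => sum_congr rfl fun y' _ => sum_congr rfl fun z _ =>
      sum_congr rfl fun z' _ => by ring
  rw [e3]
  refine (Real.le_sqrt_of_sq_le h4).trans (le_of_eq ?_)
  rw [show m ^ 2 * Na * ((P1.card : ℝ) * P2.card) * (m ^ 2 * (K * Na)) =
    (m ^ 2 * Na) ^ 2 * (P1.card * P2.card * K) by ring,
    Real.sqrt_mul (sq_nonneg _), Real.sqrt_sq (by positivity)]

end

end Vale.Agent.P141.H927
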