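import Vale.Agent.P141.H927.FewW

/-!
# P141, composite events, few singular values: weighted form, final bounds

`few_absW`, `few_liftW`, `few_deltaW`, `few_finalW`: the bounds of `FewC`, `FewP`, `FewF` for a
general bounded gauge `a`, with the sum of the squares of `a` in place of `m ^ 2 |S|`.
-/

namespace Vale.Agent.P141.H927

open Finset
open Vale.Agent.P141.PL.H315 (avg atm Tri e12 e13 e23)
open Vale.Agent.P141.H922 (n2 n4 nN n2_nonneg n4_nonneg nN_nonneg)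
open Vale.Agent.P141.H944 (UnifB)

noncomputable section

/-- **the abstract bound** -/
theorem few_absW {K : ℝ} {I0 I1 I2 : Finset ℤ} {F : ℤ → ℤ → ℤ → ℝ} (hO : OctW K I0 I1 I2 F)
    (hK : 0 ≤ K)
    {X : Finset ℤ} (hX : X ⊆ I0) {D1 D2 : ℤ → Finset ℤ} (hD1 : ∀ x ∈ X, D1 x ⊆ I1)
    (hD2 : ∀ x ∈ X, D2 x ⊆ I2) {D : ℝ} (hc1 : ∀ x ∈ X, ((D1 x).card : ℝ) ≤ D)
    (hc2 : ∀ x ∈ X, ((D2 x).card : ℝ) ≤ D) {a : ℤ → ℤ → ℝ} {m : ℝ} (hm : 0 ≤ m) (ha : ∀ y z, |a y z| ≤ m) {P1 P2 : Finset ℤ} {B : ℝ}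
    (hP1 : ∀ x ∈ X, ∀ y ∈ I1, ∀ y' ∈ I1, y' - y ∉ P1 → ∑ z ∈ D2 x, |F x y z * F x y' z| ≤ B)
    (hP2 : ∀ x ∈ X, ∀ z ∈ I2, ∀ z' ∈ I2, z' - z ∉ P2 → ∑ y ∈ D1 x, |F x y z * F x y z'| ≤ B)
    {φ ψ : ℤ → ℤ → ℝ} (hφ : ∀ x ∈ X, ∑ y ∈ D1 x, φ x y ^ 2 ≤ 1)
    (hψ : ∀ x ∈ X, ∑ z ∈ D2 x, ψ x z ^ 2 ≤ 1) :
    (∑ x ∈ X, ∑ y ∈ D1 x, ∑ z ∈ D2 x, a y z * F x y z * φ x y * ψ x z) ^ 4 ≤
      (X.card : ℝ) ^ 3 * (X.card * (2 * (D ^ 2 * (m ^ 2 * B) ^ 2)) +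
        m ^ 2 * (∑ y ∈ I1, ∑ z ∈ I2, a y z ^ 2) * √(P1.card * P2.card * K)) := by
  refine (sum_four X _).trans (mul_le_mul_of_nonneg_left ?_ (by positivity))
  have h1 : ∀ x ∈ X, (∑ y ∈ D1 x, ∑ z ∈ D2 x, a y z * F x y z * φ x y * ψ x z) ^ 4 ≤
      2 * (D ^ 2 * (m ^ 2 * B) ^ 2) +
        ∑ y ∈ D1 x, ∑ y' ∈ D1 x, ∑ z ∈ D2 x, ∑ z' ∈ D2 x,
        (ind (y' - y ∈ P1) * ind (z' - z ∈ P2)) *
          (a y z * F x y z * (a y' z * F x y' z) *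
            (a y z' * F x y z' * (a y' z' * F x y' z'))) := by
    intro x hx
    refine (bilin_four (D1 x) (D2 x) (fun y z => a y z * F x y z) (φ x) (ψ x) (hφ x hx)
      (hψ x hx)).trans ?_
    refine split_one (D1 x) (D2 x) P1 P2 (fun y z => a y z * F x y z) D (m ^ 2 * B)
      (hc1 x hx) (hc2 x hx) ?_ ?_
    · intro y hy y' hy' hn
      calc ∑ z ∈ D2 x, |a y z * F x y z * (a y' z * F x y' z)|
          ≤ ∑ z ∈ D2 x, m ^ 2 * |F x y z * F x y' z| := by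
            refine sum_le_sum fun z _ => ?_
            rw [show a y z * F x y z * (a y' z * F x y' z) =
              (a y z * a y' z) * (F x y z * F x y' z) by ring, abs_mul]
            refine mul_le_mul_of_nonneg_right ?_ (abs_nonneg _)
            rw [abs_mul, sq]
            exact mul_le_mul (ha _ _) (ha _ _) (abs_nonneg _) hm
        _ = m ^ 2 * ∑ z ∈ D2 x, |F x y z * F x y' z| := by rw [mul_sum]
        _ ≤ _ := mul_le_mul_of_nonneg_left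
            (hP1 x hx y (hD1 x hx hy) y' (hD1 x hx hy') hn) (sq_nonneg m)
    · intro z hz z' hz' hn
      calc ∑ y ∈ D1 x, |a y z * F x y z * (a y z' * F x y z')|
          ≤ ∑ y ∈ D1 x, m ^ 2 * |F x y z * F x y z'| := by
            refine sum_le_sum fun y _ => ?_
            rw [show a y z * F x y z * (a y z' * F x y z') =
              (a y z * a y z') * (F x y z * F x y z') by ring, abs_mul]
            refine mul_le_mul_of_nonneg_right ?_ (abs_nonneg _)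
            rw [abs_mul, sq]
            exact mul_le_mul (ha _ _) (ha _ _) (abs_nonneg _) hm
        _ = m ^ 2 * ∑ y ∈ D1 x, |F x y z * F x y z'| := by rw [mul_sum]
        _ ≤ _ := mul_le_mul_of_nonneg_left
            (hP2 x hx z (hD2 x hx hz) z' (hD2 x hx hz') hn) (sq_nonneg m)
  refine (sum_le_sum h1).trans ?_
  rw [sum_add_distrib, sum_const, nsmul_eq_mul]
  exact add_le_add le_rfl (main_leW hO hK hX hD1 hD2 hm ha P1 P2)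

/-- **the bound for lifts, in terms of the bound of the octahedron sums** -/
theorem few_liftW {c : ℤ × ℤ × ℤ} {f : ℤ → ℝ} (hc1 : c.2.1 ≠ 0) (hc2 : c.2.2 ≠ 0)
    {I0 I1 I2 W : Finset ℤ}
    (hW : ∀ x ∈ I0, ∀ y ∈ I1, ∀ z ∈ I2, c.1 * x + c.2.1 * y + c.2.2 * z ∈ W) {E K : ℝ}
    (hE0 : 0 < E) (hE : ∑ y ∈ W, f y ^ 2 ≤ E) (hO : OctW K I0 I1 I2 (lf c f)) (hK : 0 ≤ K)
    {X : Finset ℤ} (hX : X ⊆ I0) {D1 D2 : ℤ → Finset ℤ} (hD1 : ∀ x ∈ X, D1 x ⊆ I1)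
    (hD2 : ∀ x ∈ X, D2 x ⊆ I2) {D : ℝ} (hD0 : 0 < D) (hd1 : ∀ x ∈ X, ((D1 x).card : ℝ) ≤ D)
    (hd2 : ∀ x ∈ X, ((D2 x).card : ℝ) ≤ D)
    {a : ℤ → ℤ → ℝ} {m : ℝ} (hm : 0 ≤ m) (ha : ∀ y z, |a y z| ≤ m)
    {φ ψ : ℤ → ℤ → ℝ} (hφ : ∀ x ∈ X, ∑ y ∈ D1 x, φ x y ^ 2 ≤ 1)
    (hψ : ∀ x ∈ X, ∑ z ∈ D2 x, ψ x z ^ 2 ≤ 1) {eta : ℝ} (he : 0 < eta) :
    (∑ x ∈ X, ∑ y ∈ D1 x, ∑ z ∈ D2 x, a y z * lf c f x y z * φ x y * ψ x z) ^ 4 ≤
      (X.card : ℝ) ^ 3 * m ^ 2 * D *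
        (18 * X.card * m ^ 2 * D * E ^ 2 * eta ^ 2 +
          (∑ y ∈ I1, ∑ z ∈ I2, a y z ^ 2) * √K / eta ^ 3) := by
  have hDE : 0 < D * E := by positivity
  have hs : 0 < √(D * E) := Real.sqrt_pos.mpr hDE
  set lam : ℝ := eta * E with hlam
  have hl : 0 < lam := by positivity
  set H : ℝ := lam / √(D * E) with hH1
  have hH : 0 < H := by positivity
  have hHs : H * √(D * E) = lam := by rw [hH1]; field_simp
  have hH2 : H ^ 2 * (D * E) = lam ^ 2 := by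
    rw [← hHs, mul_pow, Real.sq_sqrt hDE.le]
  -- the popular sets
  have hpc : ∀ (c' : ℤ) (I : Finset ℤ), c' ≠ 0 →
      ((popS W H f c' lam I).card : ℝ) ≤ D / eta ^ 3 := by
    intro c' I hc'
    refine (popS_card hH hE0.le hE hc' hl).trans (le_of_eq ?_)
    have h1 : H ^ 2 = lam ^ 2 / (D * E) := by rw [← hH2]; field_simp
    rw [div_pow, h1, hlam]
    field_simp
  have hB : ∀ x ∈ X, ∀ y ∈ I1, ∀ y' ∈ I1, y' - y ∉ popS W H f c.2.1 lam I1 →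
      ∑ z ∈ D2 x, |lf c f x y z * lf c f x y' z| ≤ 3 * lam := by
    intro x hx y hy y' hy' hn
    have h1 := line_pair (W := W) (A := D2 x) (f := f) (E := E) (H := H) (D := D) hH hE
      (e := fun z => c.1 * x + c.2.1 * y + c.2.2 * z)
      (fun p _ q _ hpq => by
        have : c.2.2 * p = c.2.2 * q := by simpa using hpq
        exact mul_left_cancel₀ hc2 this)
      (h := c.2.1 * (y' - y))
      (fun z hz => hW x (hX hx) y hy z (hD2 x hx hz))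
      (fun z hz => by
        have := hW x (hX hx) y' hy' z (hD2 x hx hz)
        have e1 : c.1 * x + c.2.1 * y + c.2.2 * z + c.2.1 * (y' - y) =
          c.1 * x + c.2.1 * y' + c.2.2 * z := by ring
        show c.1 * x + c.2.1 * y + c.2.2 * z + c.2.1 * (y' - y) ∈ W
        rw [e1]; exact this)
      (hd2 x hx)
    have h2 := not_popS hy hy' hn
    calc ∑ z ∈ D2 x, |lf c f x y z * lf c f x y' z|
        = ∑ z ∈ D2 x, |f (c.1 * x + c.2.1 * y + c.2.2 * z) *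
            f (c.1 * x + c.2.1 * y + c.2.2 * z + c.2.1 * (y' - y))| := by
          refine sum_congr rfl fun z _ => ?_
          unfold lf
          rw [show c.1 * x + c.2.1 * y + c.2.2 * z + c.2.1 * (y' - y) =
            c.1 * x + c.2.1 * y' + c.2.2 * z by ring]
      _ ≤ _ := h1
      _ ≤ lam + 2 * lam := by rw [hHs]; linarith
      _ = 3 * lam := by ring
  have hB' : ∀ x ∈ X, ∀ z ∈ I2, ∀ z' ∈ I2, z' - z ∉ popS W H f c.2.2 lam I2 →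
      ∑ y ∈ D1 x, |lf c f x y z * lf c f x y z'| ≤ 3 * lam := by
    intro x hx z hz z' hz' hn
    have h1 := line_pair (W := W) (A := D1 x) (f := f) (E := E) (H := H) (D := D) hH hE
      (e := fun y => c.1 * x + c.2.1 * y + c.2.2 * z)
      (fun p _ q _ hpq => by
        have : c.2.1 * p = c.2.1 * q := by simpa using hpq
        exact mul_left_cancel₀ hc1 this)
      (h := c.2.2 * (z' - z))
      (fun y hy => hW x (hX hx) y (hD1 x hx hy) z hz)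
      (fun y hy => by
        have := hW x (hX hx) y (hD1 x hx hy) z' hz'
        have e1 : c.1 * x + c.2.1 * y + c.2.2 * z + c.2.2 * (z' - z) =
          c.1 * x + c.2.1 * y + c.2.2 * z' := by ring
        show c.1 * x + c.2.1 * y + c.2.2 * z + c.2.2 * (z' - z) ∈ W
        rw [e1]; exact this)
      (hd1 x hx)
    have h2 := not_popS hz hz' hn
    calc ∑ y ∈ D1 x, |lf c f x y z * lf c f x y z'|
        = ∑ y ∈ D1 x, |f (c.1 * x + c.2.1 * y + c.2.2 * z) *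
            f (c.1 * x + c.2.1 * y + c.2.2 * z + c.2.2 * (z' - z))| := by
          refine sum_congr rfl fun y _ => ?_
          unfold lf
          rw [show c.1 * x + c.2.1 * y + c.2.2 * z + c.2.2 * (z' - z) =
            c.1 * x + c.2.1 * y + c.2.2 * z' by ring]
      _ ≤ _ := h1
      _ ≤ lam + 2 * lam := by rw [hHs]; linarith
      _ = 3 * lam := by ring
  have key := few_absW hO hK hX hD1 hD2 hd1 hd2 hm ha hB hB' hφ hψ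
  refine key.trans ?_
  have hp1 := hpc c.2.1 I1 hc1
  have hp2 := hpc c.2.2 I2 hc2
  have hsq : √(((popS W H f c.2.1 lam I1).card : ℝ) * (popS W H f c.2.2 lam I2).card * K) ≤
      D / eta ^ 3 * √K := by
    calc √(((popS W H f c.2.1 lam I1).card : ℝ) * (popS W H f c.2.2 lam I2).card * K)
        ≤ √((D / eta ^ 3) ^ 2 * K) := by
          refine Real.sqrt_le_sqrt (mul_le_mul_of_nonneg_right ?_ hK)
          rw [sq]
          exact mul_le_mul hp1 hp2 (Nat.cast_nonneg _) (by positivity)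
      _ = D / eta ^ 3 * √K := by
          rw [Real.sqrt_mul (sq_nonneg _), Real.sqrt_sq (by positivity)]
  have e1 : (X.card : ℝ) ^ 3 * m ^ 2 * D *
      (18 * X.card * m ^ 2 * D * E ^ 2 * eta ^ 2 +
        (∑ y ∈ I1, ∑ z ∈ I2, a y z ^ 2) * √K / eta ^ 3) =
      (X.card : ℝ) ^ 3 * (X.card * (2 * (D ^ 2 * (m ^ 2 * (3 * lam)) ^ 2)) +
        m ^ 2 * (∑ y ∈ I1, ∑ z ∈ I2, a y z ^ 2) * (D / eta ^ 3 * √K)) := by
    rw [hlam]
    field_simp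
    ring
  rw [e1]
  gcongr

/-- **few singular values, with the free parameters** -/
theorem few_deltaW {c : ℤ × ℤ × ℤ} (hc : c.1 ≠ 0 ∧ c.2.1 ≠ 0 ∧ c.2.2 ≠ 0) {f : ℤ → ℝ}
    {I0 I1 I2 W : Finset ℤ}
    (hW : ∀ x ∈ I0, ∀ y ∈ I1, ∀ z ∈ I2, c.1 * x + c.2.1 * y + c.2.2 * z ∈ W)
    {N : ℕ} (hN : 0 < N) (h0 : I0.card = N) (h1 : I1.card = N) (h2 : I2.card = N) {t L : ℝ}
    (ht : 0 ≤ t) (hL : 1 ≤ L) (hE : ∑ y ∈ W, f y ^ 2 ≤ L * N)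
    (hU : UnifB t I0 I1 I2 fun q => lf c f q.1 q.2.1 q.2.2)
    {X : Finset ℤ} (hX : X ⊆ I0) {D1 D2 : ℤ → Finset ℤ} (hD1 : ∀ x ∈ X, D1 x ⊆ I1)
    (hD2 : ∀ x ∈ X, D2 x ⊆ I2) {D : ℝ} (hD0 : 0 < D) (hd1 : ∀ x ∈ X, ((D1 x).card : ℝ) ≤ D)
    (hd2 : ∀ x ∈ X, ((D2 x).card : ℝ) ≤ D)
    {a : ℤ → ℤ → ℝ} {m : ℝ} (hm : 0 ≤ m) (ha : ∀ y z, |a y z| ≤ m)
    {φ ψ : ℤ → ℤ → ℝ} (hφ : ∀ x ∈ X, ∑ y ∈ D1 x, φ x y ^ 2 ≤ 1)
    (hψ : ∀ x ∈ X, ∑ z ∈ D2 x, ψ x z ^ 2 ≤ 1) {b : ℕ} (hb : 1 < b) {eta : ℝ} (he : 0 < eta) :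
    (∑ x ∈ X, ∑ y ∈ D1 x, ∑ z ∈ D2 x, a y z * lf c f x y z * φ x y * ψ x z) ^ 4 ≤
      (X.card : ℝ) ^ 3 * m ^ 2 * D * (L * N) ^ 2 *
        (18 * X.card * m ^ 2 * D * eta ^ 2 +
          (∑ y ∈ I1, ∑ z ∈ I2, a y z ^ 2) * √(12 / b + 3 * t * (b : ℝ) ^ 17) / eta ^ 3) := by
  have hN0 : (0 : ℝ) < N := by exact_mod_cast hN
  have hB1 : (0 : ℝ) < b := by exact_mod_cast (by omega : 0 < b)
  set E : ℝ := L * N with hEd
  have hE0 : 0 < E := by positivity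
  have hNE : (N : ℝ) ≤ E := by rw [hEd]; nlinarith
  have hO := octW_of hc hW hE (by positivity) (testB_of_unif ht hN h0 h1 h2 hU) hb
  set K : ℝ := 12 * E ^ 4 / b + 3 * t * √N * (b : ℝ) ^ 17 * (E ^ 3 * √E) with hK
  have hK0 : 0 ≤ K := by positivity
  have hKE : √K ≤ E ^ 2 * √(12 / b + 3 * t * (b : ℝ) ^ 17) := by
    have e1 : K ≤ (E ^ 2) ^ 2 * (12 / b + 3 * t * (b : ℝ) ^ 17) := by
      have h3 : √(N : ℝ) ≤ √E := Real.sqrt_le_sqrt hNE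
      have h4 : √E * √E = E := Real.mul_self_sqrt hE0.le
      have h5 : √(N : ℝ) * √E ≤ E := by
        calc √(N : ℝ) * √E ≤ √E * √E := mul_le_mul_of_nonneg_right h3 (Real.sqrt_nonneg _)
          _ = E := h4
      calc K = 12 * E ^ 4 / b + 3 * t * (b : ℝ) ^ 17 * E ^ 3 * (√N * √E) := by rw [hK]; ring
        _ ≤ 12 * E ^ 4 / b + 3 * t * (b : ℝ) ^ 17 * E ^ 3 * E := by gcongr
        _ = _ := by ring
    calc √K ≤ √((E ^ 2) ^ 2 * (12 / b + 3 * t * (b : ℝ) ^ 17)) := Real.sqrt_le_sqrt e1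
      _ = _ := by rw [Real.sqrt_mul (by positivity), Real.sqrt_sq (by positivity)]
  have key := few_liftW hc.2.1 hc.2.2 hW hE0 hE hO hK0 hX hD1 hD2 hD0 hd1 hd2 hm ha hφ hψ he
  refine key.trans ?_
  have hNa0 : 0 ≤ ∑ y ∈ I1, ∑ z ∈ I2, a y z ^ 2 :=
    sum_nonneg fun _ _ => sum_nonneg fun _ _ => sq_nonneg _
  have e2 : (X.card : ℝ) ^ 3 * m ^ 2 * D * E ^ 2 *
        (18 * X.card * m ^ 2 * D * eta ^ 2 +
          (∑ y ∈ I1, ∑ z ∈ I2, a y z ^ 2) * √(12 / b + 3 * t * (b : ℝ) ^ 17) / eta ^ 3) =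
      (X.card : ℝ) ^ 3 * m ^ 2 * D * (18 * X.card * m ^ 2 * D * E ^ 2 * eta ^ 2 +
        (∑ y ∈ I1, ∑ z ∈ I2, a y z ^ 2) *
          (E ^ 2 * √(12 / b + 3 * t * (b : ℝ) ^ 17)) / eta ^ 3) := by ring
  rw [e2]
  gcongr

/-- **Few singular values, final form**: the fourth power of the bilinear sums gains
`t ^ (1 / 90)` over the trivial bound when `|X| m² D` is comparable to the sum of the squares. -/
theorem few_finalW {c : ℤ × ℤ × ℤ} (hc : c.1 ≠ 0 ∧ c.2.1 ≠ 0 ∧ c.2.2 ≠ 0) {f : ℤ → ℝ}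
    {I0 I1 I2 W : Finset ℤ}
    (hW : ∀ x ∈ I0, ∀ y ∈ I1, ∀ z ∈ I2, c.1 * x + c.2.1 * y + c.2.2 * z ∈ W)
    {N : ℕ} (hN : 0 < N) (h0 : I0.card = N) (h1 : I1.card = N) (h2 : I2.card = N) {t L : ℝ}
    (ht : 0 < t) (ht1 : t ≤ 1) (hL : 1 ≤ L) (hE : ∑ y ∈ W, f y ^ 2 ≤ L * N)
    (hU : UnifB t I0 I1 I2 fun q => lf c f q.1 q.2.1 q.2.2)
    {X : Finset ℤ} (hX : X ⊆ I0) {D1 D2 : ℤ → Finset ℤ} (hD1 : ∀ x ∈ X, D1 x ⊆ I1)
    (hD2 : ∀ x ∈ X, D2 x ⊆ I2) {D : ℝ} (hD0 : 0 < D) (hd1 : ∀ x ∈ X, ((D1 x).card : ℝ) ≤ D)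
    (hd2 : ∀ x ∈ X, ((D2 x).card : ℝ) ≤ D)
    {a : ℤ → ℤ → ℝ} {m : ℝ} (hm : 0 ≤ m) (ha : ∀ y z, |a y z| ≤ m)
    {φ ψ : ℤ → ℤ → ℝ} (hφ : ∀ x ∈ X, ∑ y ∈ D1 x, φ x y ^ 2 ≤ 1)
    (hψ : ∀ x ∈ X, ∑ z ∈ D2 x, ψ x z ^ 2 ≤ 1) :
    (∑ x ∈ X, ∑ y ∈ D1 x, ∑ z ∈ D2 x, a y z * lf c f x y z * φ x y * ψ x z) ^ 4 ≤
      20000 * ((X.card : ℝ) ^ 3 * m ^ 2 * D * (L * N) ^ 2 *
        (X.card * m ^ 2 * D + ∑ y ∈ I1, ∑ z ∈ I2, a y z ^ 2) * t ^ (1 / 90 : ℝ)) := by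
  -- the choice of the ratio
  set u : ℝ := t ^ (1 / 18 : ℝ) with hu
  have hu0 : 0 < u := Real.rpow_pos_of_pos ht _
  have hu1 : u ≤ 1 := Real.rpow_le_one ht.le ht1 (by norm_num)
  have hu18 : u ^ 18 = t := by
    rw [hu, ← Real.rpow_natCast, ← Real.rpow_mul ht.le]
    norm_num
  set b : ℕ := ⌈u⁻¹⌉₊ + 1 with hb
  have hui : 1 ≤ u⁻¹ := (one_le_inv₀ hu0).mpr hu1
  have hb1 : 1 < b := by
    have : 1 ≤ ⌈u⁻¹⌉₊ := Nat.one_le_ceil_iff.mpr (by positivity)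
    omega
  have hbl : u⁻¹ ≤ b := by
    have := Nat.le_ceil u⁻¹
    rw [hb]; push_cast; linarith
  have hbu : (b : ℝ) ≤ 3 * u⁻¹ := by
    have := (Nat.ceil_lt_add_one (by positivity : (0 : ℝ) ≤ u⁻¹)).le
    rw [hb]; push_cast; linarith
  have hb0 : (0 : ℝ) < b := by exact_mod_cast (by omega : 0 < b)
  have hδ : 12 / (b : ℝ) + 3 * t * (b : ℝ) ^ 17 ≤ (12 + 3 ^ 18) * u := by
    have h3 : 12 / (b : ℝ) ≤ 12 * u := by
      rw [div_le_iff₀ hb0]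
      have : 1 ≤ u * b := by
        calc (1 : ℝ) = u * u⁻¹ := (mul_inv_cancel₀ hu0.ne').symm
          _ ≤ u * b := mul_le_mul_of_nonneg_left hbl hu0.le
      nlinarith
    have h4 : 3 * t * (b : ℝ) ^ 17 ≤ 3 ^ 18 * u := by
      calc 3 * t * (b : ℝ) ^ 17 ≤ 3 * t * (3 * u⁻¹) ^ 17 := by gcongr
        _ = 3 ^ 18 * (t * (u⁻¹) ^ 17) := by ring
        _ = 3 ^ 18 * u := by rw [← hu18]; field_simp
    linarith
  set eta : ℝ := t ^ (1 / 180 : ℝ) with heta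
  have he0 : 0 < eta := Real.rpow_pos_of_pos ht _
  have he2 : eta ^ 2 = t ^ (1 / 90 : ℝ) := by
    rw [heta, ← Real.rpow_natCast, ← Real.rpow_mul ht.le]
    norm_num
  have he10 : u = eta ^ 10 := by
    rw [heta, ← Real.rpow_natCast, ← Real.rpow_mul ht.le, hu]
    norm_num
  have hsq : √(12 / (b : ℝ) + 3 * t * (b : ℝ) ^ 17) ≤ 19684 * eta ^ 5 := by
    refine Real.sqrt_le_iff.mpr ⟨by positivity, hδ.trans ?_⟩
    rw [he10, mul_pow, ← pow_mul, show 5 * 2 = 10 from rfl]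
    have : (0 : ℝ) < eta ^ 10 := by positivity
    exact mul_le_mul_of_nonneg_right (by norm_num) this.le
  set Na := ∑ y ∈ I1, ∑ z ∈ I2, a y z ^ 2 with hNa
  have hNa0 : 0 ≤ Na := sum_nonneg fun _ _ => sum_nonneg fun _ _ => sq_nonneg _
  have key := few_deltaW hc hW hN h0 h1 h2 ht.le hL hE hU hX hD1 hD2 hD0 hd1 hd2 hm ha
    hφ hψ hb1 he0
  refine key.trans ?_
  have hX0 : (0 : ℝ) ≤ X.card := Nat.cast_nonneg _
  have h5 : 18 * X.card * m ^ 2 * D * eta ^ 2 + Na * √(12 / b + 3 * t * (b : ℝ) ^ 17) / eta ^ 3 ≤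
      20000 * ((X.card * m ^ 2 * D + Na) * t ^ (1 / 90 : ℝ)) := by
    have h6 : Na * √(12 / b + 3 * t * (b : ℝ) ^ 17) / eta ^ 3 ≤ Na * (19684 * eta ^ 2) := by
      rw [div_le_iff₀ (by positivity)]
      calc Na * √(12 / b + 3 * t * (b : ℝ) ^ 17) ≤ Na * (19684 * eta ^ 5) :=
            mul_le_mul_of_nonneg_left hsq hNa0
        _ = _ := by ring
    rw [← he2]
    have h7 : 0 ≤ (X.card : ℝ) * m ^ 2 * D * eta ^ 2 := by positivity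
    have h8 : 0 ≤ Na * eta ^ 2 := by positivity
    nlinarith
  calc _ ≤ (X.card : ℝ) ^ 3 * m ^ 2 * D * (L * N) ^ 2 *
        (20000 * ((X.card * m ^ 2 * D + Na) * t ^ (1 / 90 : ℝ))) :=
        mul_le_mul_of_nonneg_left h5 (by positivity)
    _ = _ := by ring


end

end Vale.Agent.P141.H927
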